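import Vale.Agent.P164.Koebe

/-!
# P164 DistA

Distortion estimates from `Univ.koebe` (Gronwall along segments: `norm_le_gronwallBound_of_norm_deriv_right_le`).
-/

open MeasureTheory ProbabilityTheory Set Filter Topology Complex Function
open scoped NNReal ENNReal ComplexConjugate

noncomputable section

namespace Vale.Agent.P164

variable {F : ℂ → ℂ} {Z Z' : ℂ}

theorem DistA_open : IsOpen HH := isOpen_lt continuous_const Complex.continuous_im

theorem DistA_d1 (hF : Univ F) (hZ : 0 < Z.im) : DifferentiableAt ℂ F Z :=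
  hF.diff.differentiableAt (DistA_open.mem_nhds hZ)

theorem DistA_d2 (hF : Univ F) (hZ : 0 < Z.im) : DifferentiableAt ℂ (deriv F) Z :=
  (hF.diff.deriv DistA_open).differentiableAt (DistA_open.mem_nhds hZ)

theorem DistA_im {ζ : ℂ} (h : ζ ∈ Metric.closedBall Z (Z.im / 16)) : 15 / 16 * Z.im ≤ ζ.im := by
  have h1 := (abs_le.1 ((Complex.abs_im_le_norm (ζ - Z)).trans (mem_closedBall_iff_norm.1 h))).1
  rw [Complex.sub_im] at h1
  linarith

theorem Univ.deriv_le (hF : Univ F) {y : ℝ} (hy : 0 < y) (h : y ≤ Z.im) (h' : y ≤ Z'.im) :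
    ‖deriv F Z'‖ ≤ ‖deriv F Z‖ * Real.exp (4 * ‖Z' - Z‖ / y) := by
  have him : ∀ t ∈ Icc (0 : ℝ) 1, y ≤ (Z + t * (Z' - Z)).im := by
    intro t ht
    have a1 := mul_le_mul_of_nonneg_left h (sub_nonneg.2 ht.2)
    have a2 := mul_le_mul_of_nonneg_left h' ht.1
    simp only [Complex.add_im, Complex.mul_im, Complex.ofReal_re, Complex.ofReal_im,
      Complex.sub_im, zero_mul, add_zero]
    linarith
  have hd : ∀ t ∈ Icc (0 : ℝ) 1, HasDerivAt (fun s : ℝ => deriv F (Z + s * (Z' - Z)))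
      (deriv (deriv F) (Z + t * (Z' - Z)) * (Z' - Z)) t := by
    intro t ht
    have h1 : HasDerivAt (fun u : ℂ => Z + u * (Z' - Z)) (Z' - Z) (t : ℂ) := by
      simpa using ((hasDerivAt_id (t : ℂ)).mul_const (Z' - Z)).const_add Z
    exact ((DistA_d2 hF (hy.trans_le (him t ht))).hasDerivAt.comp (t : ℂ) h1).comp_ofReal
  have key := norm_le_gronwallBound_of_norm_deriv_right_le (a := 0) (b := 1)
    (f := fun s : ℝ => deriv F (Z + s * (Z' - Z))) (δ := ‖deriv F Z‖) (K := 4 * ‖Z' - Z‖ / y)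
    (ε := 0) (fun t ht => (hd t ht).continuousAt.continuousWithinAt)
    (fun t ht => (hd t (Ico_subset_Icc_self ht)).hasDerivWithinAt) (by simp)
    (fun t ht => by
      have h1 := him t (Ico_subset_Icc_self ht)
      have h2 := hF.koebe (hy.trans_le h1)
      have h3 := mul_le_mul_of_nonneg_right h1 (norm_nonneg (deriv (deriv F) (Z + t * (Z' - Z))))
      have h4 := mul_le_mul_of_nonneg_right (h3.trans h2) (norm_nonneg (Z' - Z))
      rw [add_zero, norm_mul, div_mul_eq_mul_div, le_div_iff₀ hy]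
      linarith) 1 ⟨zero_le_one, le_rfl⟩
  simpa [gronwallBound_ε0] using key

theorem Univ.sub_le (hF : Univ F) {y : ℝ} (hy : 0 < y) (h : y ≤ Z.im) (h' : y ≤ Z'.im) :
    ‖F Z' - F Z‖ ≤ ‖Z' - Z‖ * ‖deriv F Z‖ * Real.exp (4 * ‖Z' - Z‖ / y) := by
  have hs : Convex ℝ ({ζ : ℂ | y ≤ ζ.im} ∩ Metric.closedBall Z ‖Z' - Z‖) :=
    (convex_halfSpace_im_ge y).inter (convex_closedBall _ _)
  have h1 := hs.norm_image_sub_le_of_norm_deriv_le (f := F)
    (C := ‖deriv F Z‖ * Real.exp (4 * ‖Z' - Z‖ / y)) (x := Z) (y := Z')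
    (fun ζ hζ => DistA_d1 hF (hy.trans_le hζ.1))
    (fun ζ hζ => (hF.deriv_le hy h hζ.1).trans (mul_le_mul_of_nonneg_left
      (Real.exp_le_exp.2 (div_le_div_of_nonneg_right (mul_le_mul_of_nonneg_left
        (mem_closedBall_iff_norm.1 hζ.2) (by norm_num)) hy.le)) (norm_nonneg _)))
    ⟨h, Metric.mem_closedBall_self (norm_nonneg _)⟩ ⟨h', mem_closedBall_iff_norm.2 le_rfl⟩
  linarith

theorem Univ.sc_pos (hF : Univ F) (hZ : 0 < Z.im) : 0 < sc F Z := by
  exact mul_pos hZ (norm_pos_iff.2 (hF.ne Z hZ))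

theorem DistA_near (hF : Univ F) (hZ : 0 < Z.im) {ζ : ℂ}
    (h : ζ ∈ Metric.closedBall Z (Z.im / 16)) : ‖deriv F ζ - deriv F Z‖ ≤ 4 / 11 * ‖deriv F Z‖ := by
  have hy : 0 < 15 / 16 * Z.im := by positivity
  have he : Real.exp (4 / 15) ≤ 15 / 11 := by
    have h1 := Real.add_one_le_exp (-(4 / 15))
    have h2 := mul_le_mul_of_nonneg_left h1 (Real.exp_pos (4 / 15)).le
    rw [← Real.exp_add, add_neg_cancel, Real.exp_zero] at h2
    linarith
  have h1 := (convex_closedBall Z (Z.im / 16)).norm_image_sub_le_of_norm_deriv_le (f := deriv F)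
    (C := 64 / 11 * ‖deriv F Z‖ / Z.im) (x := Z) (y := ζ)
    (fun w hw => DistA_d2 hF (hy.trans_le (DistA_im hw)))
    (fun w hw => by
      have a1 := DistA_im hw
      have a2 := hF.koebe (hy.trans_le a1)
      have a3 := hF.deriv_le hy (Z := Z) (by linarith) a1
      have a4 : 4 * ‖w - Z‖ / (15 / 16 * Z.im) ≤ 4 / 15 := by
        rw [div_le_iff₀ hy]
        linarith [mem_closedBall_iff_norm.1 hw]
      have a5 := mul_le_mul_of_nonneg_left ((Real.exp_le_exp.2 a4).trans he)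
        (norm_nonneg (deriv F Z))
      have a6 := mul_le_mul_of_nonneg_right a1 (norm_nonneg (deriv (deriv F) w))
      rw [le_div_iff₀ hZ]
      linarith)
    (Metric.mem_closedBall_self (by positivity)) h
  refine h1.trans ((mul_le_mul_of_nonneg_left (mem_closedBall_iff_norm.1 h)
    (by positivity)).trans (le_of_eq ?_))
  field_simp
  ring

/-- on the disc of radius `r = Y / 16`, `|F''| ≤ 5.6 |F' Z| / Y` (`exp (4 / 15) ≤ 15 / 11`), so
`|F ζ - F Z| ≥ 0.6 r |F' Z|` on the circle; `DiffContOnCl.ball_subset_image_closedBall` -/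
theorem Univ.cover (hF : Univ F) (hZ : 0 < Z.im) :
    Metric.ball (F Z) (sc F Z / 100) ⊆ F '' Metric.closedBall Z (Z.im / 16) := by
  have hy : 0 < 15 / 16 * Z.im := by positivity
  have hr : 0 < Z.im / 16 := by positivity
  have hd : DiffContOnCl ℂ F (Metric.ball Z (Z.im / 16)) := by
    refine DifferentiableOn.diffContOnCl ?_
    rw [closure_ball Z hr.ne']
    exact fun w hw => (DistA_d1 hF (hy.trans_le (DistA_im hw))).differentiableWithinAt
  have hs : ∀ z ∈ Metric.sphere Z (Z.im / 16), sc F Z / 50 ≤ ‖F z - F Z‖ := by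
    intro z hz
    have h1 := (convex_closedBall Z (Z.im / 16)).norm_image_sub_le_of_norm_hasDerivWithin_le
      (f := fun w => F w - deriv F Z * w) (f' := fun w => deriv F w - deriv F Z)
      (C := 4 / 11 * ‖deriv F Z‖) (x := Z) (y := z)
      (fun w hw => by
        have a1 := (DistA_d1 hF (hy.trans_le (DistA_im hw))).hasDerivAt
        have a2 : HasDerivAt (fun w => deriv F Z * w) (deriv F Z) w := by
          simpa using (hasDerivAt_id w).const_mul (deriv F Z)
        exact (a1.sub a2).hasDerivWithinAt)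
      (fun w hw => DistA_near hF hZ hw) (Metric.mem_closedBall_self hr.le)
      (Metric.sphere_subset_closedBall hz)
    have h2 : deriv F Z * (z - Z) =
        (F z - F Z) - (F z - deriv F Z * z - (F Z - deriv F Z * Z)) := by ring
    have h3 := norm_sub_le (F z - F Z) (F z - deriv F Z * z - (F Z - deriv F Z * Z))
    rw [← h2, norm_mul] at h3
    rw [mem_sphere_iff_norm.1 hz] at h1 h3
    have h4 := mul_nonneg hZ.le (norm_nonneg (deriv F Z))
    unfold sc
    linarith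
  have hf : ∃ᶠ z in 𝓝 Z, F z ≠ F Z := by
    have h1 : ∀ᶠ z in 𝓝[≠] Z, F z ≠ F Z := by
      filter_upwards [self_mem_nhdsWithin, mem_nhdsWithin_of_mem_nhds (DistA_open.mem_nhds hZ)]
        with z h1 h2 h3
      exact h1 (hF.inj h2 hZ h3)
    exact h1.frequently.filter_mono nhdsWithin_le_nhds
  have key := hd.ball_subset_image_closedBall hr hs hf
  rwa [show sc F Z / 50 / 2 = sc F Z / 100 by ring] at key

theorem Univ.ball_sub (hF : Univ F) (hZ : 0 < Z.im) {z : ℂ} (hz : ‖z - F Z‖ < sc F Z / 100) :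
    ∃ ζ, F ζ = z ∧ ‖ζ - Z‖ ≤ Z.im / 16 ∧ 0 < ζ.im ∧ sc F Z / 2 ≤ sc F ζ := by
  obtain ⟨ζ, h1, h2⟩ := hF.cover hZ (mem_ball_iff_norm.2 hz)
  have h3 := DistA_im h1
  have h4 := DistA_near hF hZ h1
  have h5 := norm_sub_norm_le (deriv F Z) (deriv F ζ)
  rw [norm_sub_rev] at h5
  refine ⟨ζ, h2, mem_closedBall_iff_norm.1 h1, by linarith, ?_⟩
  have h6 : 15 / 16 * Z.im * (7 / 11 * ‖deriv F Z‖) ≤ ζ.im * ‖deriv F ζ‖ :=
    mul_le_mul h3 (by linarith) (by positivity) (by linarith)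
  have h7 := mul_nonneg hZ.le (norm_nonneg (deriv F Z))
  unfold sc
  linarith

/-- `ball_sub` at `I ‖Z‖` and injectivity -/
theorem Univ.scb_le (hF : Univ F) (hZ : 0 < Z.im) :
    scb F Z ≤ 100 * (‖F Z - F (I * ‖Z‖)‖ + sc F Z) := by
  have h0 : (I * (‖Z‖ : ℂ)).im = ‖Z‖ := by simp
  have h1 : 0 < (I * (‖Z‖ : ℂ)).im := by
    rw [h0]
    exact hZ.trans_le ((le_abs_self _).trans (Complex.abs_im_le_norm Z))
  have h2 : sc F (I * ‖Z‖) = scb F Z := by
    unfold sc scb
    rw [h0]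
  have h3 := hF.sc_pos hZ
  have h4 := norm_nonneg (F Z - F (I * ‖Z‖))
  by_cases h : ‖F Z - F (I * ‖Z‖)‖ < sc F (I * ‖Z‖) / 100
  · obtain ⟨ζ, a1, -, a2, a3⟩ := hF.ball_sub h1 h
    rw [hF.inj a2 hZ a1, h2] at a3
    linarith
  · rw [h2] at h
    linarith [not_lt.1 h]

end Vale.Agent.P164
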