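import Vale.Agent.P164.Koebe
import Vale.Agent.P164.DistA

/-!
# P164 Dist

Distortion estimates from `Univ.koebe` (Gronwall along segments: `norm_le_gronwallBound_of_norm_deriv_right_le`).
-/

open MeasureTheory ProbabilityTheory Set Filter Topology Complex Function
open scoped NNReal ENNReal ComplexConjugate

noncomputable section

namespace Vale.Agent.P164

variable {F : ℂ → ℂ} {Z Z' : ℂ}

theorem dist_open : IsOpen HH := isOpen_lt continuous_const Complex.continuous_im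

theorem Univ.dist_vert (hF : Univ F) (hZ : 0 < Z.im) {ζ : ℂ} (h1 : ζ.re = Z.re) (h2 : Z.im ≤ ζ.im) :
    ‖deriv F ζ‖ ≤ ‖deriv F Z‖ * (ζ.im / Z.im) ^ 4 := by
  set p : ℝ → ℂ := fun τ => (Z.re : ℂ) + I * ((Z.im * Real.exp τ : ℝ) : ℂ) with hp
  have hpim : ∀ τ, (p τ).im = Z.im * Real.exp τ := by
    intro τ
    simp only [hp, Complex.add_im, Complex.ofReal_im, Complex.mul_im, Complex.I_re, Complex.I_im,
      Complex.ofReal_re]
    ring
  have hpos : ∀ τ, 0 < (p τ).im := fun τ => by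
    rw [hpim]
    exact mul_pos hZ (Real.exp_pos τ)
  have hpd : ∀ τ, HasDerivAt p (I * ((Z.im * Real.exp τ : ℝ) : ℂ)) τ := fun τ =>
    ((((Real.hasDerivAt_exp τ).const_mul Z.im).ofReal_comp).const_mul I).const_add _
  have hd : ∀ τ, HasDerivAt (fun τ => deriv F (p τ))
      (deriv (deriv F) (p τ) * (I * ((Z.im * Real.exp τ : ℝ) : ℂ))) τ := by
    intro τ
    have h3 : HasDerivAt (deriv F) (deriv (deriv F) (p τ)) (p τ) :=
      (hF.diff.analyticAt (dist_open.mem_nhds (hpos τ))).deriv.differentiableAt.hasDerivAt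
    have h4 := h3.comp_of_eq τ (hpd τ) rfl
    exact h4
  have hq : 1 ≤ ζ.im / Z.im := (one_le_div hZ).2 h2
  have hL : 0 ≤ Real.log (ζ.im / Z.im) := Real.log_nonneg hq
  have key := norm_le_gronwallBound_of_norm_deriv_right_le (f := fun τ => deriv F (p τ))
    (f' := fun τ => deriv (deriv F) (p τ) * (I * ((Z.im * Real.exp τ : ℝ) : ℂ)))
    (δ := ‖deriv F Z‖) (K := 4) (ε := 0) (a := 0) (b := Real.log (ζ.im / Z.im))
    (fun τ _ => (hd τ).continuousAt.continuousWithinAt)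
    (fun τ _ => (hd τ).hasDerivWithinAt) ?_ ?_ _ ⟨hL, le_rfl⟩
  · have e1 : p (Real.log (ζ.im / Z.im)) = ζ := by
      apply Complex.ext
      · simp only [hp, Complex.add_re, Complex.ofReal_re, Complex.mul_re, Complex.I_re, Complex.I_im,
          Complex.ofReal_im]
        rw [h1]
        ring
      · rw [hpim, Real.exp_log (by linarith)]
        field_simp
    rw [e1, gronwallBound_ε0, sub_zero] at key
    have e2 : Real.exp (4 * Real.log (ζ.im / Z.im)) = (ζ.im / Z.im) ^ 4 := by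
      have := Real.exp_nat_mul (Real.log (ζ.im / Z.im)) 4
      rw [Real.exp_log (by linarith)] at this
      exact_mod_cast this
    rwa [e2] at key
  · have e0 : p 0 = Z := by
      apply Complex.ext
      · simp [hp]
      · rw [hpim]
        simp
    simp only [e0, le_refl]
  · intro τ _
    have h5 := hF.koebe (hpos τ)
    rw [norm_mul, norm_mul, Complex.norm_I, one_mul, Complex.norm_real,
      Real.norm_of_nonneg (mul_pos hZ (Real.exp_pos τ)).le, ← hpim, add_zero, mul_comm]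
    exact h5

theorem dist_exp4 : Real.exp 4 ≤ 59 := by
  have h1 : Real.exp 1 < 2.72 := lt_trans Real.exp_one_lt_d9 (by norm_num)
  have h2 := Real.exp_nat_mul 1 4
  have h3 : Real.exp 1 ^ 4 ≤ (2.72 : ℝ) ^ 4 := pow_le_pow_left₀ (Real.exp_pos 1).le h1.le 4
  have h4 : Real.exp 4 = Real.exp 1 ^ 4 := by
    rw [← h2]
    norm_num
  rw [h4]
  exact h3.trans (by norm_num)

/-- on the vertical line `|F' (X + i y)| ≤ |F' Z| (y / Y) ^ 4` (the function `|F'| / y ^ 4` decreases, or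
Gronwall in `log y`), then a horizontal segment at height `‖Z‖` -/
theorem Univ.far_le (hF : Univ F) (hZ : 0 < Z.im) :
    ‖F Z - F (I * ‖Z‖)‖ ≤ 60 * sc F Z / sS Z ^ 5 := by
  set ρ := ‖Z‖ with hρ
  have hYρ : Z.im ≤ ρ := Complex.im_le_norm Z
  have hρ0 : 0 < ρ := lt_of_lt_of_le hZ hYρ
  have hX : |Z.re| ≤ ρ := Complex.abs_re_le_norm Z
  set P : ℂ := (Z.re : ℂ) + I * ρ with hP
  have hPre : P.re = Z.re := by simp [hP]
  have hPim : P.im = ρ := by simp [hP]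
  set M := ‖deriv F Z‖ * (ρ / Z.im) ^ 4 with hM
  have hM0 : 0 ≤ M := by positivity
  set s : Set ℂ := (({c : ℂ | Z.re ≤ c.re} ∩ {c : ℂ | c.re ≤ Z.re}) ∩ {c : ℂ | Z.im ≤ c.im}) ∩
    {c : ℂ | c.im ≤ ρ} with hs
  have hconv : Convex ℝ s :=
    (((convex_halfSpace_re_ge _).inter (convex_halfSpace_re_le _)).inter
      (convex_halfSpace_im_ge _)).inter (convex_halfSpace_im_le _)
  have hbd : ∀ x ∈ s, ‖deriv F x‖ ≤ M := by
    rintro x ⟨⟨⟨a1, a2⟩, a3⟩, a4⟩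
    have a3' : Z.im ≤ x.im := a3
    have a4' : x.im ≤ ρ := a4
    refine (hF.dist_vert hZ (le_antisymm a2 a1) a3).trans ?_
    have : 0 ≤ x.im / Z.im := div_nonneg (by linarith) hZ.le
    rw [hM]
    gcongr
  have hdf : ∀ x ∈ s, HasDerivWithinAt F (deriv F x) s x := by
    rintro x ⟨⟨-, a3⟩, -⟩
    have a3' : Z.im ≤ x.im := a3
    have hx : x ∈ HH := lt_of_lt_of_le hZ a3'
    exact (hF.diff.differentiableAt (dist_open.mem_nhds hx)).hasDerivAt.hasDerivWithinAt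
  have hZs : Z ∈ s := ⟨⟨⟨le_refl Z.re, le_refl Z.re⟩, le_refl Z.im⟩, hYρ⟩
  have hPs : P ∈ s := ⟨⟨⟨hPre.ge, hPre.le⟩, hYρ.trans hPim.ge⟩, hPim.le⟩
  have v1 := hconv.norm_image_sub_le_of_norm_hasDerivWithin_le hdf hbd hPs hZs
  have n1 : ‖Z - P‖ ≤ ρ := by
    refine (Complex.norm_le_abs_re_add_abs_im _).trans ?_
    rw [Complex.sub_re, Complex.sub_im, hPre, hPim, sub_self, abs_zero, zero_add, abs_le]
    constructor <;> linarith
  have hb : (I * (ρ : ℂ)).im = ρ := by simp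
  have v2 := hF.sub_le (Z := P) (Z' := I * ρ) hρ0 hPim.ge hb.ge
  have n2 : ‖I * (ρ : ℂ) - P‖ ≤ ρ := by
    have : I * (ρ : ℂ) - P = -(Z.re : ℂ) := by rw [hP]; ring
    rw [this, norm_neg, Complex.norm_real]
    exact hX
  have n3 : Real.exp (4 * ‖I * (ρ : ℂ) - P‖ / ρ) ≤ 59 := by
    refine le_trans (Real.exp_le_exp.2 ?_) dist_exp4
    rw [div_le_iff₀ hρ0]
    linarith
  have v3 : ‖F (I * ρ) - F P‖ ≤ ρ * M * 59 := by
    refine v2.trans ?_
    have := hbd P hPs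
    gcongr
  have v4 : ‖F Z - F P‖ ≤ M * ρ := v1.trans (mul_le_mul_of_nonneg_left n1 hM0)
  have e : 60 * sc F Z / sS Z ^ 5 = 60 * (ρ * M) := by
    rw [sc, sS, hM, ← hρ]
    field_simp
  have tri : ‖F Z - F (I * ρ)‖ ≤ ‖F Z - F P‖ + ‖F (I * ρ) - F P‖ := by
    have : F Z - F (I * ρ) = (F Z - F P) - (F (I * ρ) - F P) := by ring
    rw [this]
    exact norm_sub_le _ _
  rw [e]
  linarith

theorem schi_ge : ∃ c : ℝ, 0 < c ∧ ∀ (F : ℂ → ℂ) (Z : ℂ) (A : ℝ), Univ F → 0 < Z.im → 1 ≤ A →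
    sc F Z ≤ 2 → c * sS Z ^ 40 ≤ schi A F Z := by
  refine ⟨(1 / 14405) ^ 4, by positivity, fun F Z A hF hZ hA hsc => ?_⟩
  have hYρ : Z.im ≤ ‖Z‖ := Complex.im_le_norm Z
  have hρ0 : 0 < ‖Z‖ := lt_of_lt_of_le hZ hYρ
  have hS0 : 0 < sS Z := div_pos hZ hρ0
  have hS1 : sS Z ≤ 1 := (div_le_one hρ0).2 hYρ
  have hc := hF.sc_pos hZ
  have hfar := hF.far_le hZ
  set D := ‖F Z - F (I * ‖Z‖)‖ with hD
  have hD0 : 0 ≤ D := norm_nonneg _
  set S := sS Z ^ 5 with hS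
  have hS0' : 0 < S := pow_pos hS0 5
  have hS1' : S ≤ 1 := pow_le_one₀ hS0.le hS1
  rw [le_div_iff₀ hS0'] at hfar
  have h1 : D * S ≤ 120 := by linarith
  have h2 : (D * S) ^ 2 ≤ 120 ^ 2 := pow_le_pow_left₀ (by positivity) h1 2
  have hS2 : S ^ 2 ≤ 1 := pow_le_one₀ hS0'.le hS1'
  have hc2 : sc F Z ^ 2 ≤ 4 := by nlinarith
  have hA2 : 1 ≤ A ^ 2 := one_le_pow₀ hA
  have e : (1 / 14405 : ℝ) ^ 4 * sS Z ^ 40 = (S ^ 2 / 14405) ^ 4 := by
    rw [hS]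
    ring
  rw [e, schi, ← hD]
  refine pow_le_pow_left₀ (by positivity) ?_ 4
  rw [div_le_div_iff₀ (by norm_num) (by positivity)]
  have h3 : S ^ 2 * A ^ 2 ≤ A ^ 2 := by nlinarith
  have h4 : S ^ 2 * sc F Z ^ 2 ≤ 4 := by nlinarith [sq_nonneg (sc F Z), sq_nonneg S]
  nlinarith

theorem bulk_le : ∃ C : ℝ, 1 ≤ C ∧ ∀ (F : ℂ → ℂ) (Z Z' : ℂ), Univ F → 0 < Z.im → Bulk Z Z' →
    sc F Z' ≤ C * scb F Z ∧ scb F Z ≤ C * sc F Z' ∧ ‖F Z' - F (I * ‖Z‖)‖ ≤ C * scb F Z ∧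
      ‖F Z' - F (I * ‖Z'‖)‖ ≤ C * scb F Z := by
  have hE : 1 ≤ Real.exp 8 := Real.one_le_exp (by norm_num)
  refine ⟨4 * Real.exp 8, by linarith, fun F Z Z' hF hZ hB => ?_⟩
  obtain ⟨b1, b2, b3⟩ := hB
  set ρ := ‖Z‖ with hρ
  have hρ0 : 0 < ρ := lt_of_lt_of_le hZ (Complex.im_le_norm Z)
  have hb : (I * (ρ : ℂ)).im = ρ := by simp
  have hbr : (I * (ρ : ℂ)).re = 0 := by simp
  have hex : ∀ x : ℝ, x ≤ 2 * ρ → Real.exp (4 * x / ρ) ≤ Real.exp 8 := by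
    intro x hx
    rw [Real.exp_le_exp, div_le_iff₀ hρ0]
    linarith
  have n1 : ‖Z' - I * ρ‖ ≤ 2 * ρ := by
    refine (Complex.norm_le_abs_re_add_abs_im _).trans ?_
    rw [Complex.sub_re, Complex.sub_im, hb, hbr, sub_zero, abs_of_nonneg (sub_nonneg.2 b1)]
    linarith
  have n1' : ‖I * ρ - Z'‖ ≤ 2 * ρ := by rwa [norm_sub_rev]
  have m1 : ρ ≤ ‖Z'‖ := b1.trans (Complex.im_le_norm Z')
  have m2 : ‖Z'‖ ≤ 3 * ρ := by
    refine (Complex.norm_le_abs_re_add_abs_im _).trans ?_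
    rw [abs_of_nonneg (hρ0.le.trans b1)]
    linarith
  have hb' : (I * (‖Z'‖ : ℂ)).im = ‖Z'‖ := by simp
  have n2 : ‖I * (‖Z'‖ : ℂ) - I * ρ‖ ≤ 2 * ρ := by
    rw [← mul_sub, norm_mul, Complex.norm_I, one_mul, ← Complex.ofReal_sub, Complex.norm_real,
      Real.norm_of_nonneg (sub_nonneg.2 m1)]
    linarith
  set d := ‖deriv F (I * ρ)‖ with hd
  have hd0 : 0 ≤ d := norm_nonneg _
  have hscb : scb F Z = ρ * d := rfl
  have hE0 : 0 < Real.exp 8 := Real.exp_pos 8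
  have d1 : ‖deriv F Z'‖ ≤ d * Real.exp 8 :=
    (hF.deriv_le (Z := I * ρ) (Z' := Z') hρ0 hb.ge b1).trans
      (mul_le_mul_of_nonneg_left (hex _ n1) hd0)
  have d2 : d ≤ ‖deriv F Z'‖ * Real.exp 8 :=
    (hF.deriv_le (Z := Z') (Z' := I * ρ) hρ0 b1 hb.ge).trans
      (mul_le_mul_of_nonneg_left (hex _ n1') (norm_nonneg _))
  have s1 : ‖F Z' - F (I * ρ)‖ ≤ 2 * ρ * d * Real.exp 8 := by
    refine (hF.sub_le (Z := I * ρ) (Z' := Z') hρ0 hb.ge b1).trans ?_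
    have := hex _ n1
    gcongr
  have s2 : ‖F (I * ‖Z'‖) - F (I * ρ)‖ ≤ 2 * ρ * d * Real.exp 8 := by
    refine (hF.sub_le (Z := I * ρ) (Z' := I * ‖Z'‖) hρ0 hb.ge (m1.trans hb'.ge)).trans ?_
    have := hex _ n2
    gcongr
  have hpos : 0 ≤ ρ * d * Real.exp 8 := by positivity
  have hn0 : 0 ≤ ‖deriv F Z'‖ := norm_nonneg _
  rw [hscb]
  refine ⟨?_, ?_, by linarith, ?_⟩
  · have : Z'.im * ‖deriv F Z'‖ ≤ (2 * ρ) * (d * Real.exp 8) := by gcongr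
    rw [sc]
    linarith
  · have h1 : ρ * d ≤ Z'.im * (‖deriv F Z'‖ * Real.exp 8) := by
      have : 0 ≤ Z'.im := hρ0.le.trans b1
      gcongr
    have h2 : 0 ≤ Z'.im * (‖deriv F Z'‖ * Real.exp 8) := by
      have : 0 ≤ Z'.im := hρ0.le.trans b1
      positivity
    rw [sc]
    linarith
  · have : F Z' - F (I * ‖Z'‖) = (F Z' - F (I * ρ)) - (F (I * ‖Z'‖) - F (I * ρ)) := by ring
    rw [this]
    have := norm_sub_le (F Z' - F (I * ρ)) (F (I * ‖Z'‖) - F (I * ρ))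
    linarith

end Vale.Agent.P164
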