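import Vale.Agent.P164.PwA
import Vale.Agent.P164.Back
import Vale.Agent.P164.Dist

/-!
# P164 ChiBd

The jet of `chi` and crude bounds.
-/

open MeasureTheory ProbabilityTheory Set Filter Topology Complex Function
open scoped NNReal ENNReal ComplexConjugate

noncomputable section

namespace Vale.Agent.P164

variable {A η T : ℝ} {w : ℝ → ℝ} {z : ℂ}

theorem ChiBd_div {a q B : ℝ} (hq : 0 < q) (h : |a| ≤ B * q) : |a / q| ≤ B := by
  rwa [abs_div, abs_of_pos hq, div_le_iff₀ hq]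

theorem ChiBd_re (u v : ℂ) {q B : ℝ} (hu : ‖u‖ ≤ q) (hv : ‖v‖ ≤ B) : |(conj u * v).re| ≤ B * q :=
  (abs_re_le_norm _).trans (by
    rw [norm_mul, norm_conj, mul_comm]
    exact mul_le_mul hv hu (norm_nonneg _) ((norm_nonneg _).trans hv))

theorem ChiBd_wb (hη : 0 < η) (hw : Continuous w) {t x y D : ℝ} (ht : 0 ≤ t) (hy : 0 < y)
    (h : y ≤ (fl η w z t).im) (hD : √(1 + 4 * t / y ^ 2) ≤ D) :
    ‖wb0 η w z t x‖ ≤ D * (2 / y + 4 / η) ∧ ‖wb1 η w z t x‖ ≤ D * 2 ∧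
      ‖wb2 η w z t x‖ ≤ 4 * D / y * 2 ^ 2 + D * (1 / y) := by
  set ρ := √(r2 η w z t x) with hρ
  have a1 : |(fl η w z t).re - x| ≤ ρ := Real.abs_le_sqrt (le_add_of_nonneg_right (sq_nonneg _))
  have a2 : |(fl η w z t).im| ≤ ρ := Real.abs_le_sqrt (le_add_of_nonneg_left (sq_nonneg _))
  have a3 : y ≤ ρ := h.trans ((le_abs_self _).trans a2)
  have ρ0 : 0 < ρ := hy.trans_le a3
  have him : (x + I * ρ : ℂ).im = ρ := by simp
  have d1 : ‖deriv (bf w t) (x + I * ρ)‖ ≤ D := by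
    refine (norm_deriv_bf_le hw (by rwa [him]) ht).trans (le_trans (Real.sqrt_le_sqrt ?_) hD)
    rw [him]; gcongr
  have D0 : 0 ≤ D := (norm_nonneg _).trans d1
  have d2 : ‖deriv (deriv (bf w t)) (x + I * ρ)‖ ≤ 4 * D / y := by
    have := (bf_univ hw ht).koebe (Z := x + I * ρ) (by rwa [him])
    rw [him] at this
    rw [le_div_iff₀' hy]
    exact (mul_le_mul_of_nonneg_right a3 (norm_nonneg _)).trans (by linarith)
  have r0 : |ro0 η w z t x| ≤ 4 / η := by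
    refine ChiBd_div ρ0 ((abs_add_le _ _).trans ?_)
    have k := norm_fld_le' hη (w t) (fl η w z t)
    have k1 := mul_le_mul a1 ((abs_re_le_norm _).trans k) (abs_nonneg _) ρ0.le
    have k2 := mul_le_mul a2 ((abs_im_le_norm _).trans k) (abs_nonneg _) ρ0.le
    rw [abs_mul, abs_mul]
    refine (add_le_add k1 k2).trans (le_of_eq ?_)
    ring
  have r1 : ‖(1 + I * ro1 η w z t x : ℂ)‖ ≤ 2 := by
    have : |ro1 η w z t x| ≤ 1 := ChiBd_div ρ0 (by rwa [abs_neg, one_mul])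
    refine (norm_add_le _ _).trans ?_
    simp only [norm_one, norm_mul, norm_I, norm_real, Real.norm_eq_abs]
    linarith
  have r2' : ‖(I * ro2 η w z t x : ℂ)‖ ≤ 1 / y := by
    rw [norm_mul, norm_I, one_mul, norm_real, Real.norm_eq_abs]
    refine ChiBd_div (pow_pos ρ0 3) ?_
    rw [abs_pow, one_div, le_inv_mul_iff₀ hy, pow_succ' ρ 2]
    gcongr
  refine ⟨?_, ?_, ?_⟩
  · rw [wb0, norm_mul]
    refine mul_le_mul d1 ((norm_add_le _ _).trans (add_le_add ?_ ?_)) (norm_nonneg _) D0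
    · rw [norm_div, norm_neg, Complex.norm_ofNat]
      have : y ≤ ‖(x + I * ρ - w t : ℂ)‖ := a3.trans (le_trans (by simp) (im_le_norm _))
      gcongr
    · rwa [norm_mul, norm_I, one_mul, norm_real, Real.norm_eq_abs]
  · rw [wb1, norm_mul]
    exact mul_le_mul d1 r1 (norm_nonneg _) D0
  · rw [wb2]
    refine (norm_add_le _ _).trans (add_le_add ?_ ?_)
    · rw [norm_mul, norm_pow]
      gcongr
    · rw [norm_mul]
      exact mul_le_mul d1 r2' (norm_nonneg _) D0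

theorem chi_mem (hA : 1 ≤ A) (η : ℝ) (w : ℝ → ℝ) (z : ℂ) (t x : ℝ) :
    0 ≤ chi A η w z t x ∧ chi A η w z t x ≤ 1 := by
  have h1 : A ^ 2 ≤ QQ A η w z t x := by
    unfold QQ; linarith [sq_nonneg ‖z - wb η w z t x‖, sq_nonneg (cc η w z t)]
  have h2 : 0 < A ^ 2 := by positivity
  exact ⟨by unfold chi; positivity,
    pow_le_one₀ (div_nonneg h2.le (h2.le.trans h1)) ((div_le_one (h2.trans_le h1)).2 h1)⟩

/-- the height is at least `y = η exp (-2 T / η ^ 2)`, `|f'| ≤ √(1 + 4 T / y ^ 2)`,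
`|f''| ≤ 4 |f'| / y`, `‖z - wb‖ ≤ QQ`, `cc ^ 2 ≤ QQ`, `1 ≤ QQ` -/
theorem m_crude (hη : 0 < η) (T : ℝ) : ∃ K : ℝ, ∀ (A : ℝ) (w : ℝ → ℝ) (z : ℂ), 1 ≤ A →
    Continuous w → η ≤ z.im → ∀ t ∈ Icc 0 T, ∀ x,
    |m0 A η w z t x| ≤ K ∧ |m1 A η w z t x| ≤ K ∧ |m2 A η w z t x| ≤ K := by
  set y := η * Real.exp (-2 * T / η ^ 2) with hy
  have y0 : 0 < y := by positivity
  set D := √(1 + 4 * T / y ^ 2) with hD
  have D0 : 0 ≤ D := Real.sqrt_nonneg _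
  obtain ⟨B0, hB0⟩ : ∃ B, B = D * (2 / y + 4 / η) := ⟨_, rfl⟩
  obtain ⟨B1, hB1⟩ : ∃ B, B = D * 2 := ⟨_, rfl⟩
  obtain ⟨B2, hB2⟩ : ∃ B, B = 4 * D / y * 2 ^ 2 + D * (1 / y) := ⟨_, rfl⟩
  have p0 : 0 ≤ B0 := by rw [hB0]; positivity
  have p1 : 0 ≤ B1 := by rw [hB1]; positivity
  have p2 : 0 ≤ B2 := by rw [hB2]; positivity
  have p3 : 0 ≤ 4 / η ^ 2 := by positivity
  refine ⟨8 * B0 + 8 * (4 / η ^ 2) + 8 * B1 + (24 * B1 ^ 2 + 8 * B2),
    fun A w z hA hw hz t ht x => ?_⟩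
  have h1 : y ≤ (fl η w z t).im := by
    refine le_trans ?_ (fl_im_ge hη hw (hη.trans_le hz) ht.1)
    have : -2 * T / η ^ 2 ≤ -2 * t / η ^ 2 :=
      div_le_div_of_nonneg_right (by linarith [ht.2]) (by positivity)
    exact mul_le_mul hz (Real.exp_le_exp.2 this) (Real.exp_pos _).le (hη.le.trans hz)
  obtain ⟨b0, b1, b2⟩ := ChiBd_wb (x := x) (D := D) hη hw ht.1 y0 h1
    (Real.sqrt_le_sqrt (by gcongr; exact ht.2))
  rw [← hB0] at b0
  rw [← hB1] at b1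
  rw [← hB2] at b2
  have hA2 : 1 ≤ A ^ 2 := one_le_pow₀ hA
  obtain ⟨q1, q2, q3⟩ : 1 ≤ QQ A η w z t x ∧ ‖z - wb η w z t x‖ ≤ QQ A η w z t x ∧
      cc η w z t ^ 2 ≤ QQ A η w z t x := by
    unfold QQ
    refine ⟨?_, ?_, ?_⟩ <;> nlinarith [sq_nonneg ‖z - wb η w z t x‖, sq_nonneg (cc η w z t),
      sq_nonneg (‖z - wb η w z t x‖ - 1)]
  have q0 : 0 < QQ A η w z t x := by linarith
  have k0 := abs_le.1 (ChiBd_re _ _ q2 b0)
  have k1 := abs_le.1 (ChiBd_re _ _ q2 b1)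
  have k2 := abs_le.1 (ChiBd_re _ _ q2 b2)
  have dp := den_pos hη (w t) (fl η w z t)
  have k3 : 4 * (fl η w z t).im ^ 2 / den η (w t) (fl η w z t) ^ 2 ≤ 4 / η ^ 2 := by
    rw [div_le_div_iff₀ (by positivity) (by positivity), mul_assoc, sq (den _ _ _)]
    gcongr
    · exact (le_add_of_nonneg_left (sq_nonneg _)).trans (normSq_le_den _ _ _)
    · exact sq_le_den hη.le _ _
  have k4 := mul_le_mul q3 k3 (by positivity) q0.le
  have k5 : 0 ≤ cc η w z t ^ 2 * (4 * (fl η w z t).im ^ 2 / den η (w t) (fl η w z t) ^ 2) := by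
    positivity
  have k6 := (pow_le_pow_left₀ (norm_nonneg _) b1 2).trans
    (le_mul_of_one_le_right (sq_nonneg B1) q1)
  have s0 : |Q0 η w z t x / QQ A η w z t x| ≤ 2 * B0 + 2 * (4 / η ^ 2) :=
    ChiBd_div q0 (abs_le.2 ⟨by unfold Q0; linarith [k0.2], by
      unfold Q0; linarith [k0.1, mul_nonneg p3 q0.le]⟩)
  have s1 : |Q1 η w z t x / QQ A η w z t x| ≤ 2 * B1 :=
    ChiBd_div q0 (abs_le.2 ⟨by unfold Q1; linarith [k1.2], by unfold Q1; linarith [k1.1]⟩)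
  have s2 : |Q2 η w z t x / QQ A η w z t x| ≤ 2 * B1 ^ 2 + 2 * B2 :=
    ChiBd_div q0 (abs_le.2 ⟨by
      unfold Q2; linarith [k2.2, sq_nonneg ‖wb1 η w z t x‖, mul_nonneg (sq_nonneg B1) q0.le], by
      unfold Q2; linarith [k2.1]⟩)
  have s3 := sq_le_sq' (abs_le.1 s1).1 (abs_le.1 s1).2
  have s4 := sq_nonneg (Q1 η w z t x / QQ A η w z t x)
  have s5 := sq_nonneg B1
  rw [abs_le] at s0 s1 s2
  rw [m0, m1, m2, mul_div_assoc, mul_div_assoc, mul_div_assoc, abs_le, abs_le, abs_le]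
  refine ⟨⟨?_, ?_⟩, ⟨?_, ?_⟩, ?_, ?_⟩ <;> linarith [s0.1, s0.2, s1.1, s1.2, s2.1, s2.2]

end Vale.Agent.P164
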