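import Vale.Agent.P164.ChiJet

/-!
# P164 ChiEst

Fine bounds at `x = w t` for living points. Let `F = FF w t`, `Z = ZZ η w z t`, `ρ = ‖Z‖`, `b = scb F Z`,
`Q = QQ`. Then `‖wb1‖ ≤ 2 b / ρ`, `‖wb2‖ ≤ 9 b / ρ ^ 2` (`Univ.koebe`), `‖wb0‖ ≤ 4 b / ρ ^ 2`,
`‖z - wb‖ ≤ √Q`, `v = b / √Q ≤ min 200 (b / A)` (`Univ.scb_le`, `FF_ZZ`).
-/

open MeasureTheory ProbabilityTheory Set Filter Topology Complex Function
open scoped NNReal ENNReal ComplexConjugate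

noncomputable section

namespace Vale.Agent.P164

theorem ChiEst_re (u v : ℂ) : |(conj u * v).re| ≤ ‖u‖ * ‖v‖ :=
  (Complex.abs_re_le_norm _).trans_eq (by rw [norm_mul, Complex.norm_conj])

theorem ChiEst_div {ρ q n v a R : ℝ} (hρ : 0 < ρ) (hq : 0 < q) (hn : n ≤ q) (hv : 0 ≤ v)
    (ha : 0 ≤ a) (h : |R| ≤ n * (a * (v * q) / ρ)) : ρ * |R / q ^ 2| ≤ a * v := by
  rw [abs_div, abs_of_pos (pow_pos hq 2), ← mul_div_assoc, div_le_iff₀ (pow_pos hq 2)]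
  calc ρ * |R| ≤ ρ * (q * (a * (v * q) / ρ)) := by
        refine mul_le_mul_of_nonneg_left (h.trans ?_) hρ.le
        gcongr
    _ = _ := by field_simp

theorem ChiEst_real {ρ q n v R0 R1 R2 W c S : ℝ} (hρ : 0 < ρ) (hq : 0 < q) (hn : n ≤ q)
    (hv : 0 ≤ v) (hv' : v ≤ 200) (h0 : |R0| ≤ n * (4 * (v * q) / ρ ^ 2))
    (h1 : |R1| ≤ n * (2 * (v * q) / ρ)) (h2 : |R2| ≤ n * (17 * (v * q) / ρ ^ 2)) (hW0 : 0 ≤ W)
    (hW : W ≤ 2 * (v * q) / ρ) :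
    ρ ^ 2 * (-4 * (-2 * R0 - 2 * c ^ 2 * (4 * (S * ρ) ^ 2 / (ρ ^ 2) ^ 2)) / q ^ 2) ≤
      20000 * v + 32 * S ^ 2 * c ^ 2 / q ^ 2 ∧
    ρ * |-4 * (-2 * R1) / q ^ 2| ≤ 20000 * v ∧
    ρ ^ 2 * |-4 * (2 * W ^ 2 - 2 * R2) / q ^ 2 + 4 * (-2 * R1 / q ^ 2) ^ 2| ≤ 20000 * v := by
  have hρ2 := pow_pos hρ 2
  have k0 := ChiEst_div hρ2 hq hn hv (by norm_num) h0
  have k1 := ChiEst_div hρ hq hn hv (by norm_num) h1
  have k2 := ChiEst_div hρ2 hq hn hv (by norm_num) h2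
  refine ⟨?_, ?_, ?_⟩
  · have e : ρ ^ 2 * (-4 * (-2 * R0 - 2 * c ^ 2 * (4 * (S * ρ) ^ 2 / (ρ ^ 2) ^ 2)) / q ^ 2) =
        8 * (ρ ^ 2 * (R0 / q ^ 2)) + 32 * S ^ 2 * c ^ 2 / q ^ 2 := by
      field_simp
      ring
    have := mul_le_mul_of_nonneg_left (le_abs_self (R0 / q ^ 2)) hρ2.le
    rw [e]
    linarith
  · have e : -4 * (-2 * R1) / q ^ 2 = 8 * (R1 / q ^ 2) := by ring
    rw [e, abs_mul, abs_of_pos (by norm_num : (0 : ℝ) < 8)]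
    linarith
  · have k3 : ρ * W / q ≤ 2 * v := by
      rw [div_le_iff₀ hq]
      calc ρ * W ≤ ρ * (2 * (v * q) / ρ) := by gcongr
        _ = _ := by field_simp
    have k4 : (ρ * W / q) ^ 2 ≤ (2 * v) ^ 2 := pow_le_pow_left₀ (by positivity) k3 2
    have k5 : (ρ * (R1 / q ^ 2)) ^ 2 ≤ (2 * v) ^ 2 := by
      rw [← sq_abs, abs_mul, abs_of_pos hρ]
      exact pow_le_pow_left₀ (by positivity) k1 2
    have k6 : |ρ ^ 2 * (R2 / q ^ 2)| ≤ 17 * v := by rwa [abs_mul, abs_of_pos hρ2]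
    have e : ρ ^ 2 * (-4 * (2 * W ^ 2 - 2 * R2) / q ^ 2 + 4 * (-2 * R1 / q ^ 2) ^ 2) =
        -8 * (ρ * W / q) ^ 2 + 8 * (ρ ^ 2 * (R2 / q ^ 2)) + 16 * (ρ * (R1 / q ^ 2)) ^ 2 := by
      ring
    have k7 : (2 * v) ^ 2 ≤ 800 * v := by nlinarith
    rw [← abs_of_pos hρ2, ← abs_mul, e, abs_le]
    obtain ⟨a1, a2⟩ := abs_le.1 k6
    constructor <;> nlinarith [sq_nonneg (ρ * W / q), sq_nonneg (ρ * (R1 / q ^ 2))]

theorem ChiEst_norm {ρ a0 a1 a2 : ℝ} {D D2 : ℂ} (hρ : 0 < ρ) (hD : ρ * ‖D2‖ ≤ 4 * ‖D‖)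
    (h0 : |a0| ≤ 2 / ρ) (h1 : |a1| ≤ 1) (h2 : |a2| ≤ 1 / ρ) :
    ‖D * (-2 / (I * ρ) + I * a0)‖ ≤ 4 * (ρ * ‖D‖) / ρ ^ 2 ∧
    ‖D * (1 + I * a1)‖ ≤ 2 * (ρ * ‖D‖) / ρ ∧
    ‖D2 * (1 + I * a1) ^ 2 + D * (I * a2)‖ ≤ 17 * (ρ * ‖D‖) / ρ ^ 2 := by
  have hI : ∀ a : ℝ, ‖I * a‖ = |a| := fun a => by simp
  have k1 : ‖1 + I * a1‖ ≤ 2 := (norm_add_le _ _).trans (by rw [hI, norm_one]; linarith)
  have k0 : ‖-2 / (I * ρ) + I * a0‖ ≤ 2 / ρ + 2 / ρ := (norm_add_le _ _).trans (by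
    rw [hI, norm_div, hI, abs_of_pos hρ, norm_neg, Complex.norm_two]
    linarith)
  have k2 : ‖D2‖ ≤ 4 * ‖D‖ / ρ := by rwa [le_div_iff₀' hρ]
  refine ⟨?_, ?_, (norm_add_le _ _).trans ?_⟩
  · rw [norm_mul]
    refine (mul_le_mul_of_nonneg_left k0 (norm_nonneg _)).trans_eq ?_
    field_simp
    ring
  · rw [norm_mul]
    refine (mul_le_mul_of_nonneg_left k1 (norm_nonneg _)).trans_eq ?_
    field_simp
  · rw [norm_mul, norm_mul, hI, norm_pow]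
    calc _ ≤ 4 * ‖D‖ / ρ * 2 ^ 2 + ‖D‖ * (1 / ρ) := by gcongr
      _ = _ := by
        field_simp
        ring

theorem ChiEst_ro {ρ X Y : ℝ} (hρ : 0 < ρ) (h : ρ ^ 2 = X ^ 2 + Y ^ 2) :
    |(X * (2 * X / ρ ^ 2) + Y * (-2 * Y / ρ ^ 2)) / ρ| ≤ 2 / ρ ∧ |-X / ρ| ≤ 1 ∧
      |Y ^ 2 / ρ ^ 3| ≤ 1 / ρ := by
  have hρ2 := pow_pos hρ 2
  refine ⟨?_, ?_, ?_⟩
  · have e : X * (2 * X / ρ ^ 2) + Y * (-2 * Y / ρ ^ 2) = 2 * (X ^ 2 - Y ^ 2) / ρ ^ 2 := by ring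
    rw [abs_div, abs_of_pos hρ, e, abs_div, abs_of_pos hρ2]
    refine div_le_div_of_nonneg_right ?_ hρ.le
    rw [div_le_iff₀ hρ2, abs_le]
    constructor <;> nlinarith [sq_nonneg X, sq_nonneg Y]
  · rw [abs_div, abs_of_pos hρ, div_le_one hρ, abs_neg]
    exact abs_le_of_sq_le_sq' (by nlinarith [sq_nonneg Y]) hρ.le |> abs_le.2
  · rw [abs_of_nonneg (by positivity), div_le_div_iff₀ (by positivity) hρ]
    nlinarith [mul_nonneg (sq_nonneg X) hρ.le]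

theorem m_fine : ∃ C : ℝ, 0 < C ∧ ∀ (A η t : ℝ) (w : ℝ → ℝ) (z : ℂ), 1 ≤ A → 0 < η → 0 ≤ t →
    Continuous w → 0 < z.im → η ≤ (fl η w z t).im →
    r2 η w z t (w t) * m0 A η w z t (w t) ≤ sLam C A (FF w t) (ZZ η w z t) ∧
    √(r2 η w z t (w t)) * |m1 A η w z t (w t)| ≤ C * min 1 (scb (FF w t) (ZZ η w z t) / A) ∧
    r2 η w z t (w t) * |m2 A η w z t (w t)| ≤ C * min 1 (scb (FF w t) (ZZ η w z t) / A) := by
  refine ⟨4000000, by norm_num, fun A η t w z hA hη ht hw hz h => ?_⟩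
  have hY : 0 < (ZZ η w z t).im := by
    rw [ZZ_im]
    linarith
  obtain ⟨hz1, hz2⟩ := FF_ZZ hη hw hz ht h
  have hb := (FF_univ hw ht).scb_le hY
  have hr := r2_eq η w z t
  have hden := den_alive hη h
  have hS : (fl η w z t).im = sS (ZZ η w z t) * ‖ZZ η w z t‖ := by
    rw [sS, div_mul_cancel₀ _ (hY.trans_le (Complex.im_le_norm _)).ne', ZZ_im]
  have hbe : scb (FF w t) (ZZ η w z t) =
      ‖ZZ η w z t‖ * ‖deriv (FF w t) (I * ‖ZZ η w z t‖)‖ := rfl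
  have hc := cc_pos hz η w t
  rw [sLam, hz2]
  rw [hz1, hz2] at hb
  have hρ : 0 < ‖ZZ η w z t‖ := hY.trans_le (Complex.im_le_norm _)
  generalize ‖ZZ η w z t‖ = ρ at hr hS hbe hb hρ
  generalize scb (FF w t) (ZZ η w z t) = b at hbe hb ⊢
  generalize sS (ZZ η w z t) = S at hS ⊢
  have hs : √(r2 η w z t (w t)) = ρ := by rw [hr, Real.sqrt_sq hρ.le]
  have him : (w t + I * ρ : ℂ).im = ρ := by simp
  have hk := (bf_univ hw ht).koebe (Z := w t + I * ρ) (by rwa [him])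
  rw [deriv_FF hw ht (by simpa using hρ)] at hbe
  rw [him] at hk
  obtain ⟨a0, a1, a2⟩ := ChiEst_ro (X := (fl η w z t).re - w t) (Y := (fl η w z t).im) hρ hr.symm
  obtain ⟨b0, b1, b2⟩ := ChiEst_norm hρ hk a0 a1 a2
  have e0 : ‖wb0 η w z t (w t)‖ ≤ 4 * b / ρ ^ 2 := by
    rw [wb0, ro0, fld_re, fld_im, hden, hs, hr, add_sub_cancel_left, hbe]
    exact b0
  have e1 : ‖wb1 η w z t (w t)‖ ≤ 2 * b / ρ := by
    rw [wb1, ro1, hs, hbe]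
    exact b1
  have e2 : ‖wb2 η w z t (w t)‖ ≤ 17 * b / ρ ^ 2 := by
    rw [wb2, ro1, ro2, hs, hbe]
    exact b2
  have e3 : FF w t (I * ρ) = wb η w z t (w t) := by rw [FF, wb, hs]
  rw [e3] at hb
  have hb0 : 0 ≤ b := by
    rw [hbe]
    positivity
  have hQ : QQ A η w z t (w t) = A ^ 2 + ‖z - wb η w z t (w t)‖ ^ 2 + cc η w z t ^ 2 := rfl
  have hn := norm_nonneg (z - wb η w z t (w t))
  have hQ0 : 0 < QQ A η w z t (w t) := by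
    rw [hQ]
    positivity
  obtain ⟨q, hq, hq2⟩ : ∃ q, 0 < q ∧ QQ A η w z t (w t) = q ^ 2 :=
    ⟨_, Real.sqrt_pos.2 hQ0, (Real.sq_sqrt hQ0.le).symm⟩
  rw [hq2] at hQ
  have s1 := sq_nonneg A
  have s2 := sq_nonneg ‖z - wb η w z t (w t)‖
  have s3 := sq_nonneg (cc η w z t)
  have q1 : ‖z - wb η w z t (w t)‖ ≤ q := abs_le_of_sq_le_sq' (by linarith) hq.le |>.2
  have q2 : cc η w z t ≤ q := abs_le_of_sq_le_sq' (by linarith) hq.le |>.2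
  have q3 : A ≤ q := abs_le_of_sq_le_sq' (by linarith) hq.le |>.2
  have v1 : b / q ≤ 200 := by
    rw [div_le_iff₀ hq]
    linarith
  have v2 : b / q ≤ 200 * min 1 (b / A) := by
    have v3 : b / q ≤ b / A := div_le_div_of_nonneg_left hb0 (by linarith) q3
    have v4 : 0 ≤ b / A := by positivity
    rcases min_choice 1 (b / A) with e | e <;> rw [e] <;> linarith
  have eb : b = b / q * q := (div_mul_cancel₀ _ hq.ne').symm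
  rw [eb] at e0 e1 e2
  obtain ⟨c0, c1, c2⟩ := ChiEst_real (c := cc η w z t) (S := S) hρ hq q1 (by positivity) v1
    ((ChiEst_re _ _).trans (mul_le_mul_of_nonneg_left e0 hn))
    ((ChiEst_re _ _).trans (mul_le_mul_of_nonneg_left e1 hn))
    ((ChiEst_re _ _).trans (mul_le_mul_of_nonneg_left e2 hn)) (norm_nonneg _) e1
  have c3 : 32 * S ^ 2 * cc η w z t ^ 2 / q ^ 2 ≤
      32 * S ^ 2 * cc η w z t ^ 2 / (A ^ 2 + cc η w z t ^ 2) :=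
    div_le_div_of_nonneg_left (by positivity) (by positivity) (by linarith)
  rw [m0, m1, m2, Q0, Q1, Q2, hq2, hden, hs, hr, hS]
  refine ⟨?_, ?_, ?_⟩ <;> linarith

end Vale.Agent.P164
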