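import Vale.Agent.P164.Pw
import Vale.Agent.P164.BackT
import Vale.Agent.P164.Dist
import Vale.Agent.P164.ChiBd

/-!
# P164 ChiJet

The jet of `chi` and crude bounds.
-/

open MeasureTheory ProbabilityTheory Set Filter Topology Complex Function
open scoped NNReal ENNReal ComplexConjugate

noncomputable section

namespace Vale.Agent.P164

variable {A η T : ℝ} {w : ℝ → ℝ} {z : ℂ}

theorem jet_ro (hη : 0 < η) (hw : Continuous w) (hz : 0 < z.im) (T : ℝ) :
    Jet T (fun t x => √(r2 η w z t x)) (ro0 η w z) (ro1 η w z) (ro2 η w z) := by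
  refine ((jet_r2 hη hw z T).rpow (fun t _ x => r2_pos hη hw hz t x) (1 / 2)).congr
    fun t _ x => ?_
  have h := Real.sqrt_pos.2 (r2_pos hη hw hz t x)
  have e := Real.sq_sqrt (r2_pos hη hw hz t x).le
  have e2 : (fl η w z t).im ^ 2 = √(r2 η w z t x) ^ 2 - ((fl η w z t).re - x) ^ 2 := by
    rw [e, r2]
    ring
  rw [← Real.sqrt_eq_rpow, ro0, ro1, ro2, e2]
  generalize √(r2 η w z t x) = ρ at h e
  rw [← e]
  refine ⟨rfl, ?_, ?_, ?_⟩ <;> field_simp
  ring

/-- `bf_time`, the chain rule, `bf_contOn`, `deriv_bf_contOn`, `deriv2_bf_contOn` -/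
theorem jet_wb (hη : 0 < η) (hw : Continuous w) (hz : 0 < z.im) (T : ℝ) :
    Jet T (wb η w z) (wb0 η w z) (wb1 η w z) (wb2 η w z) := by
  have h := jet_ro hη hw hz T
  have hp : ∀ t x : ℝ, 0 < ((x : ℂ) + I * (√(r2 η w z t x) : ℝ)).im := fun t x => by
    simpa using r2_pos hη hw hz t x
  have cv : ∀ {g : ℝ → ℝ → ℝ}, ContinuousOn (uncurry g) (Icc 0 T ×ˢ univ) →
      ContinuousOn (fun q : ℝ × ℝ => I * (g q.1 q.2 : ℂ)) (Icc 0 T ×ˢ univ) := fun hg =>
    continuousOn_const.mul (continuous_ofReal.comp_continuousOn hg)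
  have cz : ContinuousOn (fun q : ℝ × ℝ => (q.2 : ℂ) + I * (√(r2 η w z q.1 q.2) : ℝ))
      (Icc 0 T ×ˢ univ) := (continuous_ofReal.comp continuous_snd).continuousOn.add (cv h.c)
  have cc : ∀ {F : ℝ × ℂ → ℂ}, ContinuousOn F (Ici 0 ×ˢ HH) → ContinuousOn
      (fun q : ℝ × ℝ => F (q.1, (q.2 : ℂ) + I * (√(r2 η w z q.1 q.2) : ℝ))) (Icc 0 T ×ˢ univ) :=
    fun hF => hF.comp (continuousOn_fst.prodMk cz) fun q hq => ⟨hq.1.1, hp q.1 q.2⟩
  have c0 := cc (bf_contOn hw)
  have c1 := cc (deriv_bf_contOn hw)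
  have c2 := cc (deriv2_bf_contOn hw)
  have ho : IsOpen HH := isOpen_lt continuous_const continuous_im
  have dz : ∀ t ∈ Icc 0 T, ∀ x : ℝ, HasDerivAt
      (fun x : ℝ => (x : ℂ) + I * (√(r2 η w z t x) : ℝ)) (1 + I * ro1 η w z t x) x :=
    fun t ht x => (hasDerivAt_id x).ofReal_comp.add ((h.d1 t ht x).ofReal_comp.const_mul I)
  refine ⟨c0, c1.mul ((continuousOn_const.div (cz.sub
    (continuous_ofReal.comp (hw.comp continuous_fst)).continuousOn) fun q _ e => ?_).add (cv h.c0)),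
    c1.mul (continuousOn_const.add (cv h.c1)),
    (c2.mul ((continuousOn_const.add (cv h.c1)).pow 2)).add (c1.mul (cv h.c2)),
    fun t ht x => ?_, fun t ht x => ?_, fun t ht x => ?_⟩
  · have := congrArg im (sub_eq_zero.1 e)
    exact (hp q.1 q.2).ne' this
  · exact bf_time hw ht.1 (ζ := fun s => (x : ℂ) + I * (√(r2 η w z s x) : ℝ)) (hp t x)
      (((h.d0 t ht x).ofReal_comp.const_mul I).const_add _)
  · exact ((bf_univ hw ht.1).diff.differentiableAt (ho.mem_nhds (hp t x))).hasDerivAt.comp x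
      (dz t ht x)
  · have a1 := (((bf_univ hw ht.1).diff.deriv ho).differentiableAt
      (ho.mem_nhds (hp t x))).hasDerivAt.comp x (dz t ht x)
    have a2 := a1.mul (((h.d2 t ht x).ofReal_comp.const_mul I).const_add 1)
    refine a2.congr_deriv ?_
    rw [wb2, Function.comp_apply]
    ring

theorem jet_QQ (A : ℝ) (hη : 0 < η) (hw : Continuous w) (hz : 0 < z.im) (T : ℝ) :
    Jet T (QQ A η w z) (Q0 η w z) (Q1 η w z) (Q2 η w z) := by
  have h2 := fl_cont hη hw z
  have h1 := cc_cont hη hw z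
  have h3 : Continuous fun t => den η (w t) (fl η w z t) :=
    continuous_den.comp (continuous_const.prodMk (hw.prodMk h2))
  have h4 : Continuous fun t => 4 * (fl η w z t).im ^ 2 / den η (w t) (fl η w z t) ^ 2 :=
    Continuous.div (by fun_prop) (h3.pow 2) fun t => (pow_pos (den_pos hη _ _) 2).ne'
  refine (((Jet.const (A ^ 2) T).add ((jet_wb hη hw hz T).normSq z)).add
    (Jet.time (fun t => (cc_deriv hη hw z t).pow 2) (by fun_prop) T)).congr fun t _ x => ?_
  refine ⟨rfl, ?_, ?_, ?_⟩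
  · rw [Q0]
    push_cast
    ring
  · rw [Q1]
    ring
  · rw [Q2]
    ring

theorem jet_chi (hA : 1 ≤ A) (hη : 0 < η) (hw : Continuous w) (hz : 0 < z.im) (T : ℝ) :
    Jet T (chi A η w z) (fun t x => chi A η w z t x * m0 A η w z t x)
      (fun t x => chi A η w z t x * m1 A η w z t x)
      fun t x => chi A η w z t x * (m2 A η w z t x + m1 A η w z t x ^ 2) := by
  have hp : ∀ t x, 0 < QQ A η w z t x := fun t x => by
    unfold QQ
    positivity
  refine (((jet_QQ A hη hw hz T).rpow (fun t _ x => hp t x) (-4)).smul (A ^ 8)).congr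
    fun t _ x => ?_
  have e : chi A η w z t x = A ^ 8 * QQ A η w z t x ^ (-4 : ℝ) := by
    rw [chi, Real.rpow_neg (hp t x).le, Real.rpow_ofNat, div_pow, ← pow_mul, div_eq_mul_inv]
  rw [e, m0, m1, m2]
  refine ⟨rfl, ?_, ?_, ?_⟩ <;> ring

end Vale.Agent.P164
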