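import Vale.Agent.P164.Tail
import Vale.Agent.P164.First

/-!
# P164 Cont

With positive probability a macroscopic amount of points reach a small conformal radius.
-/

open MeasureTheory ProbabilityTheory Set Filter Topology Complex Function
open scoped NNReal ENNReal ComplexConjugate

noncomputable section

namespace Vale.Agent.P164

variable {κ : ℝ}

theorem Cont_im {r : ℝ} {x z : ℂ} (hx : r ≤ x.im) (hz : z ∈ Metric.ball x r) : 0 < z.im := by
  rw [Metric.mem_ball, dist_eq_norm] at hz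
  have h1 := (abs_le.1 (abs_im_le_norm (z - x))).1
  rw [sub_im] at h1
  linarith

/-- Paley-Zygmund: `c ≤ E X ≤ c / 2 + E [X; X > c / 2]` and `X ≤ λ X ^ 2 + 1 / (4 λ)` -/
theorem paley {Ω : Type} [MeasurableSpace Ω] {μ : Measure Ω} [IsProbabilityMeasure μ] {X : Ω → ℝ}
    (hm : Measurable X) {K c C : ℝ} (hK : ∀ ω, 0 ≤ X ω ∧ X ω ≤ K) (hc : 0 < c) (hC : 0 < C)
    (h1 : c ≤ ∫ ω, X ω ∂μ) (h2 : ∫ ω, X ω ^ 2 ∂μ ≤ C) : c ^ 2 / (4 * C) ≤ μ.real {ω | c / 2 ≤ X ω} := by
  have hb : ∀ {f : Ω → ℝ} (M : ℝ), Measurable f → (∀ ω, |f ω| ≤ M) → Integrable f μ :=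
    fun M hf h => Integrable.of_bound hf.aestronglyMeasurable M (ae_of_all _ h)
  have i1 : Integrable X μ := hb K hm fun ω => by rw [abs_of_nonneg (hK ω).1]; exact (hK ω).2
  have i2 : Integrable (fun ω => X ω ^ 2) μ := hb (K ^ 2) (hm.pow_const 2) fun ω => by
    rw [abs_of_nonneg (sq_nonneg _)]
    exact pow_le_pow_left₀ (hK ω).1 (hK ω).2 2
  have hA : MeasurableSet {ω | c / 2 ≤ X ω} := measurableSet_le measurable_const hm
  have i3 : Integrable ({ω | c / 2 ≤ X ω}.indicator fun _ => C / c) μ :=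
    (integrable_const _).indicator hA
  have h3 : ∫ ω, X ω ∂μ ≤
      ∫ ω, (c / 2 + c / (4 * C) * X ω ^ 2 + {ω | c / 2 ≤ X ω}.indicator (fun _ => C / c) ω) ∂μ := by
    refine integral_mono i1 (((integrable_const _).add (i2.const_mul _)).add i3) fun ω => ?_
    have h4 : 0 ≤ c / (4 * C) * X ω ^ 2 := by positivity
    by_cases h : c / 2 ≤ X ω
    · have h5 : c / (4 * C) * X ω ^ 2 + C / c - X ω = c / (4 * C) * (X ω - 2 * C / c) ^ 2 := by
        field_simp
        ring
      have h6 : 0 ≤ c / (4 * C) * (X ω - 2 * C / c) ^ 2 := by positivity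
      simp only [indicator_of_mem (show ω ∈ {ω | c / 2 ≤ X ω} from h)]
      linarith
    · simp only [indicator_of_notMem (show ω ∉ {ω | c / 2 ≤ X ω} from h)]
      linarith [not_le.1 h]
  have i4 : Integrable (fun ω => c / 2 + c / (4 * C) * X ω ^ 2) μ :=
    (integrable_const _).add (i2.const_mul _)
  rw [integral_add i4 i3,
    integral_add (integrable_const _) (i2.const_mul _), integral_const_mul,
    integral_indicator_const _ hA] at h3
  simp only [integral_const, probReal_univ, smul_eq_mul, one_mul] at h3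
  have h4 : c / (4 * C) * ∫ ω, X ω ^ 2 ∂μ ≤ c / 4 := by
    refine (mul_le_mul_of_nonneg_left h2 (by positivity)).trans (le_of_eq ?_)
    field_simp
  have h5 : c / 4 ≤ μ.real {ω | c / 2 ≤ X ω} * (C / c) := by linarith
  rw [← mul_div_assoc, le_div_iff₀ hc] at h5
  rw [div_le_iff₀ (by positivity)]
  linarith

/-- Fubini and `first_moment` -/
theorem mass_first (h0 : 0 < κ) (h8 : κ < 8) : ∃ T c : ℝ, 0 < T ∧ 0 < c ∧ ∀ e : ℝ, 0 < e →
    e ≤ 1 / 400 → ∃ η : ℝ, 0 < η ∧ η ≤ e ∧ ∀ μ : Measure Path, IsW κ μ →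
    c ≤ ∫ w, mass κ η e (pf w) T (Metric.ball I (1 / 400)) ∂μ := by
  obtain ⟨T, c, hT, hc, h⟩ := first_moment h0 h8
  have hv : 0 < volume.real (Metric.ball I (1 / 400)) :=
    ENNReal.toReal_pos (Metric.measure_ball_pos volume I (by norm_num)).ne' measure_ball_lt_top.ne
  refine ⟨T, c * volume.real (Metric.ball I (1 / 400)), hT, mul_pos hc hv, fun e he he' => ?_⟩
  obtain ⟨η₀, hη₀, h⟩ := h e he (by linarith)
  have hη : 0 < min η₀ e := lt_min hη₀ he
  refine ⟨min η₀ e, hη, min_le_right _ _, fun μ hμ => ?_⟩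
  have := hμ.prob
  have : IsFiniteMeasure (volume.restrict (Metric.ball I (1 / 400))) :=
    isFiniteMeasure_restrict.2 measure_ball_lt_top.ne
  have hi : Integrable (uncurry fun (w : Path) (z : ℂ) => Pay κ (min η₀ e) e (pf w) T z)
      (μ.prod (volume.restrict (Metric.ball I (1 / 400)))) := by
    refine Integrable.of_bound (measurable_Pay κ e measurable_const measurable_fst measurable_const
      measurable_snd).aestronglyMeasurable (e ^ (-be κ)) ?_
    filter_upwards [Measure.quasiMeasurePreserving_snd.ae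
      (ae_restrict_mem (μ := volume) (measurableSet_ball (x := I) (ε := 1 / 400)))] with q hq
    have hz : 0 < q.2.im := Cont_im (by norm_num) hq
    rw [uncurry, Real.norm_eq_abs, abs_of_nonneg (Pay_nonneg κ he hη (continuous_pf _) hz hT.le)]
    exact Pay_le h0 h8 he hη (continuous_pf _) hz hT.le
  unfold mass
  rw [integral_integral_swap hi]
  refine setIntegral_ge_of_const_le_real measurableSet_ball measure_ball_lt_top.ne
    (fun z hz => h μ _ z hμ hη (min_le_left _ _) (Metric.ball_subset_ball (by norm_num) hz))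
    hi.integral_prod_right

/-- `Pay_le`, `Pay_ne_ever` -/
theorem mass_le_vol (h0 : 0 < κ) (h8 : κ < 8) {η e T r : ℝ} {w : ℝ → ℝ} {x : ℂ} (hη : 0 < η)
    (he : 0 < e) (hT : 0 ≤ T) (hw : Continuous w) (hx : r ≤ x.im) :
    Fat w T (2 * e) (Metric.ball x r) (e ^ be κ * mass κ η e w T (Metric.ball x r)) := by
  have hE := measurableSet_ever' hw T (2 * e)
  have : IsFiniteMeasure (volume.restrict (Metric.ball x r)) :=
    isFiniteMeasure_restrict.2 measure_ball_lt_top.ne
  have h1 : mass κ η e w T (Metric.ball x r) ≤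
      ∫ z in Metric.ball x r, (Ever w T (2 * e)).indicator (fun _ => e ^ (-be κ)) z := by
    refine integral_mono_of_nonneg ?_ ((integrable_const _).indicator hE) ?_
    · filter_upwards [ae_restrict_mem measurableSet_ball] with z hz
      exact Pay_nonneg κ he hη hw (Cont_im hx hz) hT
    · filter_upwards [ae_restrict_mem measurableSet_ball] with z hz
      by_cases h : z ∈ Ever w T (2 * e)
      · rw [indicator_of_mem h]
        exact Pay_le h0 h8 he hη hw (Cont_im hx hz) hT
      · rw [indicator_of_notMem h]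
        by_contra hn
        exact h (Pay_ne_ever he hη hw (Cont_im hx hz) hT (not_le.1 hn).ne')
  rw [integral_indicator_const _ hE, measureReal_restrict_apply hE, smul_eq_mul] at h1
  refine le_trans (ENNReal.ofReal_le_ofReal ?_) ENNReal.ofReal_toReal_le
  refine (mul_le_mul_of_nonneg_left h1 (Real.rpow_nonneg he.le _)).trans (le_of_eq ?_)
  rw [Real.rpow_neg he.le, mul_comm, mul_assoc, inv_mul_cancel₀ (Real.rpow_pos_of_pos he _).ne',
    mul_one]
  rfl

/-- `paley`, `mass_first` and `mass_sq` with `e / 2`, `mass_le_vol`, `sup_small` -/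
theorem content (h0 : 0 < κ) (h8 : κ < 8) : ∃ T c p L : ℝ, 0 < T ∧ 0 < c ∧ 0 < p ∧
    ∀ (μ : Measure Path) (e : ℝ), IsW κ μ → 0 < e → e ≤ 1 / 200 →
    p ≤ μ.real ({w | Fat (pf w) T e (Metric.ball I (1 / 2)) (c * e ^ be κ)} ∩
      {w | ∀ t ∈ Icc 0 T, |pf w t - pf w 0| ≤ L}) := by
  obtain ⟨T, c, hT, hc, h1⟩ := mass_first h0 h8
  obtain ⟨C, hC, h2⟩ := mass_sq h0 h8
  have hp : 0 < c ^ 2 / (4 * C) / 2 := by positivity
  obtain ⟨L, hL⟩ := sup_small κ hT.le hp
  refine ⟨T, c / 2 / 2 ^ be κ, c ^ 2 / (4 * C) / 2, L, hT, by positivity, hp,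
    fun μ e hμ he he' => ?_⟩
  have := hμ.prob
  have he2 : 0 < e / 2 := by positivity
  obtain ⟨η, hη, hηe, h3⟩ := h1 (e / 2) he2 (by linarith)
  have h4 := paley (μ := μ) (X := fun w => mass κ η (e / 2) (pf w) T (Metric.ball I (1 / 400)))
    (measurable_mass κ η (e / 2) T measurable_id measurable_const _)
    (fun w => mass_mem h0 h8 hη he2 hT.le (continuous_pf w) (by norm_num) (by norm_num)) hc hC
    (h3 μ hμ) (h2 μ η (e / 2) T hμ hη (by linarith) he2 (by linarith) hT)
  have h5 := hL μ hμ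
  have h6 : {w : Path | c / 2 ≤ mass κ η (e / 2) (pf w) T (Metric.ball I (1 / 400))} ⊆
      ({w | Fat (pf w) T e (Metric.ball I (1 / 2)) (c / 2 / 2 ^ be κ * e ^ be κ)} ∩
        {w | ∀ t ∈ Icc 0 T, |pf w t - pf w 0| ≤ L}) ∪
        {w | ∀ t ∈ Icc 0 T, |pf w t - pf w 0| ≤ L}ᶜ := by
    intro w hw
    by_cases h : w ∈ {w : Path | ∀ t ∈ Icc 0 T, |pf w t - pf w 0| ≤ L}
    · refine Or.inl ⟨?_, h⟩
      have h7 := mass_le_vol (r := 1 / 400) (x := I) h0 h8 hη he2 hT.le (continuous_pf w)
        (by norm_num)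
      rw [Fat, show 2 * (e / 2) = e by ring] at h7
      refine le_trans (ENNReal.ofReal_le_ofReal ?_) (h7.trans (measure_mono
        (inter_subset_inter_right _ (Metric.ball_subset_ball (by norm_num)))))
      refine le_trans (le_of_eq ?_) (mul_le_mul_of_nonneg_left hw (Real.rpow_nonneg he2.le _))
      rw [Real.div_rpow he.le (by norm_num)]
      ring
    · exact Or.inr h
  have h8 := (measureReal_mono (μ := μ) h6).trans (measureReal_union_le _ _)
  linarith

end Vale.Agent.P164
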