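import Vale.Agent.P164.Link
import Vale.Agent.P164.Dist
import Vale.Agent.P164.Schw

/-!
# P164 CurveA

The curve and the conformal radius. `loewnerDom W t = bf w t '' HH` by `dom_eq`.
-/

open MeasureTheory ProbabilityTheory Set Filter Topology Complex Function
open scoped NNReal ENNReal ComplexConjugate

noncomputable section

namespace Vale.Agent.P164

variable {γ : ℝ≥0 → ℂ} {W : ℝ≥0 → ℝ}

theorem curveA_cont (hW : Continuous W) : Continuous (fun s : ℝ => W s.toNNReal) :=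
  hW.comp continuous_real_toNNReal

/-- `Univ.cover`: the ball lies in the domain, which is disjoint from the curve -/
theorem Generates.dist_ge (h : Generates γ W) (hW : Continuous W) {t u : ℝ≥0} (hu : u ≤ t) {ζ : ℂ}
    (hζ : 0 < ζ.im) :
    cr (fun s => W s.toNNReal) t ζ / 100 ≤ ‖bf (fun s => W s.toNNReal) t ζ - γ u‖ := by
  by_contra hlt
  push Not at hlt
  have hU := bf_univ (curveA_cont hW) t.coe_nonneg
  rw [norm_sub_rev] at hlt
  obtain ⟨ξ, h1, -, h2, -⟩ := hU.ball_sub hζ hlt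
  have h3 : γ u ∈ loewnerDom W t := by
    rw [dom_eq hW]
    exact ⟨ξ, h2, h1⟩
  rw [h.2.2.2 t] at h3
  exact h3.1.2 ⟨u, hu, rfl⟩

/-- otherwise the ball of radius `7 cr` lies in `ℍ \ γ[0,t]`, hence in the component, which is
contained in the domain; contradiction with `Univ.radius_le` -/
theorem Generates.exists_near (h : Generates γ W) (hW : Continuous W) (t : ℝ≥0) {ζ : ℂ}
    (hζ : 0 < ζ.im) : (bf (fun s => W s.toNNReal) t ζ).im ≤ 7 * cr (fun s => W s.toNNReal) t ζ ∨
      ∃ u ≤ t, ‖bf (fun s => W s.toNNReal) t ζ - γ u‖ ≤ 7 * cr (fun s => W s.toNNReal) t ζ := by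
  by_contra hcon
  push Not at hcon
  obtain ⟨h1, h2⟩ := hcon
  have hU := bf_univ (curveA_cont hW) t.coe_nonneg
  have hpos := cr_pos (curveA_cont hW) hζ t.coe_nonneg
  set F := bf (fun s => W s.toNNReal) t with hF
  set c := cr (fun s => W s.toNNReal) t ζ with hc
  set S : Set ℂ := {z : ℂ | 0 < z.im} \ γ '' Iic t with hS
  have hball : Metric.ball (F ζ) (7 * c) ⊆ S := by
    intro z hz
    rw [Metric.mem_ball, dist_eq_norm] at hz
    refine ⟨?_, ?_⟩
    · have h3 := Complex.abs_im_le_norm (z - F ζ)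
      rw [Complex.sub_im] at h3
      have h4 := neg_abs_le (z.im - (F ζ).im)
      show 0 < z.im
      linarith
    · rintro ⟨u, hu, rfl⟩
      have := h2 u hu
      rw [norm_sub_rev] at hz
      linarith
  have hmem : F ζ ∈ unbddPart S := by
    rw [hS, ← h.2.2.2 t, dom_eq hW]
    exact ⟨ζ, hζ, rfl⟩
  have hcen : F ζ ∈ Metric.ball (F ζ) (7 * c) := Metric.mem_ball_self (by linarith)
  have hsub : Metric.ball (F ζ) (7 * c) ⊆ connectedComponentIn S (F ζ) :=
    (convex_ball _ _).isPreconnected.subset_connectedComponentIn hcen hball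
  have hin : Metric.ball (F ζ) (7 * c) ⊆ F '' HH := by
    intro z hz
    rw [hF, ← dom_eq hW, h.2.2.2 t]
    refine ⟨hball hz, ?_⟩
    rw [← hS, ← connectedComponentIn_eq (hsub hz)]
    exact hmem.2
  have h5 : 7 * c ≤ 6 * c := hU.radius_le hζ hin
  linarith

/-- the domains decrease strictly: if `dom s ⊆ dom t`, `bf_shs` (with `ρ = 1`) and injectivity show
that `bf w' (t - s)` is onto `HH`, contradicting `Univ.im_le` and `cr_lt_im` -/
theorem dom_not_subset (hW : Continuous W) {s t : ℝ≥0} (hst : s < t) :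
    ¬ loewnerDom W s ⊆ loewnerDom W t := by
  intro hsub
  rw [dom_eq hW, dom_eq hW] at hsub
  have hw := curveA_cont hW
  set w : ℝ → ℝ := fun s => W s.toNNReal with hwdef
  set w' : ℝ → ℝ := fun u => (w (s + 1 ^ 2 * u) - w s) / 1 with hw'def
  have hw' : Continuous w' := by
    rw [hw'def]
    fun_prop
  have hτ : (0 : ℝ) < (t : ℝ) - s := sub_pos.2 (by exact_mod_cast hst)
  have hsh : ShS s 1 ((t : ℝ) - s) w w' := fun u _ => rfl
  have hU := bf_univ hw s.coe_nonneg
  have hU' := bf_univ hw' hτ.le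
  have hon : HH ⊆ bf w' ((t : ℝ) - s) '' HH := by
    intro p hp
    have hp' : (0 : ℝ) < p.im := hp
    have h1 : (w s : ℂ) + p ∈ HH := by
      show 0 < ((w s : ℂ) + p).im
      simpa using hp'
    obtain ⟨ζ, hζ, h2⟩ := hsub ⟨_, h1, rfl⟩
    have hζ' : (0 : ℝ) < ζ.im := hζ
    have hξ : 0 < (ζ - w s).im := by simpa using hζ'
    have h3 := bf_shs hw hw' s.coe_nonneg one_pos hsh ⟨hτ.le, le_rfl⟩ hξ
    have e1 : (s : ℝ) + 1 ^ 2 * ((t : ℝ) - s) = t := by ring
    have e2 : (w s : ℂ) + (1 : ℝ) * (ζ - w s) = ζ := by push_cast; ring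
    rw [e1, e2, h2] at h3
    have h4 := bf_im_ge hw' hξ hτ.le
    have h5 : (w s : ℂ) + (1 : ℝ) * bf w' ((t : ℝ) - s) (ζ - w s) ∈ HH := by
      show 0 < ((w s : ℂ) + (1 : ℝ) * bf w' ((t : ℝ) - s) (ζ - w s)).im
      simp only [Complex.ofReal_one, one_mul, Complex.add_im, Complex.ofReal_im, zero_add]
      linarith
    have h6 := hU.inj h1 h5 h3
    refine ⟨ζ - w s, hξ, ?_⟩
    simp only [Complex.ofReal_one, one_mul, add_right_inj] at h6
    exact h6.symm
  have hI : (0 : ℝ) < (I : ℂ).im := by simp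
  have h7 := bf_im_ge hw' hI hτ.le
  have h8 : (bf w' ((t : ℝ) - s) I).im ≤ cr w' ((t : ℝ) - s) I := hU'.im_le hon hI (by linarith)
  have h9 := cr_lt_im hw' hI hτ
  linarith

theorem Generates.near_seg (h : Generates γ W) (hW : Continuous W) {s t : ℝ≥0} {ζ : ℂ} {e : ℝ}
    (hζ : 0 < ζ.im) (hz : bf (fun s => W s.toNNReal) s ζ ∈ Ever (fun s => W s.toNNReal) t e)
    (he : 700 * e ≤ cr (fun s => W s.toNNReal) s ζ) :
    ∃ u ∈ Icc s t, ‖bf (fun s => W s.toNNReal) s ζ - γ u‖ ≤ 7 * e := by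
  have hw := curveA_cont hW
  obtain ⟨u, hu, ξ, hξ, h1, h2⟩ := hz
  have hpos := cr_pos hw hξ hu.1
  have hu' : ((u.toNNReal : ℝ≥0) : ℝ) = u := Real.coe_toNNReal u hu.1
  have hle := cr_le_im hw hζ s.coe_nonneg
  rcases h.exists_near hW u.toNNReal hξ with h3 | ⟨v, hv, h3⟩
  · rw [hu', h1] at h3
    linarith
  · rw [hu', h1] at h3
    refine ⟨v, ⟨?_, ?_⟩, by linarith⟩
    · by_contra hlt
      push Not at hlt
      have h4 := h.dist_ge hW hlt.le hζ
      linarith
    · have h4 : (v : ℝ) ≤ u := by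
        rw [← hu']
        exact_mod_cast hv
      exact_mod_cast h4.trans hu.2

end Vale.Agent.P164
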