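import Vale.Agent.P164.Link
import Vale.Agent.P164.Dist
import Vale.Agent.P164.Schw
import Vale.Agent.P164.CurveA

/-!
# P164 Curve

The curve and the conformal radius. `loewnerDom W t = bf w t '' HH` by `dom_eq`.
-/

open MeasureTheory ProbabilityTheory Set Filter Topology Complex Function
open scoped NNReal ENNReal ComplexConjugate

noncomputable section

namespace Vale.Agent.P164

variable {γ : ℝ≥0 → ℂ} {W : ℝ≥0 → ℝ}

theorem Curve_conn {S C : Set ℂ} (hC : IsPreconnected C) (hS : C ⊆ S) {y z : ℂ} (hy : y ∈ C)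
    (hz : z ∈ C) (h : y ∈ unbddPart S) : z ∈ unbddPart S :=
  ⟨hS hz, by
    rw [← connectedComponentIn_eq (hC.subset_connectedComponentIn hy hS hz)]
    exact h.2⟩

theorem Curve_mono {S S' : Set ℂ} (h : S ⊆ S') : unbddPart S ⊆ unbddPart S' := fun z hz =>
  ⟨h hz.1, fun hb => hz.2 (hb.subset (connectedComponentIn_mono z h))⟩

theorem Curve_sub {S S' : Set ℂ} (h : unbddPart S ⊆ S') : unbddPart S ⊆ unbddPart S' := by
  intro z hz
  have h1 : connectedComponentIn S z ⊆ S' := fun y hy =>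
    h (Curve_conn isPreconnected_connectedComponentIn (connectedComponentIn_subset S z)
      (mem_connectedComponentIn hz.1) hy hz)
  exact ⟨h hz, fun hb => hz.2 (hb.subset (isPreconnected_connectedComponentIn.subset_connectedComponentIn
    (mem_connectedComponentIn hz.1) h1))⟩

/-- otherwise `γ[t₁,t]` avoids `closure (dom s)` for some `t₁ ∈ [s,t)`, then `dom t₁` (a union of
unbounded components of `ℍ \ γ[0,t₁]`) avoids `γ[0,t]`, so `dom t₁ ⊆ dom t` -/
theorem Generates.mem_closure (h : Generates γ W) (hW : Continuous W) {s t : ℝ≥0} (hst : s < t) :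
    γ t ∈ closure (loewnerDom W s) := by
  by_contra hc
  have h1 : {u | γ u ∈ (closure (loewnerDom W s))ᶜ} ∈ 𝓝 t :=
    h.1.continuousAt.preimage_mem_nhds (isClosed_closure.isOpen_compl.mem_nhds hc)
  obtain ⟨t₁, ht₁, h2⟩ := exists_Ioc_subset_of_mem_nhds' h1 hst
  refine dom_not_subset hW ht₁.2 ?_
  have h3 : loewnerDom W t₁ ⊆ loewnerDom W s := by
    rw [h.2.2.2, h.2.2.2]
    exact Curve_mono (sdiff_subset_sdiff_right (image_mono (Iic_subset_Iic.2 ht₁.1)))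
  rw [h.2.2.2 t₁] at h3
  rw [h.2.2.2 t₁, h.2.2.2 t]
  refine Curve_sub fun y hy => ⟨hy.1.1, ?_⟩
  rintro ⟨u, hu, rfl⟩
  rcases le_or_gt u t₁ with h4 | h4
  · exact hy.1.2 ⟨u, h4, rfl⟩
  · exact h2 ⟨h4, hu⟩ (subset_closure (h3 hy))

/-- if `x ∈ dom s` and `‖x - γ u‖ < 3 ε` with `u ≤ s` then `dist_ge` concludes. If `x ∉ dom t` let `S` be
the set of `s ≤ t` with `x ∉ dom s`; for `s ∈ S` there is `u ≤ s` with `‖x - γ u‖ ≤ 2 ε` (for `s < t`
take `z ∈ dom s` near `γ t`, the segment from `x` to `z` meets `γ[0,s]`). Let `s ↓ inf S`: the set of `u`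
with `‖x - γ u‖ ≤ 2 ε` is closed, let `u₀` be its infimum, `0 < u₀ ≤ s` for all `s ∈ S`;
take `u < u₀` close to `u₀`, then `x ∈ dom u` -/
theorem Generates.ever (h : Generates γ W) (hW : Continuous W) (t : ℝ≥0) {x : ℂ} {ε : ℝ}
    (hε : 0 < ε) (hx : ‖x - γ t‖ ≤ ε) (hy : 2 * ε < x.im) :
    x ∈ Ever (fun s => W s.toNNReal) t (400 * ε) := by
  have hc : Continuous fun u => ‖x - γ u‖ := (continuous_const.sub h.1).norm
  have hcl : IsClosed {u | ‖x - γ u‖ ≤ 2 * ε} := isClosed_le hc continuous_const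
  have ht : t ∈ {u | ‖x - γ u‖ ≤ 2 * ε} := by
    show ‖x - γ t‖ ≤ 2 * ε
    linarith
  obtain ⟨u₀, h0, hl⟩ : ∃ u₀, IsLeast {u | ‖x - γ u‖ ≤ 2 * ε} u₀ :=
    ⟨_, hcl.isLeast_csInf ⟨t, ht⟩ (OrderBot.bddBelow _)⟩
  have h0' : ‖x - γ u₀‖ ≤ 2 * ε := h0
  have hp : 0 < u₀ := by
    refine pos_of_ne_zero fun e => ?_
    rw [e, h.2.1, sub_zero] at h0'
    linarith [(le_abs_self _).trans (abs_im_le_norm x)]
  have h1 : {u | ‖x - γ u‖ < 4 * ε} ∈ 𝓝 u₀ :=
    (isOpen_lt hc continuous_const).mem_nhds (show ‖x - γ u₀‖ < 4 * ε by linarith)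
  obtain ⟨l, hl', h2⟩ := exists_Ioc_subset_of_mem_nhds' h1 hp
  obtain ⟨u, hu1, hu2⟩ := exists_between hl'.2
  have h3 : ‖x - γ u‖ < 4 * ε := h2 ⟨hu1, hu2.le⟩
  have hut : u < t := hu2.trans_le (hl ht)
  obtain ⟨z, hz, hz'⟩ := Metric.mem_closure_iff.1 (h.mem_closure hW hut) ε hε
  have h4 : x ∈ loewnerDom W u := by
    rw [h.2.2.2] at hz ⊢
    refine Curve_conn (convex_ball x (2 * ε)).isPreconnected
      (fun y hy' => (mem_sdiff _).2 ⟨?_, ?_⟩) ?_ (Metric.mem_ball_self (by linarith)) hz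
    · have h5 := (neg_abs_le _).trans' (neg_le_neg (abs_im_le_norm (y - x)))
      rw [mem_ball_iff_norm] at hy'
      rw [sub_im] at h5
      show 0 < y.im
      linarith
    · rintro ⟨v, hv, rfl⟩
      rw [mem_ball_iff_norm'] at hy'
      exact absurd (hl hy'.le) (not_le.2 (lt_of_le_of_lt hv hu2))
    · rw [Metric.mem_ball']
      rw [← dist_eq_norm] at hx
      linarith [dist_triangle x (γ t) z]
  rw [dom_eq hW] at h4
  obtain ⟨ζ, hζ, rfl⟩ := h4
  refine ⟨u, ⟨u.2, hut.le⟩, ζ, hζ, rfl, ?_⟩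
  linarith [h.dist_ge hW (le_refl u) hζ]

end Vale.Agent.P164
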