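import Vale.Agent.P164.Stmt

/-!
# P164: internal definitions

Driving functions are continuous `w : ℝ → ℝ` (only the values on `[0,∞)` matter).
`fl η w z` is the forward Loewner flow with the field truncated below height `η`,
`bf w t` is the inverse map `f_t` (backward flow).
-/

open MeasureTheory ProbabilityTheory Set Filter Topology Complex Function
open scoped NNReal ENNReal ComplexConjugate

noncomputable section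

namespace Vale.Agent.P164

/-! ## flows -/

/-- Picard iterates -/
def pic (V : ℝ → ℂ → ℂ) (z : ℂ) : ℕ → ℝ → ℂ
  | 0 => fun _ => z
  | n + 1 => fun t => z + ∫ s in (0 : ℝ)..t, V s (pic V z n s)

/-- the solution of `g' = V t g`, `g 0 = z` -/
def sol (V : ℝ → ℂ → ℂ) (z : ℂ) (t : ℝ) : ℂ := limUnder atTop fun n => pic V z n t

/-- continuous, bounded, Lipschitz time dependent fields -/
structure Nice (V : ℝ → ℂ → ℂ) : Prop where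
  cont : Continuous (uncurry V)
  lip : ∃ K : ℝ≥0, ∀ s, LipschitzWith K (V s)
  bdd : ∃ M : ℝ, ∀ s ζ, ‖V s ζ‖ ≤ M

/-- truncated `|ζ - x| ^ 2` -/
def den (η x : ℝ) (ζ : ℂ) : ℝ := (ζ.re - x) ^ 2 + (max |ζ.im| η) ^ 2

/-- truncated Loewner field, equal to `2 / (ζ - x)` when `η ≤ |im ζ|` -/
def fld (η x : ℝ) (ζ : ℂ) : ℂ := 2 * conj (ζ - x) / (den η x ζ : ℝ)

/-- truncated forward flow -/
def fl (η : ℝ) (w : ℝ → ℝ) (z : ℂ) : ℝ → ℂ := sol (fun s => fld η (w s)) z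

/-- conformal radius (up to a factor 2) along the truncated flow -/
def cc (η : ℝ) (w : ℝ → ℝ) (z : ℂ) (t : ℝ) : ℝ :=
  z.im * Real.exp (-∫ s in (0 : ℝ)..t,
    4 * (fl η w z s).im ^ 2 / den η (w s) (fl η w z s) ^ 2)

/-- backward flow from time `t` -/
def bk (w : ℝ → ℝ) (t : ℝ) (ζ : ℂ) : ℝ → ℂ := sol (fun s ξ => -fld ζ.im (w (t - s)) ξ) ζ

/-- the inverse Loewner map `f_t` on the upper half plane -/
def bf (w : ℝ → ℝ) (t : ℝ) (ζ : ℂ) : ℂ := bk w t ζ t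

/-- conformal radius (up to a factor 2) of `f_t (ℍ)` at `f_t ζ` -/
def cr (w : ℝ → ℝ) (t : ℝ) (ζ : ℂ) : ℝ := ζ.im * ‖deriv (bf w t) ζ‖

/-- points whose conformal radius is below `e` at some time `s ≤ t` -/
def Ever (w : ℝ → ℝ) (t e : ℝ) : Set ℂ :=
  {z | ∃ s ∈ Icc 0 t, ∃ ζ : ℂ, 0 < ζ.im ∧ bf w s ζ = z ∧ cr w s ζ < e}

/-- the open upper half plane -/
def HH : Set ℂ := {z | 0 < z.im}

/-- the two functions agree on `[0,t]` -/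
def Agr (t : ℝ) (w w' : ℝ → ℝ) : Prop := ∀ s ∈ Icc 0 t, w s = w' s

/-- `w'` is the shifted and rescaled function on `[0,T]` -/
def ShS (s ρ T : ℝ) (w w' : ℝ → ℝ) : Prop := ∀ u ∈ Icc 0 T, w' u = (w (s + ρ ^ 2 * u) - w s) / ρ

/-- the infimum over `δ`-covers -/
def hausD (h : ℝ → ℝ) (δ : ℝ) (E : Set ℂ) : ℝ≥0∞ :=
  ⨅ (U : ℕ → Set ℂ) (_ : E ⊆ ⋃ j, U j)
    (_ : ∀ j, Metric.ediam (U j) ≤ ENNReal.ofReal δ), ∑' j, ENNReal.ofReal (h (Metric.diam (U j)))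

/-! ## exponents -/

def dd (κ : ℝ) : ℝ := 1 + κ / 8
def be (κ : ℝ) : ℝ := 1 - κ / 8
def al (κ : ℝ) : ℝ := 8 / κ - 1
def aa (κ : ℝ) : ℝ := min (al κ - be κ) 1

/-- `ρ ^ 2` times the generator applied to `c ^ p Y ^ b S ^ a`, divided by that function -/
def II (κ p a b S : ℝ) : ℝ :=
  a * (κ * (a + 1) / 2 - 4) - 2 * b + S ^ 2 * (-4 * p + 4 * a - κ / 2 * a * (a + 2))

/-- smooth step: `0` for `u ≤ 1`, `1` for `2 ≤ u` -/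
def stp (u : ℝ) : ℝ := Real.smoothTransition (u - 1)

/-! ## one point quantities -/

/-- `|g_t z - x| ^ 2` -/
def r2 (η : ℝ) (w : ℝ → ℝ) (z : ℂ) (t x : ℝ) : ℝ :=
  ((fl η w z t).re - x) ^ 2 + (fl η w z t).im ^ 2

/-- `S = sin arg (g_t z - w t)` -/
def sn (η : ℝ) (w : ℝ → ℝ) (z : ℂ) (t : ℝ) : ℝ := (fl η w z t).im / √(r2 η w z t (w t))

/-- `c ^ p Y ^ b S ^ a` as a function of the position `x` of the driving function -/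
def pw (η : ℝ) (w : ℝ → ℝ) (z : ℂ) (p a b t x : ℝ) : ℝ :=
  cc η w z t ^ p * (fl η w z t).im ^ (a + b) * r2 η w z t x ^ (-a / 2)

/-- `c ^ p Y ^ b S ^ a` -/
def pv (η : ℝ) (w : ℝ → ℝ) (z : ℂ) (p a b t : ℝ) : ℝ := pw η w z p a b t (w t)

/-- killing factor -/
def kil (η : ℝ) (w : ℝ → ℝ) (z : ℂ) (t : ℝ) : ℝ := stp ((fl η w z t).im / η)

/-- minus the time derivative of `kil` -/
def kilD (η : ℝ) (w : ℝ → ℝ) (z : ℂ) (t : ℝ) : ℝ :=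
  deriv stp ((fl η w z t).im / η) * (2 * (fl η w z t).im / (η * r2 η w z t (w t)))

/-- `4 S ^ 2 / ρ ^ 2`, the rate of decrease of `log c` -/
def clk (η : ℝ) (w : ℝ → ℝ) (z : ℂ) (t : ℝ) : ℝ := 4 * sn η w z t ^ 2 / r2 η w z t (w t)

/-- the drift of `pv * kil * θ (cc)` -/
def drf (κ η : ℝ) (w : ℝ → ℝ) (z : ℂ) (p a b : ℝ) (θ : ℝ → ℝ) (t : ℝ) : ℝ :=
  pv η w z p a b t * (kil η w z t * θ (cc η w z t) * II κ p a b (sn η w z t) / r2 η w z t (w t)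
    - kilD η w z t * θ (cc η w z t)
    - kil η w z t * deriv θ (cc η w z t) * cc η w z t * clk η w z t)

/-- payoff rate at the microscopic scale `e` -/
def pay (κ η e : ℝ) (w : ℝ → ℝ) (z : ℂ) (t : ℝ) : ℝ :=
  pv η w z (-be κ) (al κ + 40) 0 t * kil η w z t *
    (deriv stp (cc η w z t / e) * (cc η w z t / e)) * clk η w z t

/-- density of the approximate natural measure -/
def Pay (κ η e : ℝ) (w : ℝ → ℝ) (T : ℝ) (z : ℂ) : ℝ := ∫ t in (0 : ℝ)..T, pay κ η e w z t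

/-- approximate natural measure of `D` -/
def mass (κ η e : ℝ) (w : ℝ → ℝ) (T : ℝ) (D : Set ℂ) : ℝ := ∫ z in D, Pay κ η e w T z

/-- the point reaches conformal radius `r` before time `T`, at height at least `2 η` -/
def Reach (η : ℝ) (w : ℝ → ℝ) (z : ℂ) (T r : ℝ) : Prop :=
  ∃ t ∈ Icc 0 T, 2 * η ≤ (fl η w z t).im ∧ cc η w z t ≤ r

/-! ## the weight `χ` -/

/-- the bulk point of the conformal annulus of `z` -/
def wb (η : ℝ) (w : ℝ → ℝ) (z : ℂ) (t x : ℝ) : ℂ := bf w t (x + I * √(r2 η w z t x))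

def QQ (A η : ℝ) (w : ℝ → ℝ) (z : ℂ) (t x : ℝ) : ℝ :=
  A ^ 2 + ‖z - wb η w z t x‖ ^ 2 + cc η w z t ^ 2

def chi (A η : ℝ) (w : ℝ → ℝ) (z : ℂ) (t x : ℝ) : ℝ := (A ^ 2 / QQ A η w z t x) ^ 4

/-- univalent on the upper half plane -/
structure Univ (F : ℂ → ℂ) : Prop where
  diff : DifferentiableOn ℂ F HH
  inj : InjOn F HH
  ne : ∀ Z ∈ HH, deriv F Z ≠ 0
  meas : Measurable F

def sc (F : ℂ → ℂ) (Z : ℂ) : ℝ := Z.im * ‖deriv F Z‖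
def scb (F : ℂ → ℂ) (Z : ℂ) : ℝ := ‖Z‖ * ‖deriv F (I * ‖Z‖)‖
def sS (Z : ℂ) : ℝ := Z.im / ‖Z‖
def schi (A : ℝ) (F : ℂ → ℂ) (Z : ℂ) : ℝ :=
  (A ^ 2 / (A ^ 2 + ‖F Z - F (I * ‖Z‖)‖ ^ 2 + sc F Z ^ 2)) ^ 4

/-- the cost of the weight `χ` -/
def sLam (C A : ℝ) (F : ℂ → ℂ) (Z : ℂ) : ℝ :=
  C * min 1 (scb F Z / A) + 32 * sS Z ^ 2 * sc F Z ^ 2 / (A ^ 2 + sc F Z ^ 2)

/-- spatial weight, equal to one on the ball -/
def om (x₀ : ℂ) (R : ℝ) (z : ℂ) : ℝ := 1 / (1 + (max (‖z - x₀‖ - R) 0) ^ 2) ^ 2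

/-- the recentred inverse map -/
def FF (w : ℝ → ℝ) (t : ℝ) (Z : ℂ) : ℂ := bf w t (w t + Z)

/-- the recentred forward flow -/
def ZZ (η : ℝ) (w : ℝ → ℝ) (z : ℂ) (t : ℝ) : ℂ := fl η w z t - w t

/-- `Z'` is a bulk point for `Z` -/
def Bulk (Z Z' : ℂ) : Prop := ‖Z‖ ≤ Z'.im ∧ Z'.im ≤ 2 * ‖Z‖ ∧ |Z'.re| ≤ ‖Z‖

/-- integral over the living points, in conformal coordinates -/
def LI (F : ℂ → ℂ) (η : ℝ) (k : ℂ → ℝ) : ℝ≥0∞ :=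
  ∫⁻ Z in {Z : ℂ | η < Z.im}, ENNReal.ofReal (k Z * ‖deriv F Z‖ ^ 2)

/-- the common weight -/
def bw (A η : ℝ) (x₀ : ℂ) (R : ℝ) (F : ℂ → ℂ) (Z : ℂ) : ℝ :=
  om x₀ R (F Z) * schi A F Z * stp (Z.im / η)

def R2 (κ A η : ℝ) (x₀ : ℂ) (R : ℝ) (F : ℂ → ℂ) : ℝ≥0∞ :=
  LI F η fun Z => bw A η x₀ R F Z * sS Z ^ aa κ / ‖Z‖ ^ 2

def RH (η : ℝ) (x₀ : ℂ) (R : ℝ) (F : ℂ → ℂ) : ℝ≥0∞ :=
  LI F η fun Z => om x₀ R (F Z) * (sc F Z ^ 2 / (1 + sc F Z ^ 2) ^ 2) * sS Z ^ 2 / ‖Z‖ ^ 2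

def L2 (κ C A η : ℝ) (x₀ : ℂ) (R : ℝ) (F : ℂ → ℂ) : ℝ≥0∞ :=
  LI F η fun Z => bw A η x₀ R F Z * sS Z ^ aa κ * sLam C A F Z / ‖Z‖ ^ 2

def L1 (κ C A η : ℝ) (x₀ : ℂ) (R : ℝ) (F : ℂ → ℂ) : ℝ≥0∞ :=
  LI F η fun Z => bw A η x₀ R F Z * (sc F Z ^ (-be κ) * sS Z ^ al κ) * sLam C A F Z / ‖Z‖ ^ 2

def M2 (κ A η : ℝ) (x₀ : ℂ) (R : ℝ) (F : ℂ → ℂ) : ℝ≥0∞ :=
  LI F η fun Z => bw A η x₀ R F Z * sS Z ^ aa κ / ‖Z‖

def M1 (κ A η : ℝ) (x₀ : ℂ) (R : ℝ) (F : ℂ → ℂ) : ℝ≥0∞ :=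
  LI F η fun Z => bw A η x₀ R F Z * (sc F Z ^ (-be κ) * sS Z ^ al κ) / ‖Z‖

/-- the potential of one point -/
def gz (κ A ε₁ ε₂ K cχ η e : ℝ) (x₀ : ℂ) (R : ℝ) (w : ℝ → ℝ) (z : ℂ) (t x : ℝ) : ℝ :=
  ε₁ * (Metric.ball x₀ R).indicator (fun _ => (1 : ℝ)) z *
      (pw η w z (-be κ) (al κ) 0 t x * chi A η w z t x * kil η w z t * stp (cc η w z t / e)
        + cχ * Pay κ η e w t z)
    + ε₂ * (pw η w z 0 (aa κ) 0 t x * chi A η w z t x * kil η w z t)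
    + K * (cc η w z t ^ 2 / (1 + cc η w z t ^ 2))

/-- upper bound for the drift of `gz`, in conformal coordinates -/
def sD (κ C A ε₁ ε₂ K c₂ η : ℝ) (F : ℂ → ℂ) (Z : ℂ) : ℝ :=
  (schi A F Z * stp (Z.im / η) * (ε₁ * (sc F Z ^ (-be κ) * sS Z ^ al κ) * sLam C A F Z
      + ε₂ * sS Z ^ aa κ * (sLam C A F Z - c₂))
    - 8 * K * (sc F Z ^ 2 / (1 + sc F Z ^ 2) ^ 2) * sS Z ^ 2) / ‖Z‖ ^ 2

/-- upper bound for the martingale coefficient of `gz`, in conformal coordinates -/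
def sM (κ C A ε₁ ε₂ η : ℝ) (F : ℂ → ℂ) (Z : ℂ) : ℝ :=
  C * (schi A F Z * stp (Z.im / η)) *
    (ε₁ * (sc F Z ^ (-be κ) * sS Z ^ al κ) + ε₂ * sS Z ^ aa κ) / ‖Z‖

/-! ### explicit derivatives of `log pw` and `log chi` -/

def l0 (η : ℝ) (w : ℝ → ℝ) (z : ℂ) (p a b t x : ℝ) : ℝ :=
  -p * (4 * (fl η w z t).im ^ 2 / den η (w t) (fl η w z t) ^ 2)
    - (a + b) * (2 / den η (w t) (fl η w z t))
    - a * ((((fl η w z t).re - x) * (fld η (w t) (fl η w z t)).re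
      + (fl η w z t).im * (fld η (w t) (fl η w z t)).im) / r2 η w z t x)

def l1 (η : ℝ) (w : ℝ → ℝ) (z : ℂ) (a t x : ℝ) : ℝ := a * ((fl η w z t).re - x) / r2 η w z t x

def l2 (η : ℝ) (w : ℝ → ℝ) (z : ℂ) (a t x : ℝ) : ℝ :=
  a * (-1 / r2 η w z t x + 2 * ((fl η w z t).re - x) ^ 2 / r2 η w z t x ^ 2)

/-- derivatives of `ρ = √r2` -/
def ro0 (η : ℝ) (w : ℝ → ℝ) (z : ℂ) (t x : ℝ) : ℝ :=
  (((fl η w z t).re - x) * (fld η (w t) (fl η w z t)).re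
    + (fl η w z t).im * (fld η (w t) (fl η w z t)).im) / √(r2 η w z t x)

def ro1 (η : ℝ) (w : ℝ → ℝ) (z : ℂ) (t x : ℝ) : ℝ := -((fl η w z t).re - x) / √(r2 η w z t x)

def ro2 (η : ℝ) (w : ℝ → ℝ) (z : ℂ) (t x : ℝ) : ℝ := (fl η w z t).im ^ 2 / √(r2 η w z t x) ^ 3

def wb0 (η : ℝ) (w : ℝ → ℝ) (z : ℂ) (t x : ℝ) : ℂ :=
  deriv (bf w t) (x + I * √(r2 η w z t x)) *
    (-2 / (x + I * √(r2 η w z t x) - w t) + I * ro0 η w z t x)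

def wb1 (η : ℝ) (w : ℝ → ℝ) (z : ℂ) (t x : ℝ) : ℂ :=
  deriv (bf w t) (x + I * √(r2 η w z t x)) * (1 + I * ro1 η w z t x)

def wb2 (η : ℝ) (w : ℝ → ℝ) (z : ℂ) (t x : ℝ) : ℂ :=
  deriv (deriv (bf w t)) (x + I * √(r2 η w z t x)) * (1 + I * ro1 η w z t x) ^ 2
    + deriv (bf w t) (x + I * √(r2 η w z t x)) * (I * ro2 η w z t x)

def Q0 (η : ℝ) (w : ℝ → ℝ) (z : ℂ) (t x : ℝ) : ℝ :=
  -2 * (conj (z - wb η w z t x) * wb0 η w z t x).re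
    - 2 * cc η w z t ^ 2 * (4 * (fl η w z t).im ^ 2 / den η (w t) (fl η w z t) ^ 2)

def Q1 (η : ℝ) (w : ℝ → ℝ) (z : ℂ) (t x : ℝ) : ℝ :=
  -2 * (conj (z - wb η w z t x) * wb1 η w z t x).re

def Q2 (η : ℝ) (w : ℝ → ℝ) (z : ℂ) (t x : ℝ) : ℝ :=
  2 * ‖wb1 η w z t x‖ ^ 2 - 2 * (conj (z - wb η w z t x) * wb2 η w z t x).re

def m0 (A η : ℝ) (w : ℝ → ℝ) (z : ℂ) (t x : ℝ) : ℝ := -4 * Q0 η w z t x / QQ A η w z t x

def m1 (A η : ℝ) (w : ℝ → ℝ) (z : ℂ) (t x : ℝ) : ℝ := -4 * Q1 η w z t x / QQ A η w z t x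

def m2 (A η : ℝ) (w : ℝ → ℝ) (z : ℂ) (t x : ℝ) : ℝ :=
  -4 * Q2 η w z t x / QQ A η w z t x + 4 * (Q1 η w z t x / QQ A η w z t x) ^ 2

/-! ## jets -/

/-- `Ψ t x` with a right derivative in `t` and two derivatives in `x`, all jointly continuous -/
structure Jet {E : Type} [NormedAddCommGroup E] [NormedSpace ℝ E] (T : ℝ)
    (Ψ Ψ0 Ψ1 Ψ2 : ℝ → ℝ → E) : Prop where
  c : ContinuousOn (uncurry Ψ) (Icc 0 T ×ˢ univ)
  c0 : ContinuousOn (uncurry Ψ0) (Icc 0 T ×ˢ univ)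
  c1 : ContinuousOn (uncurry Ψ1) (Icc 0 T ×ˢ univ)
  c2 : ContinuousOn (uncurry Ψ2) (Icc 0 T ×ˢ univ)
  d0 : ∀ t ∈ Ico 0 T, ∀ x, HasDerivWithinAt (fun s => Ψ s x) (Ψ0 t x) (Ici t) t
  d1 : ∀ t ∈ Icc 0 T, ∀ x, HasDerivAt (Ψ t) (Ψ1 t x) x
  d2 : ∀ t ∈ Icc 0 T, ∀ x, HasDerivAt (Ψ1 t) (Ψ2 t x) x

/-- uniform bound for a jet -/
def JBd (T K : ℝ) (Ψ Ψ0 Ψ1 Ψ2 : ℝ → ℝ → ℝ) : Prop :=
  ∀ t ∈ Icc 0 T, ∀ x, |Ψ t x| ≤ K ∧ |Ψ0 t x| ≤ K ∧ |Ψ1 t x| ≤ K ∧ |Ψ2 t x| ≤ K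

/-! ## path space -/

/-- continuous paths, with the σ-algebra generated by the evaluations -/
abbrev Path : Type := {w : ℝ≥0 → ℝ // Continuous w}

/-- a path as a function on the line -/
def pf (w : Path) (t : ℝ) : ℝ := w.1 t.toNNReal

/-- `t ↦ (w (s + ρ ^ 2 t) - w s) / ρ` -/
def shs (s ρ : ℝ) (w : Path) : Path :=
  ⟨fun t => (pf w (s + ρ ^ 2 * t) - pf w s) / ρ, by
    have := w.2
    unfold pf
    fun_prop⟩

/-- the law of `√κ B` -/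
structure IsW (κ : ℝ) (μ : Measure Path) : Prop where
  pos : 0 < κ
  prob : IsProbabilityMeasure μ
  pre : IsPreBrownianReal (fun t w => (√κ)⁻¹ * w.1 t) μ

/-- `G` is measurable and determined by the path up to the time `τ` -/
structure Det {E : Type} [MeasurableSpace E] (τ : Path → ℝ) (G : Path → E) : Prop where
  meas : Measurable G
  eq : ∀ w w', Agr (τ w) (pf w) (pf w') → G w' = G w

/-- the set `A` is measurable and determined by the path up to the time `τ` -/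
structure DetS (τ : Path → ℝ) (A : Set Path) : Prop where
  meas : MeasurableSet A
  mem : ∀ w w', Agr (τ w) (pf w) (pf w') → w ∈ A → w' ∈ A

/-- stopping times with values in `[0,T]` -/
structure Stp (T : ℝ) (τ : Path → ℝ) : Prop where
  det : Det τ τ
  mem : ∀ w, τ w ∈ Icc 0 T

/-- first time in `[0,T]` at which `X ≤ 0`, or `T` -/
def hit (T : ℝ) (X : ℝ → Path → ℝ) (w : Path) : ℝ := sInf ({t ∈ Icc 0 T | X t w ≤ 0} ∪ {T})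

/-- continuous adapted processes on `[0,T]` -/
structure Adp (T : ℝ) (X : ℝ → Path → ℝ) : Prop where
  cont : ∀ w, ContinuousOn (fun t => X t w) (Icc 0 T)
  det : ∀ t ∈ Icc 0 T, Det (fun _ => t) (X t)

/-- `N - ∫ d` is a bounded continuous martingale on `[0,T]` -/
structure Mart (μ : Measure Path) (T : ℝ) (N d : ℝ → Path → ℝ) : Prop where
  cN : ∀ w, ContinuousOn (fun t => N t w) (Icc 0 T)
  cd : ∀ w, ContinuousOn (fun t => d t w) (Icc 0 T)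
  mN : ∀ t ∈ Icc 0 T, Measurable (N t)
  md : ∀ t ∈ Icc 0 T, Measurable (d t)
  bdd : ∃ K, ∀ t ∈ Icc 0 T, ∀ w, |N t w| ≤ K ∧ |d t w| ≤ K
  eq : ∀ s t, 0 ≤ s → s ≤ t → t ≤ T → ∀ A, DetS (fun _ => s) A →
    ∫ w in A, (N t w - N s w - ∫ u in s..t, d u w) ∂μ = 0

/-! ## good scales, zigzag -/

/-- the area of the set of points of `D` reaching conformal radius `e` is at least `v` -/
def Fat (w : ℝ → ℝ) (T e : ℝ) (D : Set ℂ) (v : ℝ) : Prop :=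
  ENNReal.ofReal v ≤ volume (Ever w T e ∩ D)

/-- the one point supermartingale -/
def NN (κ η : ℝ) (z : ℂ) (t : ℝ) (w : Path) : ℝ :=
  pv η (pf w) z (-be κ) (al κ) 0 t * kil η (pf w) z t

/-- first time at which the conformal radius is at most `r` -/
def rho (η : ℝ) (z : ℂ) (T r : ℝ) : Path → ℝ := hit T fun t w => cc η (pf w) z t - r

/-- `r` is a good scale for `x` -/
def Good (κ K c : ℝ) (m : ℕ) (e : ℝ) (w : ℝ → ℝ) (T : ℝ) (x : ℂ) (r : ℝ) : Prop :=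
  Fat w T e (Metric.ball x (K * r)) (c * (m : ℝ) ^ be κ * r ^ dd κ * e ^ be κ)

/-- integer triangular wave of amplitude `m` -/
def tri (m i : ℕ) : ℝ :=
  (-1) ^ ((i + m) / (2 * m)) * ((i : ℝ) - 2 * m * (((i + m) / (2 * m) : ℕ) : ℝ))

/-- the box `[-1,1] × [c,1]` -/
def box (c : ℝ) : Set ℂ := {z | |z.re| ≤ 1 ∧ c ≤ z.im ∧ z.im ≤ 1}

/-- the event used for positivity: approximate measures with mass bounded below and with the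
Frostman bound for the gauge -/
def Frost (κ : ℝ) (w : ℝ → ℝ) (T : ℝ) : Prop :=
  ∃ c C r₀ : ℝ, 0 < c ∧ 0 < r₀ ∧ ∀ e₀, 0 < e₀ → ∃ e, 0 < e ∧ e < e₀ ∧ ∃ m : ℂ → ℝ≥0∞,
    Measurable m ∧ (∀ z, m z ≠ 0 → z ∈ Metric.ball I (1 / 2) ∩ Ever w T e) ∧
    ENNReal.ofReal c ≤ ∫⁻ z, m z ∧
    ∀ z, m z ≠ 0 → ∀ r, 0 < r → r ≤ r₀ →
      ∫⁻ ξ in Metric.ball z r, m ξ ≤ ENNReal.ofReal (C * gaugeFn κ r)

end Vale.Agent.P164
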