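import Vale.Agent.P164.Dist
import Vale.Agent.P164.Fld

/-!
# P164 DetA

Tools for the deterministic inequalities.
-/

open MeasureTheory ProbabilityTheory Set Filter Topology Complex Function
open scoped NNReal ENNReal ComplexConjugate

noncomputable section

namespace Vale.Agent.P164

variable {F : ℂ → ℂ} {x₀ : ℂ} {R A η : ℝ}

theorem om_mem (x₀ : ℂ) (R : ℝ) (z : ℂ) : 0 < om x₀ R z ∧ om x₀ R z ≤ 1 := by
  unfold om
  have h : (1 : ℝ) ≤ (1 + (max (‖z - x₀‖ - R) 0) ^ 2) ^ 2 :=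
    one_le_pow₀ (le_add_of_nonneg_right (sq_nonneg _))
  exact ⟨by positivity, div_le_one_of_le₀ h (by positivity)⟩

theorem om_ball {z : ℂ} (h : z ∈ Metric.ball x₀ R) : om x₀ R z = 1 := by
  have h1 : ‖z - x₀‖ - R ≤ 0 := sub_nonpos.2 (mem_ball_iff_norm.1 h).le
  simp [om, max_eq_right h1]

theorem continuous_om (x₀ : ℂ) (R : ℝ) : Continuous (om x₀ R) := by
  unfold om
  exact continuous_const.div (by fun_prop) fun z => by positivity

/-- Peetre's inequality -/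
theorem om_le (x₀ : ℂ) (R : ℝ) (z z' : ℂ) :
    om x₀ R z ≤ 4 * om x₀ R z' * (1 + ‖z - z'‖ ^ 2) ^ 2 := by
  unfold om
  have h1 : ‖z' - x₀‖ ≤ ‖z - x₀‖ + ‖z - z'‖ := by
    rw [norm_sub_rev z z', add_comm]
    exact norm_sub_le_norm_sub_add_norm_sub _ _ _
  have h2 : max (‖z' - x₀‖ - R) 0 ≤ max (‖z - x₀‖ - R) 0 + ‖z - z'‖ :=
    max_le (by linarith [le_max_left (‖z - x₀‖ - R) 0])
      (add_nonneg (le_max_right _ _) (norm_nonneg _))
  have h3 : 0 ≤ max (‖z' - x₀‖ - R) 0 := le_max_right _ _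
  generalize max (‖z' - x₀‖ - R) 0 = m' at h2 h3
  generalize max (‖z - x₀‖ - R) 0 = m at h2
  generalize ‖z - z'‖ = d at h2
  have h4 : m' ^ 2 ≤ (m + d) ^ 2 := pow_le_pow_left₀ h3 h2 2
  have h5 : 1 + m' ^ 2 ≤ 2 * ((1 + m ^ 2) * (1 + d ^ 2)) := by
    nlinarith [sq_nonneg (m - d), sq_nonneg (m * d)]
  have h6 := pow_le_pow_left₀ (by positivity) h5 2
  rw [mul_one_div, div_mul_eq_mul_div, div_le_div_iff₀ (by positivity) (by positivity)]
  nlinarith

theorem DetA_fin : ∫⁻ z : ℂ, ENNReal.ofReal (1 / (1 + ‖z‖ ^ 2) ^ 2) < ⊤ := by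
  have h := integrable_rpow_neg_one_add_norm_sq (E := ℂ) (μ := volume) (r := 4)
    (by rw [Complex.finrank_real_complex]; norm_num)
  refine lt_of_eq_of_lt (lintegral_congr fun z => ?_) h.lintegral_lt_top
  rw [show (-4 / 2 : ℝ) = -((2 : ℕ) : ℝ) by norm_num, Real.rpow_neg (by positivity),
    Real.rpow_natCast, one_div]

theorem DetA_det (c : ℂ) :
    ((ContinuousLinearMap.toSpanSingleton ℂ c).restrictScalars ℝ).det = ‖c‖ ^ 2 := by
  rw [ContinuousLinearMap.det, ← LinearMap.det_toMatrix basisOneI, Matrix.det_fin_two]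
  simp [LinearMap.toMatrix_apply, Complex.sq_norm, Complex.normSq_apply]

/-- `integrable_rpow_neg_one_add_norm_sq` -/
theorem lint_kernel : ∃ C : ℝ, 0 < C ∧ ∀ p : ℂ,
    ∫⁻ z : ℂ, ENNReal.ofReal (1 / (1 + ‖z - p‖ ^ 2) ^ 2) ≤ ENNReal.ofReal C := by
  refine ⟨(∫⁻ z : ℂ, ENNReal.ofReal (1 / (1 + ‖z‖ ^ 2) ^ 2)).toReal + 1, by positivity, fun p => ?_⟩
  rw [lintegral_sub_right_eq_self (fun z : ℂ => ENNReal.ofReal (1 / (1 + ‖z‖ ^ 2) ^ 2)) p]
  conv_lhs => rw [← ENNReal.ofReal_toReal DetA_fin.ne]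
  exact ENNReal.ofReal_le_ofReal (le_add_of_nonneg_right zero_le_one)

/-- `om x₀ R z ≤ C / (1 + ‖(z - x₀) / R‖ ^ 2) ^ 2` for `R ≥ 1` -/
theorem lint_om : ∃ C : ℝ, 0 < C ∧ ∀ (x₀ : ℂ) (R : ℝ), 1 ≤ R →
    ∫⁻ z, ENNReal.ofReal (om x₀ R z) ≤ ENNReal.ofReal (C * R ^ 2) := by
  obtain ⟨C, hC, h⟩ := lint_kernel
  refine ⟨9 * C, by positivity, fun x₀ R hR => ?_⟩
  have hR0 : 0 < R := by linarith
  have hg : Measurable fun z : ℂ => ENNReal.ofReal (1 / (1 + ‖z‖ ^ 2) ^ 2) := by fun_prop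
  have h1 : ∀ z, ENNReal.ofReal (om x₀ R z) ≤
      ENNReal.ofReal 9 * ENNReal.ofReal (1 / (1 + ‖R⁻¹ • (z - x₀)‖ ^ 2) ^ 2) := fun z => by
    rw [← ENNReal.ofReal_mul (by norm_num)]
    refine ENNReal.ofReal_le_ofReal ?_
    unfold om
    have h2 : 0 ≤ max (‖z - x₀‖ - R) 0 := le_max_right _ _
    have h3 : ‖R⁻¹ • (z - x₀)‖ ≤ 1 + max (‖z - x₀‖ - R) 0 := by
      rw [norm_smul, Real.norm_of_nonneg (inv_nonneg.2 hR0.le), inv_mul_le_iff₀ hR0]
      nlinarith [le_max_left (‖z - x₀‖ - R) 0]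
    have h4 := pow_le_pow_left₀ (norm_nonneg _) h3 2
    generalize max (‖z - x₀‖ - R) 0 = m at h2 h4
    generalize ‖R⁻¹ • (z - x₀)‖ = s at h4
    have h5 : 1 + s ^ 2 ≤ 3 * (1 + m ^ 2) := by nlinarith [sq_nonneg (m - 1)]
    have h6 := pow_le_pow_left₀ (by positivity) h5 2
    rw [mul_one_div, div_le_div_iff₀ (by positivity) (by positivity)]
    nlinarith
  refine (lintegral_mono h1).trans ?_
  rw [lintegral_const_mul' _ _ ENNReal.ofReal_ne_top,
    lintegral_sub_right_eq_self (fun z : ℂ => ENNReal.ofReal (1 / (1 + ‖R⁻¹ • z‖ ^ 2) ^ 2)) x₀,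
    ← lintegral_map hg (measurable_const_smul R⁻¹),
    Measure.map_addHaar_smul _ (inv_ne_zero hR0.ne'), lintegral_smul_measure,
    Complex.finrank_real_complex, inv_pow, inv_inv, abs_of_nonneg (sq_nonneg R), smul_eq_mul,
    show 9 * C * R ^ 2 = 9 * (R ^ 2 * C) by ring, ENNReal.ofReal_mul (by norm_num),
    ENNReal.ofReal_mul (sq_nonneg R)]
  have h2 := h 0
  simp only [sub_zero] at h2
  gcongr

/-- change of variables for an injective holomorphic map -/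
theorem Univ.lint_le (hF : Univ F) (k : ℂ → ℝ≥0∞) {S : Set ℂ} (hS : MeasurableSet S) (h : S ⊆ HH) :
    ∫⁻ Z in S, k (F Z) * ENNReal.ofReal (‖deriv F Z‖ ^ 2) ≤ ∫⁻ z, k z := by
  have ho : IsOpen HH := isOpen_lt continuous_const Complex.continuous_im
  have hd : ∀ Z ∈ S, HasFDerivWithinAt F
      ((ContinuousLinearMap.toSpanSingleton ℂ (deriv F Z)).restrictScalars ℝ) S Z := fun Z hZ =>
    (((hF.diff.differentiableAt (ho.mem_nhds (h hZ))).hasDerivAt.hasFDerivAt).restrictScalars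
      ℝ).hasFDerivWithinAt
  have h1 := lintegral_image_eq_lintegral_abs_det_fderiv_mul volume hS hd (hF.inj.mono h) k
  simp only [DetA_det] at h1
  refine le_trans (le_of_eq ?_) (setLIntegral_le_lintegral (F '' S) k)
  rw [h1]
  refine lintegral_congr fun Z => ?_
  rw [mul_comm, abs_of_nonneg (sq_nonneg _)]

theorem schi_mem (hA : 1 ≤ A) (F : ℂ → ℂ) (Z : ℂ) : 0 < schi A F Z ∧ schi A F Z ≤ 1 := by
  have hA0 : 0 < A := by linarith
  unfold schi
  refine ⟨by positivity, pow_le_one₀ (by positivity) (div_le_one_of_le₀ ?_ (by positivity))⟩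
  linarith [sq_nonneg ‖F Z - F (I * ‖Z‖)‖, sq_nonneg (sc F Z)]

theorem sS_mem {Z : ℂ} (hZ : 0 < Z.im) : 0 < sS Z ∧ sS Z ≤ 1 := by
  have h1 : Z.im ≤ ‖Z‖ := Complex.im_le_norm Z
  exact ⟨div_pos hZ (hZ.trans_le h1), div_le_one_of_le₀ h1 (norm_nonneg _)⟩

theorem Univ.measurable (hF : Univ F) (A : ℝ) : Measurable (sc F) ∧ Measurable (scb F) ∧
    Measurable (schi A F) ∧ Measurable sS := by
  have hb : Measurable fun Z : ℂ => I * (‖Z‖ : ℂ) := by fun_prop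
  have h1 : Measurable (sc F) := Complex.measurable_im.mul (measurable_deriv F).norm
  refine ⟨h1, measurable_norm.mul ((measurable_deriv F).comp hb).norm, ?_,
    Complex.measurable_im.div measurable_norm⟩
  exact (measurable_const.div ((measurable_const.add
    ((hF.meas.sub (hF.meas.comp hb)).norm.pow_const 2)).add (h1.pow_const 2))).pow_const 4

end Vale.Agent.P164
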