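import Vale.Agent.P164.Dist
import Vale.Agent.P164.Fld
import Vale.Agent.P164.DetA
import Vale.Agent.P164.DetB

/-!
# P164 Det0

Tools for the deterministic inequalities.
-/

open MeasureTheory ProbabilityTheory Set Filter Topology Complex Function
open scoped NNReal ENNReal ComplexConjugate

noncomputable section

namespace Vale.Agent.P164

variable {F : ℂ → ℂ} {x₀ : ℂ} {R A η : ℝ}

/-- `‖F Z - F Z'‖ ≤ C (‖F Z - F (I ‖Z‖)‖ + sc F Z)` by `bulk_le` and `Univ.scb_le` -/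
theorem schi_bulk (hA : 1 ≤ A) : ∃ C : ℝ, 0 < C ∧ ∀ (F : ℂ → ℂ) (Z Z' : ℂ), Univ F → 0 < Z.im →
    Bulk Z Z' → schi A F Z ≤ C / (1 + ‖F Z - F Z'‖ ^ 2) ^ 4 := by
  obtain ⟨C, hC, h⟩ := bulk_le
  refine ⟨(2 * (1 + 100 * C) ^ 2 * A ^ 2) ^ 4, by positivity, fun F Z Z' hF hZ hB => ?_⟩
  have h1 := (h F Z Z' hF hZ hB).2.2.1
  have h2 := hF.scb_le hZ
  have h3 := (hF.sc_pos hZ).le
  have h4 : ‖F Z - F Z'‖ ≤ ‖F Z - F (I * ‖Z‖)‖ + ‖F Z' - F (I * ‖Z‖)‖ := by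
    have := norm_sub_le (F Z - F (I * ‖Z‖)) (F Z' - F (I * ‖Z‖))
    rwa [sub_sub_sub_cancel_right] at this
  unfold schi
  have h5 := norm_nonneg (F Z - F (I * ‖Z‖))
  have h0 := norm_nonneg (F Z - F Z')
  generalize ‖F Z - F (I * ‖Z‖)‖ = a at *
  generalize ‖F Z - F Z'‖ = D at *
  generalize sc F Z = c at *
  have h6 : D ≤ (1 + 100 * C) * (a + c) := by
    have := mul_le_mul_of_nonneg_left h2 (zero_le_one.trans hC)
    nlinarith
  have h7 : D ^ 2 ≤ (1 + 100 * C) ^ 2 * (2 * (a ^ 2 + c ^ 2)) := by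
    refine (pow_le_pow_left₀ h0 h6 2).trans ?_
    rw [mul_pow]
    exact mul_le_mul_of_nonneg_left (by nlinarith [sq_nonneg (a - c)]) (sq_nonneg _)
  have h8 : 1 ≤ (1 + 100 * C) ^ 2 * A ^ 2 :=
    one_le_mul_of_one_le_of_one_le (one_le_pow₀ (by linarith)) (one_le_pow₀ hA)
  have h9 : 1 + D ^ 2 ≤ 2 * (1 + 100 * C) ^ 2 * (A ^ 2 + a ^ 2 + c ^ 2) := by linarith
  rw [← div_pow]
  refine pow_le_pow_left₀ (by positivity) ?_ 4
  rw [div_le_div_iff₀ (by positivity) (by positivity)]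
  have := mul_le_mul_of_nonneg_left h9 (sq_nonneg A)
  linarith

theorem om_schi_bulk (hA : 1 ≤ A) : ∃ C : ℝ, 0 < C ∧ ∀ (F : ℂ → ℂ) (Z Z' x₀ : ℂ) (R : ℝ), Univ F →
    0 < Z.im → Bulk Z Z' →
    om x₀ R (F Z) * schi A F Z ≤ C * om x₀ R (F Z') / (1 + ‖F Z - F Z'‖ ^ 2) ^ 2 := by
  obtain ⟨C, hC, h⟩ := schi_bulk hA
  refine ⟨4 * C, by positivity, fun F Z Z' x₀ R hF hZ hB => ?_⟩
  have h1 := (om_mem x₀ R (F Z')).1
  refine (mul_le_mul (om_le x₀ R (F Z) (F Z')) (h F Z Z' hF hZ hB) (schi_mem hA F Z).1.le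
    (by positivity)).trans (le_of_eq ?_)
  field_simp

/-- the annulus lemma -/
theorem ann_le (hA : 1 ≤ A) : ∃ C : ℝ, 0 < C ∧ ∀ (F : ℂ → ℂ) (Z' x₀ : ℂ) (R : ℝ), Univ F →
    ∫⁻ Z in {Z | 0 < Z.im ∧ Bulk Z Z'},
      ENNReal.ofReal (om x₀ R (F Z) * schi A F Z * ‖deriv F Z‖ ^ 2)
      ≤ ENNReal.ofReal (C * om x₀ R (F Z')) := by
  obtain ⟨C, hC, h⟩ := om_schi_bulk hA
  obtain ⟨C', hC', h'⟩ := lint_kernel
  refine ⟨C * C', by positivity, fun F Z' x₀ R hF => ?_⟩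
  have hS : MeasurableSet {Z : ℂ | 0 < Z.im ∧ Bulk Z Z'} :=
    (measurableSet_lt measurable_const Complex.measurable_im).inter
      (measurableSet_bulk.preimage (measurable_id.prodMk measurable_const))
  have h1 := (om_mem x₀ R (F Z')).1
  have h2 := (hF.lint_le (fun z => ENNReal.ofReal (1 / (1 + ‖z - F Z'‖ ^ 2) ^ 2)) hS
    fun Z hZ => hZ.1).trans (h' (F Z'))
  calc _ ≤ ∫⁻ Z in {Z | 0 < Z.im ∧ Bulk Z Z'}, ENNReal.ofReal (C * om x₀ R (F Z')) *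
        (ENNReal.ofReal (1 / (1 + ‖F Z - F Z'‖ ^ 2) ^ 2) * ENNReal.ofReal (‖deriv F Z‖ ^ 2)) := by
        refine setLIntegral_mono' hS fun Z hZ => ?_
        rw [← ENNReal.ofReal_mul (by positivity), ← ENNReal.ofReal_mul (by positivity),
          ← mul_assoc, mul_one_div]
        exact ENNReal.ofReal_le_ofReal
          (mul_le_mul_of_nonneg_right (h F Z Z' x₀ R hF hZ.1 hZ.2) (sq_nonneg _))
    _ ≤ ENNReal.ofReal (C * om x₀ R (F Z')) * ENNReal.ofReal C' := by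
        rw [lintegral_const_mul' _ _ ENNReal.ofReal_ne_top]
        exact mul_le_mul_right h2 _
    _ = _ := by
        rw [← ENNReal.ofReal_mul (by positivity), mul_right_comm]

end Vale.Agent.P164
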