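import Vale.Agent.P164.Det0

/-!
# P164 DetC

The costs of the weight `χ`. Write `c = sc F Z`, `b = scb F Z`, `S = sS Z`, `J = ‖F' Z‖ ^ 2 = c ^ 2 / Y ^ 2`.

`E1`: the second part of `sLam` is at most `c₂ / 8` if `256 c ^ 2 ≤ c₂ A ^ 2`, otherwise `c ≥ 1` (`A` large),
`χ ≤ A ^ 2 / c ^ 2 ≤ 4 A ^ 2 c ^ 2 / (1 + c ^ 2) ^ 2`. The first part is at most `c₂ / 8` if
`8 C b ≤ c₂ A`, otherwise `b ≥ 1` and `big_le` applies.

`E2`: second part: `c ^ (-β) c ^ 2 = c ^ d ≤ A ^ 2 + c ^ 2` and `S ^ α ≤ S ^ a`. First part: if `b ≥ 1` use Young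
`c ^ d S ^ α ≤ c ^ 2 + S ^ (2 α / β) ≤ c ^ 2 + S ^ 2` and `big_le`; if `b < 1` and `S b ≤ c` then
`c ^ (-β) S ^ α b ≤ S ^ (α - β) ≤ S ^ a`; if `b < 1` and `c < S b` then
`c ^ (-β) S ^ α b J ≤ b ^ 2 / ‖Z‖ ^ 2` and `small_le` applies.
-/

open MeasureTheory ProbabilityTheory Set Filter Topology Complex Function
open scoped NNReal ENNReal ComplexConjugate

noncomputable section

namespace Vale.Agent.P164

variable {κ : ℝ}

theorem DetC_ann {A : ℝ} (hA : 1 ≤ A) : ∃ C : ℝ, 0 < C ∧ ∀ (F : ℂ → ℂ) (Z' x₀ : ℂ) (R : ℝ), Univ F →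
    ∫⁻ Z in {Z | 0 < Z.im ∧ Bulk Z Z'},
      ENNReal.ofReal (om x₀ R (F Z) * schi A F Z * (‖deriv F Z‖ ^ 2 + 1 / ‖Z‖ ^ 2))
      ≤ ENNReal.ofReal (C * om x₀ R (F Z')) := by
  obtain ⟨Ca, hCa, ha⟩ := ann_le hA
  obtain ⟨Co, hCo, ho⟩ := om_schi_bulk hA
  refine ⟨Ca + Co * 16, by positivity, fun F Z' x₀ R hF => ?_⟩
  have h0 := (om_mem x₀ R (F Z')).1
  have hS : MeasurableSet {Z : ℂ | 0 < Z.im ∧ Bulk Z Z'} :=
    (measurableSet_lt measurable_const measurable_im).inter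
      (measurable_prodMk_right measurableSet_bulk)
  have hm : Measurable fun Z : ℂ =>
      ENNReal.ofReal (Co * om x₀ R (F Z')) * ENNReal.ofReal (1 / ‖Z‖ ^ 2) := by fun_prop
  calc _ ≤ ∫⁻ Z in {Z | 0 < Z.im ∧ Bulk Z Z'},
        (ENNReal.ofReal (om x₀ R (F Z) * schi A F Z * ‖deriv F Z‖ ^ 2) +
          ENNReal.ofReal (Co * om x₀ R (F Z')) * ENNReal.ofReal (1 / ‖Z‖ ^ 2)) := by
        refine setLIntegral_mono' hS fun Z hZ => ?_
        rw [mul_add, ← ENNReal.ofReal_mul (by positivity)]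
        refine ENNReal.ofReal_add_le.trans (add_le_add le_rfl (ENNReal.ofReal_le_ofReal ?_))
        refine mul_le_mul_of_nonneg_right ((ho F Z Z' x₀ R hF hZ.1 hZ.2).trans ?_) (by positivity)
        exact div_le_self (by positivity) (one_le_pow₀ (le_add_of_nonneg_right (sq_nonneg _)))
    _ ≤ ENNReal.ofReal (Ca * om x₀ R (F Z')) + ENNReal.ofReal (Co * om x₀ R (F Z')) * 16 := by
        rw [lintegral_add_right _ hm, lintegral_const_mul' _ _ ENNReal.ofReal_ne_top]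
        exact add_le_add (ha F Z' x₀ R hF) (mul_le_mul_right (ann_vol Z') _)
    _ = _ := by
        rw [← ENNReal.ofReal_ofNat 16, ← ENNReal.ofReal_mul (by positivity),
          ← ENNReal.ofReal_add (by positivity) (by positivity)]
        congr 1
        ring

theorem DetC_sS {Z Z' : ℂ} (hZ : 0 < Z'.im) (h : Bulk Z Z') : 1 ≤ 2 * sS Z' ^ 2 := by
  have h1 : Z' ≠ 0 := fun e => by simp [e] at hZ
  have h2 : 0 < ‖Z'‖ ^ 2 := by positivity
  have h3 : Z'.re ^ 2 ≤ Z'.im ^ 2 := by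
    rw [← sq_abs]
    exact pow_le_pow_left₀ (abs_nonneg _) (h.2.2.trans h.1) 2
  rw [sS, div_pow, ← mul_div_assoc, one_le_div h2, Complex.sq_norm, Complex.normSq_apply]
  linarith

theorem DetC_num {B c S : ℝ} (h1 : 1 ≤ B * c) (h2 : 1 ≤ 2 * S ^ 2) :
    1 ≤ 2 * (1 + B ^ 2) ^ 2 * (c ^ 2 / (1 + c ^ 2) ^ 2 * S ^ 2 * c ^ 2) := by
  have h3 : 1 + c ^ 2 ≤ (1 + B ^ 2) * c ^ 2 := by nlinarith [one_le_pow₀ (n := 2) h1]
  have h4 : 1 ≤ ((1 + B ^ 2) * c ^ 2) ^ 2 / (1 + c ^ 2) ^ 2 :=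
    (one_le_div (by positivity)).2 (pow_le_pow_left₀ (by positivity) h3 2)
  refine (one_le_mul_of_one_le_of_one_le h4 h2).trans_eq ?_
  ring

/-- `collect`, `ann_le`, `ann_vol`, `om_schi_bulk`: if some `Z` with `Bulk Z Z'` has `scb F Z ≥ 1` then
`sc F Z' ≥ 1 / C`, and `sS Z' ^ 2 ≥ 1 / 2` -/
theorem big_le {A : ℝ} (hA : 1 ≤ A) : ∃ C : ℝ, 0 < C ∧ ∀ (F : ℂ → ℂ) (η : ℝ) (x₀ : ℂ) (R : ℝ),
    Univ F → 0 < η → ∫⁻ Z in {Z : ℂ | η < Z.im}, {Z | 1 ≤ scb F Z}.indicator (fun Z =>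
      ENNReal.ofReal (om x₀ R (F Z) * schi A F Z * (‖deriv F Z‖ ^ 2 + 1 / ‖Z‖ ^ 2) / ‖Z‖ ^ 2)) Z
      ≤ ENNReal.ofReal C * RH η x₀ R F := by
  obtain ⟨C, hC, ha⟩ := DetC_ann hA
  obtain ⟨B, hB, hb⟩ := bulk_le
  set D : ℝ := C * (2 * (1 + B ^ 2) ^ 2) with hD
  have hD0 : 0 < D := by positivity
  refine ⟨10 * D, by positivity, fun F η x₀ R hF hη => ?_⟩
  obtain ⟨-, m2, m3, -⟩ := hF.measurable A
  have m0 : Measurable fun Z => om x₀ R (F Z) := (continuous_om x₀ R).measurable.comp hF.meas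
  have m1 : Measurable (deriv F) := measurable_deriv F
  have hk : Measurable ({Z | 1 ≤ scb F Z}.indicator fun Z =>
      ENNReal.ofReal (om x₀ R (F Z) * schi A F Z * (‖deriv F Z‖ ^ 2 + 1 / ‖Z‖ ^ 2))) :=
    Measurable.indicator (by fun_prop) (measurableSet_le measurable_const m2)
  have hH : MeasurableSet {Z : ℂ | η < Z.im} := measurableSet_lt measurable_const measurable_im
  have hc := collect (b := fun Z => ENNReal.ofReal (D * (om x₀ R (F Z) *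
    (sc F Z ^ 2 / (1 + sc F Z ^ 2) ^ 2) * sS Z ^ 2 / ‖Z‖ ^ 2 * ‖deriv F Z‖ ^ 2) *
      (Z.im ^ 2 * ‖Z‖ ^ 2))) hk hη fun Z' hZ' => by
    have z0 : 0 < Z'.im := hη.trans hZ'
    have z1 : Z' ≠ 0 := fun e => by simp [e] at z0
    by_cases he : ∃ Z, (η < Z.im ∧ Bulk Z Z') ∧ 1 ≤ scb F Z
    · obtain ⟨Z, ⟨y1, y2⟩, y3⟩ := he
      have hs : {Z : ℂ | η < Z.im ∧ Bulk Z Z'} ⊆ {Z | 0 < Z.im ∧ Bulk Z Z'} :=
        fun _ hZ => ⟨hη.trans hZ.1, hZ.2⟩
      refine ((lintegral_mono_set hs).trans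
        ((lintegral_mono (indicator_le_self _ _)).trans (ha F Z' x₀ R hF))).trans
        (ENNReal.ofReal_le_ofReal ?_)
      have h1 := DetC_num (y3.trans (hb F Z Z' hF (hη.trans y1) y2).2.1) (DetC_sS z0 y2)
      refine (le_mul_of_one_le_right (mul_pos hC (om_mem x₀ R (F Z')).1).le h1).trans_eq ?_
      rw [hD]
      nth_rw 3 [sc]
      field_simp
    · refine (setLIntegral_eq_zero ((measurableSet_lt measurable_const measurable_im).inter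
        (measurable_prodMk_right measurableSet_bulk)) fun Z hZ => ?_).trans_le zero_le
      exact indicator_of_notMem (s := {Z | 1 ≤ scb F Z}) (fun h => he ⟨Z, hZ, h⟩) _
  refine le_of_eq_of_le (lintegral_congr fun Z => ?_) (hc.trans_eq ?_)
  · by_cases hZ : Z ∈ {Z | 1 ≤ scb F Z}
    · rw [indicator_of_mem hZ, indicator_of_mem hZ, ← ENNReal.ofReal_mul' (by positivity),
        mul_one_div]
    · rw [indicator_of_notMem hZ, indicator_of_notMem hZ, zero_mul]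
  · rw [ENNReal.ofReal_mul (by norm_num), ENNReal.ofReal_ofNat, mul_assoc, RH, LI,
      ← lintegral_const_mul' _ _ ENNReal.ofReal_ne_top]
    congr 1
    refine setLIntegral_congr_fun hH fun Z hZ => ?_
    have z0 : 0 < Z.im := hη.trans hZ
    have z1 : Z ≠ 0 := fun e => by simp [e] at z0
    have z2 : Z.im ^ 2 * ‖Z‖ ^ 2 ≠ 0 := by positivity
    rw [← ENNReal.ofReal_mul' (by positivity), mul_one_div, mul_div_cancel_right₀ _ z2,
      ENNReal.ofReal_mul hD0.le]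

end Vale.Agent.P164
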