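import Vale.Agent.P164.Det0

/-!
# P164 DetD

The costs of the weight `χ`. Write `c = sc F Z`, `b = scb F Z`, `S = sS Z`, `J = ‖F' Z‖ ^ 2 = c ^ 2 / Y ^ 2`.

`E1`: the second part of `sLam` is at most `c₂ / 8` if `256 c ^ 2 ≤ c₂ A ^ 2`, otherwise `c ≥ 1` (`A` large),
`χ ≤ A ^ 2 / c ^ 2 ≤ 4 A ^ 2 c ^ 2 / (1 + c ^ 2) ^ 2`. The first part is at most `c₂ / 8` if
`8 C b ≤ c₂ A`, otherwise `b ≥ 1` and `big_le` applies.

`E2`: second part: `c ^ (-β) c ^ 2 = c ^ d ≤ A ^ 2 + c ^ 2` and `S ^ α ≤ S ^ a`. First part: if `b ≥ 1` use Young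
`c ^ d S ^ α ≤ c ^ 2 + S ^ (2 α / β) ≤ c ^ 2 + S ^ 2` and `big_le`; if `b < 1` and `S b ≤ c` then
`c ^ (-β) S ^ α b ≤ S ^ (α - β) ≤ S ^ a`; if `b < 1` and `c < S b` then
`c ^ (-β) S ^ α b J ≤ b ^ 2 / ‖Z‖ ^ 2` and `small_le` applies.
-/

open MeasureTheory ProbabilityTheory Set Filter Topology Complex Function
open scoped NNReal ENNReal ComplexConjugate

noncomputable section

namespace Vale.Agent.P164

variable {κ : ℝ}

theorem DetD_pt (κ : ℝ) {A : ℝ} (hA : 1 ≤ A) : ∃ K : ℝ, 0 < K ∧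
    ∀ (F : ℂ → ℂ) (η : ℝ) (x₀ : ℂ) (R : ℝ) (Z Z' : ℂ), Univ F → 0 < η → 0 < Z.im → Bulk Z Z' →
    scb F Z < 1 → bw A η x₀ R F Z * scb F Z ^ 2 ≤
      K * (bw A η x₀ R F Z' * sS Z' ^ aa κ * sc F Z' ^ 2) := by
  obtain ⟨C1, hC1, h1⟩ := om_schi_bulk hA
  obtain ⟨C2, hC2, h2⟩ := bulk_le
  have hA0 : 0 < A := by linarith
  have hc : 0 < (A ^ 2 / (A ^ 2 + C2 ^ 2 + C2 ^ 2)) ^ 4 := by positivity
  generalize hcc : (A ^ 2 / (A ^ 2 + C2 ^ 2 + C2 ^ 2)) ^ 4 = c at hc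
  refine ⟨2 * C1 * C2 ^ 2 / c, by positivity, fun F η x₀ R Z Z' hF hη hZ hB hb => ?_⟩
  obtain ⟨a1, a2, -, a4⟩ := h2 F Z Z' hF hZ hB
  have hle : Z.im ≤ Z'.im := ((le_abs_self _).trans (abs_im_le_norm Z)).trans hB.1
  have hZ' : 0 < Z'.im := hZ.trans_le hle
  have hb0 : 0 ≤ scb F Z := mul_nonneg (norm_nonneg _) (norm_nonneg _)
  have hs0 : 0 ≤ sc F Z' := mul_nonneg hZ'.le (norm_nonneg _)
  have hCb : C2 * scb F Z ≤ C2 := mul_le_of_le_one_right (by linarith) hb.le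
  have hom := (om_mem x₀ R (F Z')).1
  have b1 : om x₀ R (F Z) * schi A F Z ≤ C1 * om x₀ R (F Z') :=
    (h1 F Z Z' x₀ R hF hZ hB).trans
      (div_le_self (by positivity) (one_le_pow₀ (le_add_of_nonneg_right (sq_nonneg _))))
  have b2 : stp (Z.im / η) ≤ stp (Z'.im / η) := stp_mono (div_le_div_of_nonneg_right hle hη.le)
  have b3 : scb F Z ^ 2 ≤ C2 ^ 2 * sc F Z' ^ 2 := by
    rw [← mul_pow]
    exact pow_le_pow_left₀ hb0 a2 2
  have b4 : c ≤ schi A F Z' := by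
    rw [← hcc]
    refine pow_le_pow_left₀ (by positivity) (div_le_div_of_nonneg_left (by positivity)
      (by positivity) ?_) 4
    exact add_le_add (add_le_add le_rfl (pow_le_pow_left₀ (norm_nonneg _) (a4.trans hCb) 2))
      (pow_le_pow_left₀ hs0 (a1.trans hCb) 2)
  have b5 : 1 / 2 ≤ sS Z' ^ aa κ := by
    have hS := sS_mem hZ'
    have hn : 0 < ‖Z'‖ := hZ'.trans_le ((le_abs_self _).trans (abs_im_le_norm Z'))
    have e1 : 1 / 2 ≤ sS Z' := by
      have := norm_le_abs_re_add_abs_im Z'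
      rw [abs_of_pos hZ'] at this
      rw [sS, le_div_iff₀ hn]
      linarith [hB.1, hB.2.2]
    refine e1.trans ?_
    have := Real.rpow_le_rpow_of_exponent_ge hS.1 hS.2 (aa_le κ).2
    rwa [Real.rpow_one] at this
  have hst := stp_nonneg (Z'.im / η)
  have b6 : c * (1 / 2) ≤ schi A F Z' * sS Z' ^ aa κ :=
    mul_le_mul b4 b5 (by norm_num) (hc.le.trans b4)
  calc bw A η x₀ R F Z * scb F Z ^ 2
      ≤ C1 * om x₀ R (F Z') * stp (Z'.im / η) * (C2 ^ 2 * sc F Z' ^ 2) :=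
        mul_le_mul (mul_le_mul b1 b2 (stp_nonneg _) (by positivity)) b3 (sq_nonneg _)
          (by positivity)
    _ = 2 * C1 * C2 ^ 2 / c * (om x₀ R (F Z') * stp (Z'.im / η) * sc F Z' ^ 2 * (c * (1 / 2))) := by
        field_simp
    _ ≤ 2 * C1 * C2 ^ 2 / c * (om x₀ R (F Z') * stp (Z'.im / η) * sc F Z' ^ 2 *
          (schi A F Z' * sS Z' ^ aa κ)) :=
        mul_le_mul_of_nonneg_left (mul_le_mul_of_nonneg_left b6 (by positivity)) (by positivity)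
    _ = _ := by
        unfold bw
        ring

theorem DetD_bw {A : ℝ} (hA : 1 ≤ A) (η : ℝ) (x₀ : ℂ) (R : ℝ) (F : ℂ → ℂ) (Z : ℂ) :
    0 ≤ bw A η x₀ R F Z :=
  mul_nonneg (mul_nonneg (om_mem _ _ _).1.le (schi_mem hA F Z).1.le) (stp_nonneg _)

/-- `collect`: for `Bulk Z Z'` and `scb F Z < 1`: `scb F Z ≤ C sc F Z'`, `schi A F Z' ≥ c`, `sS Z' ≥ 1 / 2`,
`stp (im Z / η) ≤ stp (im Z' / η)` -/
theorem small_le (h0 : 0 < κ) (h8 : κ < 8) {A : ℝ} (hA : 1 ≤ A) : ∃ C : ℝ, 0 < C ∧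
    ∀ (F : ℂ → ℂ) (η : ℝ) (x₀ : ℂ) (R : ℝ), Univ F → 0 < η →
    ∫⁻ Z in {Z : ℂ | η < Z.im}, {Z | scb F Z < 1}.indicator (fun Z =>
      ENNReal.ofReal (bw A η x₀ R F Z * scb F Z ^ 2 / ‖Z‖ ^ 4)) Z
      ≤ ENNReal.ofReal C * R2 κ A η x₀ R F := by
  obtain ⟨K, hK, h⟩ := DetD_pt κ hA
  refine ⟨160 * K, by positivity, fun F η x₀ R hF hη => ?_⟩
  obtain ⟨-, m2, m3, -⟩ := hF.measurable A
  have m4 : Measurable (bw A η x₀ R F) :=
    (((continuous_om x₀ R).measurable.comp hF.meas).mul m3).mul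
      (contDiff_stp.continuous.measurable.comp (measurable_im.div_const η))
  have hk : Measurable ({Z | scb F Z < 1}.indicator fun Z =>
      ENNReal.ofReal (bw A η x₀ R F Z * scb F Z ^ 2 / ‖Z‖ ^ 2)) :=
    ((m4.mul (m2.pow_const 2)).div (measurable_norm.pow_const 2)).ennreal_ofReal.indicator
      (measurableSet_lt m2 measurable_const)
  have hm : MeasurableSet {Z : ℂ | η < Z.im} := measurableSet_lt measurable_const measurable_im
  have hM : ∀ Z' : ℂ, η < Z'.im → 0 ≤ K * (bw A η x₀ R F Z' * sS Z' ^ aa κ * sc F Z' ^ 2) :=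
    fun Z' hZ' => mul_nonneg hK.le (mul_nonneg (mul_nonneg (DetD_bw hA _ _ _ _ _)
      (Real.rpow_nonneg (sS_mem (hη.trans hZ')).1.le _)) (sq_nonneg _))
  have hc := collect (b := fun Z' =>
    ENNReal.ofReal (K * (bw A η x₀ R F Z' * sS Z' ^ aa κ * sc F Z' ^ 2)) * 16) hk hη
    fun Z' hZ' => by
      have hs : MeasurableSet {Z : ℂ | η < Z.im ∧ Bulk Z Z'} :=
        hm.inter (measurable_prodMk_right (y := Z') measurableSet_bulk)
      refine le_trans ?_ (mul_le_mul_right (ann_vol Z') _)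
      rw [← lintegral_const_mul' _ _ ENNReal.ofReal_ne_top]
      refine (setLIntegral_mono' hs fun Z hZ => ?_).trans
        (lintegral_mono_set fun Z hZ => ⟨hη.trans hZ.1, hZ.2⟩)
      by_cases hb : scb F Z < 1
      · rw [indicator_of_mem (show Z ∈ {Z | scb F Z < 1} from hb),
          ← ENNReal.ofReal_mul (hM Z' hZ'), mul_one_div]
        exact ENNReal.ofReal_le_ofReal (div_le_div_of_nonneg_right
          (h F η x₀ R Z Z' hF hη (hη.trans hZ.1) hZ.2 hb) (sq_nonneg _))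
      · rw [indicator_of_notMem (show Z ∉ {Z | scb F Z < 1} from hb)]
        exact zero_le
  refine le_trans (le_of_eq (lintegral_congr fun Z => ?_)) (hc.trans (le_of_eq ?_))
  · by_cases hb : scb F Z < 1
    · rw [indicator_of_mem (show Z ∈ {Z | scb F Z < 1} from hb),
        indicator_of_mem (show Z ∈ {Z | scb F Z < 1} from hb),
        ← ENNReal.ofReal_mul (div_nonneg (mul_nonneg (DetD_bw hA _ _ _ _ _) (sq_nonneg _))
          (sq_nonneg _))]
      refine congrArg _ ?_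
      ring
    · rw [indicator_of_notMem (show Z ∉ {Z | scb F Z < 1} from hb),
        indicator_of_notMem (show Z ∉ {Z | scb F Z < 1} from hb), zero_mul]
  · unfold R2 LI
    rw [← lintegral_const_mul' _ _ ENNReal.ofReal_ne_top,
      ← lintegral_const_mul' _ _ (by norm_num : (10 : ℝ≥0∞) ≠ ∞)]
    refine setLIntegral_congr_fun hm fun Z hZ => ?_
    have hZ0 : Z.im ≠ 0 := (hη.trans hZ).ne'
    have e10 : (10 : ℝ≥0∞) = ENNReal.ofReal 10 := by simp
    have e16 : (16 : ℝ≥0∞) = ENNReal.ofReal 16 := by simp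
    simp only []
    rw [e10, e16, ← ENNReal.ofReal_mul (hM Z hZ),
      ← ENNReal.ofReal_mul (mul_nonneg (hM Z hZ) (by norm_num)),
      ← ENNReal.ofReal_mul (by norm_num), ← ENNReal.ofReal_mul (by positivity)]
    refine congrArg _ ?_
    unfold sc
    field_simp
    ring

end Vale.Agent.P164
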