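import Vale.Agent.P164.Det0
import Vale.Agent.P164.DetC
import Vale.Agent.P164.DetD

/-!
# P164 Det1

The costs of the weight `χ`. Write `c = sc F Z`, `b = scb F Z`, `S = sS Z`, `J = ‖F' Z‖ ^ 2 = c ^ 2 / Y ^ 2`.

`E1`: the second part of `sLam` is at most `c₂ / 8` if `256 c ^ 2 ≤ c₂ A ^ 2`, otherwise `c ≥ 1` (`A` large),
`χ ≤ A ^ 2 / c ^ 2 ≤ 4 A ^ 2 c ^ 2 / (1 + c ^ 2) ^ 2`. The first part is at most `c₂ / 8` if
`8 C b ≤ c₂ A`, otherwise `b ≥ 1` and `big_le` applies.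

`E2`: second part: `c ^ (-β) c ^ 2 = c ^ d ≤ A ^ 2 + c ^ 2` and `S ^ α ≤ S ^ a`. First part: if `b ≥ 1` use Young
`c ^ d S ^ α ≤ c ^ 2 + S ^ (2 α / β) ≤ c ^ 2 + S ^ 2` and `big_le`; if `b < 1` and `S b ≤ c` then
`c ^ (-β) S ^ α b ≤ S ^ (α - β) ≤ S ^ a`; if `b < 1` and `c < S b` then
`c ^ (-β) S ^ α b J ≤ b ^ 2 / ‖Z‖ ^ 2` and `small_le` applies.
-/

open MeasureTheory ProbabilityTheory Set Filter Topology Complex Function
open scoped NNReal ENNReal ComplexConjugate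

noncomputable section

namespace Vale.Agent.P164

variable {κ : ℝ}

theorem Det1_int {s : Set ℂ} (hs : MeasurableSet s) {f g h k : ℂ → ℝ≥0∞} (hg : Measurable g)
    (hh : Measurable h) {a b c : ℝ}
    (H : ∀ Z ∈ s, f Z ≤ ENNReal.ofReal a * g Z + ENNReal.ofReal b * h Z + ENNReal.ofReal c * k Z) :
    ∫⁻ Z in s, f Z ≤ ENNReal.ofReal a * (∫⁻ Z in s, g Z) + ENNReal.ofReal b * (∫⁻ Z in s, h Z)
      + ENNReal.ofReal c * ∫⁻ Z in s, k Z := by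
  refine (setLIntegral_mono' hs H).trans (le_of_eq ?_)
  have m : Measurable fun Z => ENNReal.ofReal a * g Z + ENNReal.ofReal b * h Z :=
    (hg.const_mul _).add (hh.const_mul _)
  rw [lintegral_add_left m, lintegral_add_left (hg.const_mul _),
    lintegral_const_mul' _ _ ENNReal.ofReal_ne_top, lintegral_const_mul' _ _ ENNReal.ofReal_ne_top,
    lintegral_const_mul' _ _ ENNReal.ofReal_ne_top]

theorem Det1_ofReal {x a b c g h k : ℝ} (ha : 0 ≤ a) (hb : 0 ≤ b) (hc : 0 ≤ c)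
    (H : x ≤ a * g + b * h + c * k) : ENNReal.ofReal x ≤ ENNReal.ofReal a * ENNReal.ofReal g
      + ENNReal.ofReal b * ENNReal.ofReal h + ENNReal.ofReal c * ENNReal.ofReal k := by
  rw [← ENNReal.ofReal_mul ha, ← ENNReal.ofReal_mul hb, ← ENNReal.ofReal_mul hc]
  refine (ENNReal.ofReal_le_ofReal H).trans (ENNReal.ofReal_add_le.trans ?_)
  exact add_le_add ENNReal.ofReal_add_le le_rfl

theorem Det1_ind (p : ℂ → Prop) (f : ℂ → ℝ) (Z : ℂ) [Decidable (p Z)] :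
    {Z | p Z}.indicator (fun Z => ENNReal.ofReal (f Z)) Z
      = ENNReal.ofReal (if p Z then f Z else 0) := by
  by_cases h : p Z
  · rw [if_pos h, indicator_of_mem (show Z ∈ {Z | p Z} from h)]
  · rw [if_neg h, indicator_of_notMem (show Z ∉ {Z | p Z} from h), ENNReal.ofReal_zero]

theorem Det1_set (η : ℝ) : MeasurableSet {Z : ℂ | η < Z.im} :=
  (isOpen_lt continuous_const continuous_im).measurableSet

theorem Det1_mR2 {F : ℂ → ℂ} (hF : Univ F) (κ A η : ℝ) (x₀ : ℂ) (R : ℝ) : Measurable fun Z =>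
    ENNReal.ofReal (bw A η x₀ R F Z * sS Z ^ aa κ / ‖Z‖ ^ 2 * ‖deriv F Z‖ ^ 2) := by
  obtain ⟨-, -, m3, m4⟩ := hF.measurable A
  have m5 : Measurable fun Z => om x₀ R (F Z) := (continuous_om x₀ R).measurable.comp hF.meas
  have m6 : Measurable fun Z : ℂ => stp (Z.im / η) :=
    contDiff_stp.continuous.measurable.comp (measurable_im.div_const η)
  have m7 : Measurable (bw A η x₀ R F) := (m5.mul m3).mul m6
  exact (((m7.mul (m4.pow_const _)).div (measurable_norm.pow_const 2)).mul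
    ((measurable_deriv F).norm.pow_const 2)).ennreal_ofReal

theorem Det1_mRH {F : ℂ → ℂ} (hF : Univ F) (x₀ : ℂ) (R : ℝ) : Measurable fun Z =>
    ENNReal.ofReal (om x₀ R (F Z) * (sc F Z ^ 2 / (1 + sc F Z ^ 2) ^ 2) * sS Z ^ 2 / ‖Z‖ ^ 2
      * ‖deriv F Z‖ ^ 2) := by
  obtain ⟨m1, -, -, m4⟩ := hF.measurable 1
  have m5 : Measurable fun Z => om x₀ R (F Z) := (continuous_om x₀ R).measurable.comp hF.meas
  exact ((((m5.mul ((m1.pow_const 2).div (((m1.pow_const 2).const_add 1).pow_const 2))).mul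
    (m4.pow_const 2)).div (measurable_norm.pow_const 2)).mul
    ((measurable_deriv F).norm.pow_const 2)).ennreal_ofReal

theorem Det1_mbig {F : ℂ → ℂ} (hF : Univ F) (A : ℝ) (x₀ : ℂ) (R : ℝ) : Measurable fun Z =>
    {Z | 1 ≤ scb F Z}.indicator (fun Z =>
      ENNReal.ofReal (om x₀ R (F Z) * schi A F Z * (‖deriv F Z‖ ^ 2 + 1 / ‖Z‖ ^ 2) / ‖Z‖ ^ 2)) Z := by
  obtain ⟨-, m2, m3, -⟩ := hF.measurable A
  have m5 : Measurable fun Z => om x₀ R (F Z) := (continuous_om x₀ R).measurable.comp hF.meas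
  exact (((m5.mul m3).mul (((measurable_deriv F).norm.pow_const 2).add
    ((measurable_norm.pow_const 2).const_div 1))).div
    (measurable_norm.pow_const 2)).ennreal_ofReal.indicator (measurableSet_le measurable_const m2)

theorem Det1_chi {A : ℝ} (hA : 1 ≤ A) (F : ℂ → ℂ) (Z : ℂ) (hc : 1 ≤ sc F Z ^ 2) :
    schi A F Z ≤ 4 * A ^ 2 * (sc F Z ^ 2 / (1 + sc F Z ^ 2) ^ 2) := by
  unfold schi
  generalize sc F Z ^ 2 = x at *
  have hq : 0 ≤ ‖F Z - F (I * ‖Z‖)‖ ^ 2 := by positivity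
  generalize ‖F Z - F (I * ‖Z‖)‖ ^ 2 = q at *
  have hA2 : 0 < A ^ 2 := by positivity
  generalize A ^ 2 = a at *
  have h0 : 0 ≤ a / (a + q + x) := by positivity
  have h1 : a / (a + q + x) ≤ 1 := by
    rw [div_le_one (by positivity)]
    linarith
  have h2 : a / (a + q + x) ≤ a / x := div_le_div_of_nonneg_left hA2.le (by positivity) (by linarith)
  have h3 : 1 / x ≤ 4 * (x / (1 + x) ^ 2) := by
    rw [← mul_div_assoc, div_le_div_iff₀ (by positivity) (by positivity)]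
    nlinarith
  calc (a / (a + q + x)) ^ 4 ≤ a / (a + q + x) := pow_le_of_le_one h0 h1 (by norm_num)
    _ ≤ a * (1 / x) := by rw [mul_one_div]; exact h2
    _ ≤ a * (4 * (x / (1 + x) ^ 2)) := mul_le_mul_of_nonneg_left h3 hA2.le
    _ = 4 * a * (x / (1 + x) ^ 2) := by ring

theorem Det1_e1 {C c₂ A χ t S c b : ℝ} (hC : 0 < C) (hc : 0 < c₂) (hA : 1 ≤ A)
    (hA1 : 8 * C ≤ c₂ * A) (hA2 : 256 ≤ c₂ * A) (hχ : 0 ≤ χ) (ht0 : 0 ≤ t) (ht1 : t ≤ 1)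
    (hS : S ^ 2 ≤ 1) (hχ2 : 1 ≤ c ^ 2 → χ ≤ 4 * A ^ 2 * (c ^ 2 / (1 + c ^ 2) ^ 2)) :
    χ * t * (C * min 1 (b / A) + 32 * S ^ 2 * c ^ 2 / (A ^ 2 + c ^ 2)) ≤ c₂ / 4 * (χ * t)
      + 128 * A ^ 2 * (c ^ 2 / (1 + c ^ 2) ^ 2 * S ^ 2) + C * if 1 ≤ b then χ else 0 := by
  have hA0 : 0 < A := by linarith
  have hw : 0 ≤ χ * t := mul_nonneg hχ ht0
  have hw1 : χ * t ≤ χ := mul_le_of_le_one_right hχ ht1
  have hi : 0 ≤ if 1 ≤ b then χ else 0 := by split_ifs <;> linarith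
  have k1 : χ * t * (C * min 1 (b / A)) ≤ c₂ / 8 * (χ * t) + C * if 1 ≤ b then χ else 0 := by
    by_cases h : 8 * C * b ≤ c₂ * A
    · have h1 : C * min 1 (b / A) ≤ c₂ / 8 := by
        refine (mul_le_mul_of_nonneg_left (min_le_right _ _) hC.le).trans ?_
        rw [← mul_div_assoc, div_le_iff₀ hA0]
        linarith
      have := mul_le_mul_of_nonneg_left h1 hw
      have := mul_nonneg hC.le hi
      linarith
    · have hb : 1 ≤ b := by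
        by_contra hb
        have := mul_le_mul_of_nonneg_left (not_le.1 hb).le (by positivity : 0 ≤ 8 * C)
        exact h (by linarith)
      rw [if_pos hb]
      have h1 : C * min 1 (b / A) ≤ C := mul_le_of_le_one_right hC.le (min_le_left _ _)
      have h2 := mul_le_mul_of_nonneg_left h1 hw
      have h3 := mul_le_mul_of_nonneg_right hw1 hC.le
      have h4 : 0 ≤ c₂ / 8 * (χ * t) := by positivity
      linarith
  have k2 : χ * t * (32 * S ^ 2 * c ^ 2 / (A ^ 2 + c ^ 2)) ≤ c₂ / 8 * (χ * t)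
      + 128 * A ^ 2 * (c ^ 2 / (1 + c ^ 2) ^ 2 * S ^ 2) := by
    by_cases h : 256 * c ^ 2 ≤ c₂ * A ^ 2
    · have h1 : 32 * S ^ 2 * c ^ 2 / (A ^ 2 + c ^ 2) ≤ c₂ / 8 := by
        rw [div_le_iff₀ (by positivity)]
        have h2 := mul_le_of_le_one_left (sq_nonneg c) hS
        have h3 : 0 ≤ c₂ * c ^ 2 := by positivity
        linarith
      have := mul_le_mul_of_nonneg_left h1 hw
      have : 0 ≤ 128 * A ^ 2 * (c ^ 2 / (1 + c ^ 2) ^ 2 * S ^ 2) := by positivity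
      linarith
    · have h1 : c₂ * A ≤ c₂ * A ^ 2 := mul_le_mul_of_nonneg_left (by nlinarith) hc.le
      have h2 := hw1.trans (hχ2 (by linarith [not_le.1 h]))
      have h3 : 32 * S ^ 2 * c ^ 2 / (A ^ 2 + c ^ 2) ≤ 32 * S ^ 2 := by
        rw [div_le_iff₀ (by positivity)]
        have : 0 ≤ S ^ 2 * A ^ 2 := by positivity
        linarith
      have h4 := mul_le_mul h2 h3 (by positivity) (by positivity)
      have h5 : 0 ≤ c₂ / 8 * (χ * t) := by positivity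
      linarith
  linarith [mul_add (χ * t) (C * min 1 (b / A)) (32 * S ^ 2 * c ^ 2 / (A ^ 2 + c ^ 2))]

/-- `c ^ (-β) c ^ 2 ≤ y ^ (2 - β)` for `c ≤ y` -/
theorem Det1_pow {β c y : ℝ} (hβ : β ≤ 2) (hc : 0 < c) (h : c ≤ y) :
    c ^ (-β) * c ^ 2 ≤ y ^ (2 - β) := by
  rw [← Real.rpow_two, ← Real.rpow_add hc, neg_add_eq_sub]
  exact Real.rpow_le_rpow hc.le h (by linarith)

theorem Det1_e2a {α β a A S c : ℝ} (hβ0 : 0 < β) (hβ1 : β < 1) (ha : a ≤ α) (hA : 1 ≤ A)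
    (hS0 : 0 < S) (hS1 : S ≤ 1) (hc : 0 < c) :
    c ^ (-β) * S ^ α * (32 * S ^ 2 * c ^ 2 / (A ^ 2 + c ^ 2)) ≤ 32 * S ^ a := by
  have h1 : c ^ (-β) * c ^ 2 ≤ A ^ 2 + c ^ 2 := by
    rcases le_total c 1 with h | h
    · have := Det1_pow (β := β) (by linarith) hc h
      rw [Real.one_rpow] at this
      nlinarith
    · have h2 : c ^ (-β) ≤ 1 := Real.rpow_le_one_of_one_le_of_nonpos h (by linarith)
      have := mul_le_of_le_one_left (sq_nonneg c) h2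
      nlinarith
  have h2 : S ^ α ≤ S ^ a := Real.rpow_le_rpow_of_exponent_ge hS0 hS1 ha
  have h3 : S ^ 2 ≤ 1 := pow_le_one₀ hS0.le hS1
  have h4 : c ^ (-β) * c ^ 2 / (A ^ 2 + c ^ 2) ≤ 1 := by rwa [div_le_one (by positivity)]
  calc c ^ (-β) * S ^ α * (32 * S ^ 2 * c ^ 2 / (A ^ 2 + c ^ 2))
      = 32 * S ^ α * (S ^ 2 * (c ^ (-β) * c ^ 2 / (A ^ 2 + c ^ 2))) := by ring
    _ ≤ 32 * S ^ a * (1 * 1) := by gcongr
    _ = 32 * S ^ a := by ring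

theorem Det1_e2b {α β S c : ℝ} (hβ0 : 0 < β) (hβ1 : β < 1) (hα : β ≤ α)
    (hS0 : 0 < S) (hS1 : S ≤ 1) (hc : 0 < c) : c ^ (-β) * S ^ α * c ^ 2 ≤ c ^ 2 + S ^ 2 := by
  rcases le_total S c with h | h
  · have h1 : c ^ (-β) ≤ S ^ (-β) := Real.rpow_le_rpow_of_nonpos hS0 h (by linarith)
    have h2 : S ^ (-β) * S ^ α ≤ 1 := by
      rw [← Real.rpow_add hS0]
      exact Real.rpow_le_one hS0.le hS1 (by linarith)
    have h3 : c ^ (-β) * S ^ α ≤ 1 :=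
      (mul_le_mul_of_nonneg_right h1 (Real.rpow_nonneg hS0.le _)).trans h2
    have := mul_le_of_le_one_left (sq_nonneg c) h3
    nlinarith
  · have h1 := Det1_pow (β := β) (by linarith) hc h
    have h2 : S ^ (2 - β) * S ^ α ≤ S ^ 2 := by
      rw [← Real.rpow_add hS0, ← Real.rpow_two]
      exact Real.rpow_le_rpow_of_exponent_ge hS0 hS1 (by linarith)
    have h3 := (mul_le_mul_of_nonneg_right h1 (Real.rpow_nonneg hS0.le α)).trans h2
    nlinarith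

theorem Det1_e2c {α β a S c b : ℝ} (hβ0 : 0 < β) (hβ1 : β < 1) (hα : β ≤ α) (ha : a ≤ α - β)
    (hS0 : 0 < S) (hS1 : S ≤ 1) (hc : 0 < c) (hb0 : 0 ≤ b) (hb1 : b < 1) :
    c ^ (-β) * S ^ α * b * c ^ 2 ≤ S ^ a * c ^ 2 + S ^ 2 * b ^ 2 := by
  have hSa : 0 ≤ S ^ a := Real.rpow_nonneg hS0.le _
  rcases hb0.eq_or_lt with rfl | hb
  · have : 0 ≤ S ^ a * c ^ 2 := by positivity
    simpa using this
  rcases le_total (S * b) c with h | h
  · have h1 : c ^ (-β) ≤ S ^ (-β) * b ^ (-β) := by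
      rw [← Real.mul_rpow hS0.le hb0]
      exact Real.rpow_le_rpow_of_nonpos (by positivity) h (by linarith)
    have h2 : S ^ (-β) * S ^ α ≤ S ^ a := by
      rw [← Real.rpow_add hS0]
      exact Real.rpow_le_rpow_of_exponent_ge hS0 hS1 (by linarith)
    have h3 : b ^ (-β) * b ≤ 1 := by
      rw [← Real.rpow_add_one hb.ne']
      exact Real.rpow_le_one hb0 hb1.le (by linarith)
    have h4 : c ^ (-β) * S ^ α * b ≤ S ^ a :=
      calc c ^ (-β) * S ^ α * b ≤ S ^ (-β) * b ^ (-β) * S ^ α * b := by gcongr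
        _ = S ^ (-β) * S ^ α * (b ^ (-β) * b) := by ring
        _ ≤ S ^ a * 1 := by gcongr
        _ = S ^ a := mul_one _
    have := mul_le_mul_of_nonneg_right h4 (sq_nonneg c)
    have : 0 ≤ S ^ 2 * b ^ 2 := by positivity
    linarith
  · have h1 := Det1_pow (β := β) (by linarith) hc h
    rw [Real.mul_rpow hS0.le hb0] at h1
    have h2 : S ^ (2 - β) * S ^ α ≤ S ^ 2 := by
      rw [← Real.rpow_add hS0, ← Real.rpow_two]
      exact Real.rpow_le_rpow_of_exponent_ge hS0 hS1 (by linarith)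
    have h3 : b ^ (2 - β) * b ≤ b ^ 2 := by
      rw [← Real.rpow_add_one hb.ne', ← Real.rpow_two]
      exact Real.rpow_le_rpow_of_exponent_ge hb hb1.le (by linarith)
    have h4 : c ^ (-β) * S ^ α * b * c ^ 2 ≤ S ^ 2 * b ^ 2 :=
      calc c ^ (-β) * S ^ α * b * c ^ 2 = c ^ (-β) * c ^ 2 * (S ^ α * b) := by ring
        _ ≤ S ^ (2 - β) * b ^ (2 - β) * (S ^ α * b) := by gcongr
        _ = S ^ (2 - β) * S ^ α * (b ^ (2 - β) * b) := by ring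
        _ ≤ S ^ 2 * b ^ 2 := by gcongr
    have : 0 ≤ S ^ a * c ^ 2 := by positivity
    linarith

theorem Det1_e2 {α β a C A S c b s : ℝ} (hβ0 : 0 < β) (hβ1 : β < 1) (hα : β ≤ α) (ha : a ≤ α - β)
    (hC : 0 < C) (hA : 1 ≤ A) (hS0 : 0 < S) (hS1 : S ≤ 1) (hc : 0 < c) (hb0 : 0 ≤ b)
    (hs0 : 0 ≤ s) (hs1 : s ≤ 1) :
    s * (c ^ (-β) * S ^ α) * (C * min 1 (b / A) + 32 * S ^ 2 * c ^ 2 / (A ^ 2 + c ^ 2)) * c ^ 2
      ≤ (32 + C) * (s * S ^ a * c ^ 2) + C * (if 1 ≤ b then c ^ 2 + S ^ 2 else 0)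
        + C * if b < 1 then s * (S ^ 2 * b ^ 2) else 0 := by
  have k2 := Det1_e2a (a := a) (α := α) hβ0 hβ1 (by linarith) hA hS0 hS1 hc
  have k3 := mul_le_mul_of_nonneg_left k2 (by positivity : 0 ≤ s * c ^ 2)
  have hw : 0 ≤ c ^ (-β) * S ^ α := by positivity
  have k1 : s * (c ^ (-β) * S ^ α) * min 1 (b / A) * c ^ 2 ≤ s * S ^ a * c ^ 2
      + (if 1 ≤ b then c ^ 2 + S ^ 2 else 0) + if b < 1 then s * (S ^ 2 * b ^ 2) else 0 := by
    by_cases hb : 1 ≤ b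
    · rw [if_pos hb, if_neg (not_lt.2 hb)]
      have h1 := Det1_e2b hβ0 hβ1 hα hS0 hS1 hc
      have h2 : s * (c ^ (-β) * S ^ α) * min 1 (b / A) * c ^ 2
          ≤ 1 * (c ^ (-β) * S ^ α) * 1 * c ^ 2 := by
        have : 0 ≤ min 1 (b / A) := le_min zero_le_one (by positivity)
        gcongr
        exact min_le_left _ _
      have h3 : 0 ≤ s * S ^ a * c ^ 2 := by positivity
      linarith
    · rw [if_neg hb, if_pos (not_le.1 hb)]
      have h1 := mul_le_mul_of_nonneg_left (Det1_e2c hβ0 hβ1 hα ha hS0 hS1 hc hb0 (not_le.1 hb)) hs0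
      have h2 : s * (c ^ (-β) * S ^ α) * min 1 (b / A) * c ^ 2
          ≤ s * (c ^ (-β) * S ^ α) * b * c ^ 2 := by
        gcongr
        exact (min_le_right _ _).trans (div_le_self hb0 hA)
      linarith
  have k4 := mul_le_mul_of_nonneg_left k1 hC.le
  linarith

theorem E1 (h0 : 0 < κ) (h8 : κ < 8) {C c₂ : ℝ} (hC : 0 < C) (hc : 0 < c₂) : ∃ A C' : ℝ, 1 ≤ A ∧
    0 < C' ∧ ∀ (F : ℂ → ℂ) (η : ℝ) (x₀ : ℂ) (R : ℝ), Univ F → 0 < η →
    L2 κ C A η x₀ R F ≤ ENNReal.ofReal (c₂ / 4) * R2 κ A η x₀ R F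
      + ENNReal.ofReal C' * RH η x₀ R F := by
  obtain ⟨A, hA, hA1, hA2⟩ : ∃ A : ℝ, 1 ≤ A ∧ 8 * C ≤ c₂ * A ∧ 256 ≤ c₂ * A := by
    have h1 : 0 ≤ (8 * C + 256) / c₂ := by positivity
    have h2 : c₂ * (1 + (8 * C + 256) / c₂) = c₂ + (8 * C + 256) := by field_simp
    exact ⟨1 + (8 * C + 256) / c₂, by linarith, by linarith, by linarith⟩
  obtain ⟨Cb, hCb, hbig⟩ := big_le hA
  refine ⟨A, 128 * A ^ 2 + C * Cb, hA, by positivity, fun F η x₀ R hF hη => ?_⟩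
  have key : L2 κ C A η x₀ R F ≤ ENNReal.ofReal (c₂ / 4) * R2 κ A η x₀ R F
      + ENNReal.ofReal (128 * A ^ 2) * RH η x₀ R F + ENNReal.ofReal C *
        ∫⁻ Z in {Z : ℂ | η < Z.im}, {Z | 1 ≤ scb F Z}.indicator (fun Z => ENNReal.ofReal
          (om x₀ R (F Z) * schi A F Z * (‖deriv F Z‖ ^ 2 + 1 / ‖Z‖ ^ 2) / ‖Z‖ ^ 2)) Z := by
    refine Det1_int (Det1_set η) (Det1_mR2 hF κ A η x₀ R) (Det1_mRH hF x₀ R) fun Z hZ => ?_
    have hY : 0 < Z.im := hη.trans hZ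
    rw [Det1_ind (fun Z => 1 ≤ scb F Z)]
    refine Det1_ofReal (by positivity) (by positivity) hC.le ?_
    obtain ⟨o0, -⟩ := om_mem x₀ R (F Z)
    obtain ⟨χ0, -⟩ := schi_mem hA F Z
    obtain ⟨S0, S1⟩ := sS_mem hY
    have t0 : 0 ≤ stp (Z.im / η) * sS Z ^ aa κ :=
      mul_nonneg (stp_nonneg _) (Real.rpow_nonneg S0.le _)
    have t1 : stp (Z.im / η) * sS Z ^ aa κ ≤ 1 :=
      mul_le_one₀ (stp_le_one _) (Real.rpow_nonneg S0.le _)
        (Real.rpow_le_one S0.le S1 (aa_pos h0 h8).le)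
    have h1 := Det1_e1 (b := scb F Z) hC hc hA hA1 hA2 χ0.le t0 t1 (pow_le_one₀ S0.le S1)
      (Det1_chi hA F Z)
    have hu : 0 ≤ om x₀ R (F Z) * ‖deriv F Z‖ ^ 2 / ‖Z‖ ^ 2 := by positivity
    have h2 := mul_le_mul_of_nonneg_left h1 hu
    have h3 : om x₀ R (F Z) * ‖deriv F Z‖ ^ 2 / ‖Z‖ ^ 2 * (if 1 ≤ scb F Z then schi A F Z else 0)
        ≤ if 1 ≤ scb F Z then
          om x₀ R (F Z) * schi A F Z * (‖deriv F Z‖ ^ 2 + 1 / ‖Z‖ ^ 2) / ‖Z‖ ^ 2 else 0 := by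
      split_ifs
      · have : 0 ≤ om x₀ R (F Z) * schi A F Z * (1 / ‖Z‖ ^ 2) / ‖Z‖ ^ 2 := by positivity
        calc _ = om x₀ R (F Z) * schi A F Z * ‖deriv F Z‖ ^ 2 / ‖Z‖ ^ 2 := by ring
          _ ≤ _ + om x₀ R (F Z) * schi A F Z * (1 / ‖Z‖ ^ 2) / ‖Z‖ ^ 2 := le_add_of_nonneg_right this
          _ = _ := by ring
      · rw [mul_zero]
    have h4 := mul_le_mul_of_nonneg_left h3 hC.le
    unfold bw sLam
    calc _ = om x₀ R (F Z) * ‖deriv F Z‖ ^ 2 / ‖Z‖ ^ 2 * (schi A F Z * (stp (Z.im / η) * sS Z ^ aa κ)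
          * (C * min 1 (scb F Z / A) + 32 * sS Z ^ 2 * sc F Z ^ 2 / (A ^ 2 + sc F Z ^ 2))) := by ring
      _ ≤ _ := h2
      _ = c₂ / 4 * (om x₀ R (F Z) * schi A F Z * stp (Z.im / η) * sS Z ^ aa κ / ‖Z‖ ^ 2
            * ‖deriv F Z‖ ^ 2) + 128 * A ^ 2 * (om x₀ R (F Z) * (sc F Z ^ 2 / (1 + sc F Z ^ 2) ^ 2)
            * sS Z ^ 2 / ‖Z‖ ^ 2 * ‖deriv F Z‖ ^ 2) + C * (om x₀ R (F Z) * ‖deriv F Z‖ ^ 2 / ‖Z‖ ^ 2
            * (if 1 ≤ scb F Z then schi A F Z else 0)) := by ring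
      _ ≤ _ := add_le_add le_rfl h4
  refine key.trans ?_
  rw [add_assoc, ENNReal.ofReal_add (by positivity) (by positivity), add_mul,
    ENNReal.ofReal_mul hC.le, mul_assoc]
  gcongr
  exact hbig F η x₀ R hF hη

theorem E2 (h0 : 0 < κ) (h8 : κ < 8) {C A : ℝ} (hC : 0 < C) (hA : 1 ≤ A) : ∃ C' : ℝ, 0 < C' ∧
    ∀ (F : ℂ → ℂ) (η : ℝ) (x₀ : ℂ) (R : ℝ), Univ F → 0 < η →
    L1 κ C A η x₀ R F ≤ ENNReal.ofReal C' * (R2 κ A η x₀ R F + RH η x₀ R F) := by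
  obtain ⟨Cb, hCb, hbig⟩ := big_le hA
  obtain ⟨Cs, hCs, hsm⟩ := small_le h0 h8 hA
  refine ⟨32 + C + C * Cb + C * Cs, by positivity, fun F η x₀ R hF hη => ?_⟩
  have key : L1 κ C A η x₀ R F ≤ ENNReal.ofReal (32 + C) * R2 κ A η x₀ R F
      + ENNReal.ofReal C *
        (∫⁻ Z in {Z : ℂ | η < Z.im}, {Z | 1 ≤ scb F Z}.indicator (fun Z => ENNReal.ofReal
          (om x₀ R (F Z) * schi A F Z * (‖deriv F Z‖ ^ 2 + 1 / ‖Z‖ ^ 2) / ‖Z‖ ^ 2)) Z)
      + ENNReal.ofReal C * ∫⁻ Z in {Z : ℂ | η < Z.im}, {Z | scb F Z < 1}.indicator (fun Z =>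
        ENNReal.ofReal (bw A η x₀ R F Z * scb F Z ^ 2 / ‖Z‖ ^ 4)) Z := by
    refine Det1_int (Det1_set η) (Det1_mR2 hF κ A η x₀ R) (Det1_mbig hF A x₀ R) fun Z hZ => ?_
    have hY : 0 < Z.im := hη.trans hZ
    rw [Det1_ind (fun Z => 1 ≤ scb F Z), Det1_ind (fun Z => scb F Z < 1)]
    refine Det1_ofReal (by positivity) hC.le hC.le ?_
    obtain ⟨o0, -⟩ := om_mem x₀ R (F Z)
    obtain ⟨χ0, -⟩ := schi_mem hA F Z
    obtain ⟨S0, S1⟩ := sS_mem hY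
    have hρ : 0 < ‖Z‖ := hY.trans_le ((le_abs_self _).trans (abs_im_le_norm Z))
    have hb0 : 0 ≤ scb F Z := mul_nonneg (norm_nonneg _) (norm_nonneg _)
    have h1 := Det1_e2 (be_pos h8) (be_lt_one h0) (be_lt_al h0 h8).le (aa_le κ).1 hC hA S0 S1
      (hF.sc_pos hY) hb0 (stp_nonneg (Z.im / η)) (stp_le_one _)
    have hu : 0 ≤ om x₀ R (F Z) * schi A F Z / (‖Z‖ ^ 2 * Z.im ^ 2) := by positivity
    have h2 := mul_le_mul_of_nonneg_left h1 hu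
    have e1 : ‖deriv F Z‖ ^ 2 = sc F Z ^ 2 / Z.im ^ 2 := by
      unfold sc
      field_simp
    have e2 : sS Z ^ 2 = Z.im ^ 2 / ‖Z‖ ^ 2 := by
      unfold sS
      rw [div_pow]
    have e3 : (if 1 ≤ scb F Z then
        om x₀ R (F Z) * schi A F Z * (‖deriv F Z‖ ^ 2 + 1 / ‖Z‖ ^ 2) / ‖Z‖ ^ 2 else 0)
        = om x₀ R (F Z) * schi A F Z / (‖Z‖ ^ 2 * Z.im ^ 2)
          * if 1 ≤ scb F Z then sc F Z ^ 2 + sS Z ^ 2 else 0 := by
      split_ifs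
      · rw [e1, e2]
        field_simp
      · rw [mul_zero]
    have e4 : (if scb F Z < 1 then bw A η x₀ R F Z * scb F Z ^ 2 / ‖Z‖ ^ 4 else 0)
        = om x₀ R (F Z) * schi A F Z / (‖Z‖ ^ 2 * Z.im ^ 2)
          * if scb F Z < 1 then stp (Z.im / η) * (sS Z ^ 2 * scb F Z ^ 2) else 0 := by
      split_ifs
      · rw [e2]
        unfold bw
        field_simp
      · rw [mul_zero]
    rw [e3, e4, e1]
    unfold bw sLam
    calc _ = om x₀ R (F Z) * schi A F Z / (‖Z‖ ^ 2 * Z.im ^ 2) * (stp (Z.im / η)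
          * (sc F Z ^ (-be κ) * sS Z ^ al κ) * (C * min 1 (scb F Z / A)
          + 32 * sS Z ^ 2 * sc F Z ^ 2 / (A ^ 2 + sc F Z ^ 2)) * sc F Z ^ 2) := by ring
      _ ≤ _ := h2
      _ = _ := by ring
  refine key.trans ?_
  have k1 := hbig F η x₀ R hF hη
  have k2 := hsm F η x₀ R hF hη
  rw [ENNReal.ofReal_add (by positivity : 0 ≤ 32 + C + C * Cb) (by positivity),
    ENNReal.ofReal_add (by positivity : 0 ≤ 32 + C) (by positivity), add_mul, add_mul,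
    ENNReal.ofReal_mul hC.le, ENNReal.ofReal_mul hC.le, mul_assoc, mul_assoc]
  gcongr
  · exact le_self_add
  · exact k1.trans (mul_le_mul_right le_add_self _)
  · exact k2.trans (mul_le_mul_right le_self_add _)

end Vale.Agent.P164
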