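import Vale.Agent.P164.Det0

/-!
# P164 DetE

The martingale coefficients. `M2 ≤ C / r + r R2` for all `r > 0` (`far_le'` for `‖Z‖ ≥ r`).
For `M1` use Young: with `t = max 1 (r / ‖Z‖)`,
`c ^ d S ^ α = (t c ^ 2 S ^ a) ^ (d / 2) (t ^ (-d / β) S ^ e) ^ (β / 2) ≤ t c ^ 2 S ^ a + t ^ (-d / β) S ^ 2`
as `e = (α - a d / 2) 2 / β ≥ 2`, then `J = c ^ 2 / Y ^ 2`, `S ^ 2 / Y ^ 2 = 1 / ‖Z‖ ^ 2` and `polar_le`.
-/

open MeasureTheory ProbabilityTheory Set Filter Topology Complex Function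
open scoped NNReal ENNReal ComplexConjugate

noncomputable section

namespace Vale.Agent.P164

variable {κ : ℝ}

theorem DetE_geo {a θ : ℝ} (ha : 0 ≤ a) (h0 : 0 ≤ θ) (h1 : θ < 1) :
    ∑' n : ℕ, ENNReal.ofReal (a * θ ^ n) = ENNReal.ofReal (a * (1 - θ)⁻¹) := by
  rw [← ENNReal.ofReal_tsum_of_nonneg (fun n => by positivity)
    ((summable_geometric_of_lt_one h0 h1).mul_left a), tsum_mul_left, tsum_geometric_of_lt_one h0 h1]

theorem DetE_shell {f : ℂ → ℝ} {S : Set ℂ} (hS : MeasurableSet S) {ρ b : ℝ} (hρ : 0 ≤ ρ)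
    (hb : 0 ≤ b) (h : ∀ Z ∈ S, ‖Z‖ ≤ ρ ∧ f Z ≤ b) :
    ∫⁻ Z in S, ENNReal.ofReal (f Z) ≤ ENNReal.ofReal (b * (ρ ^ 2 * 4)) := by
  refine (setLIntegral_mono' hS fun Z hZ => ENNReal.ofReal_le_ofReal (h Z hZ).2).trans ?_
  rw [setLIntegral_const, ENNReal.ofReal_mul hb]
  refine mul_le_mul_right ?_ _
  refine (measure_mono (t := Metric.closedBall 0 ρ) fun Z hZ =>
    mem_closedBall_zero_iff.2 (h Z hZ).1).trans ?_
  rw [Complex.volume_closedBall, ENNReal.ofReal_mul (sq_nonneg ρ), ENNReal.ofReal_pow hρ]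
  refine mul_le_mul_right ?_ _
  rw [← ENNReal.ofReal_coe_nnreal]
  exact ENNReal.ofReal_le_ofReal Real.pi_le_four

theorem DetE_cover {r : ℝ} (hr : 0 < r) {Z : ℂ} (h : r ≤ ‖Z‖) :
    ∃ n : ℕ, 2 ^ n * r ≤ ‖Z‖ ∧ ‖Z‖ ≤ 2 * (2 ^ n * r) := by
  obtain ⟨n, h1, h2⟩ := exists_nat_pow_near ((one_le_div hr).2 h) (one_lt_two (α := ℝ))
  rw [le_div_iff₀ hr] at h1
  rw [div_lt_iff₀ hr, pow_succ] at h2
  exact ⟨n, h1, by linarith⟩

theorem DetE_meas (a b : ℝ) : MeasurableSet {Z : ℂ | a ≤ ‖Z‖ ∧ ‖Z‖ ≤ b} :=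
  (measurableSet_le measurable_const measurable_norm).inter
    (measurableSet_le measurable_norm measurable_const)

/-- `1 / ρ = 2 ∫ s in ρ..2ρ, 1 / s ^ 2`, `Bulk Z (I s)` iff `s / 2 ≤ ‖Z‖ ≤ s`, Tonelli, `schi_bulk`,
`Univ.lint_le`, `lint_kernel` -/
theorem far_le' {A : ℝ} (hA : 1 ≤ A) : ∃ C : ℝ, 0 < C ∧ ∀ (F : ℂ → ℂ) (r : ℝ), Univ F → 0 < r →
    ∫⁻ Z in {Z : ℂ | 0 < Z.im ∧ r ≤ ‖Z‖}, ENNReal.ofReal (schi A F Z * ‖deriv F Z‖ ^ 2 / ‖Z‖)
      ≤ ENNReal.ofReal (C / r) := by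
  obtain ⟨C1, hC1, h1⟩ := schi_bulk hA
  obtain ⟨C2, hC2, h2⟩ := lint_kernel
  refine ⟨C1 * C2 * 2, by positivity, fun F r hF hr => ?_⟩
  let S : ℕ → Set ℂ := fun n => HH ∩ {Z | 2 ^ n * r ≤ ‖Z‖ ∧ ‖Z‖ ≤ 2 * (2 ^ n * r)}
  have hS : ∀ n, MeasurableSet (S n) := fun n =>
    (measurableSet_lt measurable_const Complex.measurable_im).inter (DetE_meas _ _)
  have hc : {Z : ℂ | 0 < Z.im ∧ r ≤ ‖Z‖} ⊆ ⋃ n, S n := fun Z hZ => by
    obtain ⟨n, hn⟩ := DetE_cover hr hZ.2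
    exact mem_iUnion.2 ⟨n, hZ.1, hn⟩
  have hn : ∀ n, ∫⁻ Z in S n, ENNReal.ofReal (schi A F Z * ‖deriv F Z‖ ^ 2 / ‖Z‖) ≤
      ENNReal.ofReal (C1 * C2 / r * (1 / 2) ^ n) := by
    intro n
    have hρ : 0 < 2 ^ n * r := by positivity
    set p := F (I * ((2 * (2 ^ n * r) : ℝ) : ℂ)) with hp
    have h3 : ∀ Z ∈ S n, ENNReal.ofReal (schi A F Z * ‖deriv F Z‖ ^ 2 / ‖Z‖) ≤
        ENNReal.ofReal (C1 / (2 ^ n * r)) * (ENNReal.ofReal (1 / (1 + ‖F Z - p‖ ^ 2) ^ 2) *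
          ENNReal.ofReal (‖deriv F Z‖ ^ 2)) := by
      rintro Z ⟨hZ, a1, a2⟩
      have hB : Bulk Z (I * ((2 * (2 ^ n * r) : ℝ) : ℂ)) := by
        simp only [Bulk, I_mul_im, I_mul_re, ofReal_re, ofReal_im, neg_zero, abs_zero]
        exact ⟨a2, by linarith, norm_nonneg _⟩
      have h4 := h1 F Z _ hF hZ hB
      have h5 : 1 ≤ 1 + ‖F Z - p‖ ^ 2 := le_add_of_nonneg_right (sq_nonneg _)
      have h6 : schi A F Z ≤ C1 / (1 + ‖F Z - p‖ ^ 2) ^ 2 :=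
        h4.trans (div_le_div_of_nonneg_left hC1.le (by positivity)
          (pow_le_pow_right₀ h5 (by norm_num)))
      rw [← ENNReal.ofReal_mul (by positivity), ← ENNReal.ofReal_mul (by positivity)]
      refine ENNReal.ofReal_le_ofReal ?_
      calc schi A F Z * ‖deriv F Z‖ ^ 2 / ‖Z‖
          ≤ C1 / (1 + ‖F Z - p‖ ^ 2) ^ 2 * ‖deriv F Z‖ ^ 2 / (2 ^ n * r) := by gcongr
        _ = _ := by ring
    refine (setLIntegral_mono' (hS n) h3).trans ?_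
    rw [lintegral_const_mul' _ _ ENNReal.ofReal_ne_top]
    refine (mul_le_mul_right ((hF.lint_le (fun z => ENNReal.ofReal (1 / (1 + ‖z - p‖ ^ 2) ^ 2))
      (hS n) inter_subset_left).trans (h2 p)) _).trans (le_of_eq ?_)
    rw [← ENNReal.ofReal_mul (by positivity)]
    congr 1
    rw [one_div, inv_pow]
    field_simp
  refine (lintegral_mono_set hc).trans ((lintegral_iUnion_le _ _).trans
    ((ENNReal.tsum_le_tsum hn).trans (le_of_eq ?_)))
  rw [DetE_geo (by positivity) (by norm_num) (by norm_num)]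
  congr 1
  ring

/-- scale to `r = 1`; `integrableOn_ball_of_norm_le_rpow`-type facts or polar coordinates -/
theorem polar_le {q : ℝ} (hq : 1 < q) : ∃ C : ℝ, 0 < C ∧ ∀ r : ℝ, 0 < r →
    ∫⁻ Z : ℂ, ENNReal.ofReal (min 1 (‖Z‖ / r) ^ q / ‖Z‖ ^ 3) ≤ ENNReal.ofReal (C / r) := by
  set σ : ℝ := (1 / 2 : ℝ) ^ q with hσ
  have hσ0 : 0 < σ := by positivity
  have hσ1 : 2 * σ < 1 := by
    have := Real.rpow_lt_rpow_of_exponent_gt (x := 1 / 2) (by norm_num) (by norm_num) hq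
    rw [Real.rpow_one] at this
    linarith
  have hi : 0 < (1 - 2 * σ)⁻¹ := inv_pos.2 (by linarith)
  refine ⟨32 + 32 * (1 - 2 * σ)⁻¹, by positivity, fun r hr => ?_⟩
  let S : ℕ → Set ℂ := fun n => {Z | 2 ^ n * r ≤ ‖Z‖ ∧ ‖Z‖ ≤ 2 * (2 ^ n * r)}
  let T : ℕ → Set ℂ := fun n => {Z | (1 / 2) ^ n * r / 2 ≤ ‖Z‖ ∧ ‖Z‖ ≤ (1 / 2) ^ n * r}
  have hc : (univ : Set ℂ) ⊆ {0} ∪ ((⋃ n, S n) ∪ ⋃ n, T n) := fun Z _ => by
    by_cases h0 : Z = 0
    · exact Or.inl h0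
    rcases le_total r ‖Z‖ with h | h
    · exact Or.inr (Or.inl (mem_iUnion.2 (DetE_cover hr h)))
    · obtain ⟨n, h1, h2⟩ := exists_nat_pow_near_of_lt_one (div_pos (norm_pos_iff.2 h0) hr)
        ((div_le_one hr).2 h) (y := 1 / 2) (by norm_num) (by norm_num)
      rw [lt_div_iff₀ hr, pow_succ] at h1
      rw [div_le_iff₀ hr] at h2
      exact Or.inr (Or.inr (mem_iUnion.2 ⟨n, by linarith, h2⟩))
  have hm : ∀ Z : ℂ, 0 ≤ min 1 (‖Z‖ / r) := fun Z => le_min zero_le_one (by positivity)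
  have hS : ∀ n, ∫⁻ Z in S n, ENNReal.ofReal (min 1 (‖Z‖ / r) ^ q / ‖Z‖ ^ 3) ≤
      ENNReal.ofReal (16 / r * (1 / 2) ^ n) := by
    intro n
    have hρ : 0 < 2 ^ n * r := by positivity
    refine (DetE_shell (DetE_meas _ _) (ρ := 2 * (2 ^ n * r)) (b := 1 / (2 ^ n * r) ^ 3)
      (by positivity) (by positivity) fun Z hZ => ⟨hZ.2, ?_⟩).trans (le_of_eq ?_)
    · have h1 := Real.rpow_le_one (hm Z) (min_le_left _ _) (by linarith : 0 ≤ q)
      have h2 := hZ.1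
      gcongr
    · congr 1
      rw [one_div (2 : ℝ), inv_pow]
      field_simp
      ring
  have hT : ∀ n, ∫⁻ Z in T n, ENNReal.ofReal (min 1 (‖Z‖ / r) ^ q / ‖Z‖ ^ 3) ≤
      ENNReal.ofReal (32 / r * (2 * σ) ^ n) := by
    intro n
    have hρ : 0 < (1 / 2) ^ n * r := by positivity
    refine (DetE_shell (DetE_meas _ _) (ρ := (1 / 2) ^ n * r)
      (b := σ ^ n / ((1 / 2) ^ n * r / 2) ^ 3)
      (by positivity) (by positivity) fun Z hZ => ⟨hZ.2, ?_⟩).trans (le_of_eq ?_)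
    · have h1 : min 1 (‖Z‖ / r) ^ q ≤ σ ^ n := by
        rw [hσ, ← Real.rpow_mul_natCast (by norm_num), mul_comm,
          Real.rpow_natCast_mul (by norm_num)]
        exact Real.rpow_le_rpow (hm Z) ((min_le_right _ _).trans ((div_le_iff₀ hr).2 hZ.2))
          (by linarith)
      have h2 := hZ.1
      gcongr
    · congr 1
      rw [one_div (2 : ℝ), inv_pow, mul_pow 2 σ]
      field_simp
      ring
  rw [← setLIntegral_univ]
  refine (lintegral_mono_set hc).trans ((lintegral_union_le _ _ _).trans ?_)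
  rw [setLIntegral_measure_zero _ _ (measure_singleton _), zero_add]
  refine (lintegral_union_le _ _ _).trans ((add_le_add
    ((lintegral_iUnion_le _ _).trans (ENNReal.tsum_le_tsum hS))
    ((lintegral_iUnion_le _ _).trans (ENNReal.tsum_le_tsum hT))).trans (le_of_eq ?_))
  rw [DetE_geo (by positivity) (by norm_num) (by norm_num),
    DetE_geo (by positivity) (by positivity) hσ1,
    ← ENNReal.ofReal_add (by positivity) (by positivity)]
  congr 1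
  ring

theorem sq_le_of {M R : ℝ≥0∞} {C : ℝ} (hC : 0 < C)
    (h : ∀ r : ℝ, 0 < r → M ≤ ENNReal.ofReal (C / r) + ENNReal.ofReal r * R) :
    M ^ 2 ≤ ENNReal.ofReal (4 * C) * R := by
  rcases eq_or_ne R ⊤ with rfl | hR
  · rw [ENNReal.mul_top (ENNReal.ofReal_pos.2 (by positivity)).ne']
    exact le_top
  lift R to ℝ≥0 using hR
  rcases eq_or_lt_of_le R.2 with h0 | h0
  · have h1 : R = 0 := NNReal.eq h0.symm
    subst h1
    have h2 : M ≤ 0 := ENNReal.le_of_forall_pos_le_add fun ε hε _ => by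
      have hε' : (0 : ℝ) < ε := hε
      have h3 := h (C / ε) (by positivity)
      rw [div_div_cancel₀ hC.ne', ENNReal.ofReal_coe_nnreal] at h3
      simpa using h3
    rw [le_zero_iff.1 h2]
    simp
  · have h0' : (0 : ℝ) < R := h0
    have ha := Real.sqrt_pos.2 hC
    have hb := Real.sqrt_pos.2 h0'
    have ea := Real.mul_self_sqrt hC.le
    have eb := Real.mul_self_sqrt h0'.le
    have h1 := h (√C / √R) (by positivity)
    have h2 : C / (√C / √R) + √C / √R * R = 2 * (√C * √R) := by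
      set a := √C
      set b := √(R : ℝ)
      rw [← ea, ← eb]
      field_simp
      ring
    rw [← ENNReal.ofReal_coe_nnreal] at h1 ⊢
    rw [← ENNReal.ofReal_mul (by positivity), ← ENNReal.ofReal_add (by positivity) (by positivity),
      h2] at h1
    refine (pow_le_pow_left₀ zero_le h1 2).trans (le_of_eq ?_)
    rw [← ENNReal.ofReal_pow (by positivity), ← ENNReal.ofReal_mul (by positivity)]
    congr 1
    rw [mul_pow, mul_pow, Real.sq_sqrt hC.le, Real.sq_sqrt h0'.le]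
    ring

end Vale.Agent.P164
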