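import Vale.Agent.P164.Det0
import Vale.Agent.P164.DetE

/-!
# P164 Det2

The martingale coefficients. `M2 ≤ C / r + r R2` for all `r > 0` (`far_le'` for `‖Z‖ ≥ r`).
For `M1` use Young: with `t = max 1 (r / ‖Z‖)`,
`c ^ d S ^ α = (t c ^ 2 S ^ a) ^ (d / 2) (t ^ (-d / β) S ^ e) ^ (β / 2) ≤ t c ^ 2 S ^ a + t ^ (-d / β) S ^ 2`
as `e = (α - a d / 2) 2 / β ≥ 2`, then `J = c ^ 2 / Y ^ 2`, `S ^ 2 / Y ^ 2 = 1 / ‖Z‖ ^ 2` and `polar_le`.
-/

open MeasureTheory ProbabilityTheory Set Filter Topology Complex Function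
open scoped NNReal ENNReal ComplexConjugate

noncomputable section

namespace Vale.Agent.P164

variable {κ : ℝ}

theorem Det2_split {F : ℂ → ℂ} {η r : ℝ} {k k' : ℂ → ℝ} {g : ℂ → ℝ≥0∞} (hg : Measurable g)
    (h : ∀ Z : ℂ, η < Z.im → ENNReal.ofReal (k Z * ‖deriv F Z‖ ^ 2) ≤
      g Z + ENNReal.ofReal r * ENNReal.ofReal (k' Z * ‖deriv F Z‖ ^ 2)) :
    LI F η k ≤ (∫⁻ Z, g Z) + ENNReal.ofReal r * LI F η k' := by
  refine (setLIntegral_mono' (measurableSet_lt measurable_const Complex.measurable_im) h).trans ?_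
  rw [lintegral_add_left hg, lintegral_const_mul' _ _ ENNReal.ofReal_ne_top]
  exact add_le_add (setLIntegral_le_lintegral _ _) le_rfl

theorem Det2_young {c S t a α β d : ℝ} (hc : 0 < c) (h0 : 0 < S) (h1 : S ≤ 1) (ht : 0 < t)
    (hβ : 0 < β) (hd : 0 < d) (hdb : d + β = 2) (ha0 : 0 ≤ a) (ha : a ≤ α - β) :
    c ^ (-β) * S ^ α * c ^ 2 ≤ t * (c ^ 2 * S ^ a) + t⁻¹ ^ (d / β) * S ^ 2 := by
  have p1 : 0 < t * (c ^ 2 * S ^ a) := by positivity
  have p2 : 0 < t⁻¹ ^ (d / β) * S ^ 2 := by positivity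
  have h2 := Real.geom_mean_le_arith_mean2_weighted (w₁ := d / 2) (w₂ := β / 2) (by positivity)
    (by positivity) p1.le p2.le (by linarith)
  have h3 : c ^ (-β) * S ^ α * c ^ 2 ≤
      (t * (c ^ 2 * S ^ a)) ^ (d / 2) * (t⁻¹ ^ (d / β) * S ^ 2) ^ (β / 2) := by
    rw [← Real.log_le_log_iff (by positivity) (by positivity),
      Real.log_mul (by positivity) (by positivity), Real.log_mul (by positivity) (by positivity),
      Real.log_mul (by positivity) (by positivity), Real.log_rpow p1, Real.log_rpow p2,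
      Real.log_mul (by positivity) (by positivity), Real.log_mul (by positivity) (by positivity),
      Real.log_mul (by positivity) (by positivity), Real.log_rpow hc, Real.log_rpow h0,
      Real.log_rpow h0, Real.log_rpow (inv_pos.2 ht), Real.log_inv, Real.log_pow, Real.log_pow]
    have e : β / 2 * (d / β * -Real.log t) = -(d / 2 * Real.log t) := by field_simp
    have h4 : 0 ≤ (α - β - a * d / 2) * -Real.log S :=
      mul_nonneg (by nlinarith) (neg_nonneg.2 (Real.log_nonpos h0.le h1))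
    have e2 : d * Real.log c + β * Real.log c = 2 * Real.log c := by rw [← add_mul, hdb]
    push_cast
    nlinarith
  nlinarith

theorem Det2_bw {A : ℝ} (hA : 1 ≤ A) (η : ℝ) (x₀ : ℂ) (R : ℝ) (F : ℂ → ℂ) (Z : ℂ) :
    0 ≤ bw A η x₀ R F Z ∧ bw A η x₀ R F Z ≤ schi A F Z := by
  obtain ⟨h1, h2⟩ := om_mem x₀ R (F Z)
  have h3 := (schi_mem hA F Z).1
  have h4 := stp_nonneg (Z.im / η)
  refine ⟨by unfold bw; positivity, ?_⟩
  exact (mul_le_of_le_one_right (by positivity) (stp_le_one _)).trans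
    (mul_le_of_le_one_left h3.le h2)

/-- the far part -/
def Det2_g (A r : ℝ) (F : ℂ → ℂ) : ℂ → ℝ≥0∞ :=
  {Z : ℂ | 0 < Z.im ∧ r ≤ ‖Z‖}.indicator fun Z =>
    ENNReal.ofReal (schi A F Z * ‖deriv F Z‖ ^ 2 / ‖Z‖)

theorem Det2_set (r : ℝ) : MeasurableSet {Z : ℂ | 0 < Z.im ∧ r ≤ ‖Z‖} :=
  (measurableSet_lt measurable_const Complex.measurable_im).inter
    (measurableSet_le measurable_const measurable_norm)

theorem Det2_meas {F : ℂ → ℂ} (hF : Univ F) (A r : ℝ) : Measurable (Det2_g A r F) := by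
  have h1 := (hF.measurable A).2.2.1
  have h2 := measurable_deriv F
  exact Measurable.indicator (by fun_prop) (Det2_set r)

theorem Det2_pt (h0 : 0 < κ) (h8 : κ < 8) {A η r R : ℝ} (hA : 1 ≤ A) (hr : 0 < r) (x₀ : ℂ)
    (F : ℂ → ℂ) {Z : ℂ} (hZ : 0 < Z.im) :
    ENNReal.ofReal (max 1 (r / ‖Z‖) * (bw A η x₀ R F Z * sS Z ^ aa κ / ‖Z‖ * ‖deriv F Z‖ ^ 2)) ≤
      Det2_g A r F Z + ENNReal.ofReal r *
        ENNReal.ofReal (bw A η x₀ R F Z * sS Z ^ aa κ / ‖Z‖ ^ 2 * ‖deriv F Z‖ ^ 2) := by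
  have hρ : 0 < ‖Z‖ := hZ.trans_le ((le_abs_self _).trans (Complex.abs_im_le_norm Z))
  obtain ⟨b0, b1⟩ := Det2_bw hA η x₀ R F Z
  obtain ⟨s0, s1⟩ := sS_mem hZ
  rcases le_total r ‖Z‖ with h | h
  · rw [max_eq_left ((div_le_one hρ).2 h), one_mul, Det2_g,
      indicator_of_mem (show Z ∈ {Z : ℂ | 0 < Z.im ∧ r ≤ ‖Z‖} from ⟨hZ, h⟩)]
    refine le_add_right (ENNReal.ofReal_le_ofReal ?_)
    have h2 : bw A η x₀ R F Z * sS Z ^ aa κ ≤ schi A F Z :=
      (mul_le_of_le_one_right b0 (Real.rpow_le_one s0.le s1 (aa_pos h0 h8).le)).trans b1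
    rw [div_mul_eq_mul_div]
    gcongr
  · rw [max_eq_right ((one_le_div hρ).2 h), ← ENNReal.ofReal_mul hr.le]
    refine le_add_left (le_of_eq (congrArg _ ?_))
    field_simp

theorem E3 (h0 : 0 < κ) (h8 : κ < 8) {A : ℝ} (hA : 1 ≤ A) : ∃ C' : ℝ, 0 < C' ∧
    ∀ (F : ℂ → ℂ) (η : ℝ) (x₀ : ℂ) (R : ℝ), Univ F → 0 < η →
    M2 κ A η x₀ R F ^ 2 ≤ ENNReal.ofReal C' * R2 κ A η x₀ R F := by
  obtain ⟨C, hC, h⟩ := far_le' hA
  refine ⟨4 * C, by positivity, fun F η x₀ R hF hη => sq_le_of hC fun r hr => ?_⟩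
  refine (Det2_split (Det2_meas hF A r) fun Z hZ => le_trans (ENNReal.ofReal_le_ofReal ?_)
    (Det2_pt (η := η) (R := R) h0 h8 hA hr x₀ F (hη.trans hZ))).trans (add_le_add ?_ le_rfl)
  · have b0 := (Det2_bw hA η x₀ R F Z).1
    have s0 := (sS_mem (hη.trans hZ)).1
    exact le_mul_of_one_le_left (by positivity) (le_max_left _ _)
  · rw [Det2_g, lintegral_indicator (Det2_set r)]
    exact h F r hF hr

theorem E4 (h0 : 0 < κ) (h8 : κ < 8) {A : ℝ} (hA : 1 ≤ A) : ∃ C' : ℝ, 0 < C' ∧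
    ∀ (F : ℂ → ℂ) (η : ℝ) (x₀ : ℂ) (R : ℝ), Univ F → 0 < η →
    M1 κ A η x₀ R F ^ 2 ≤ ENNReal.ofReal C' * R2 κ A η x₀ R F := by
  obtain ⟨C, hC, h⟩ := far_le' hA
  have hβ := be_pos h8
  have hdb := dd_add_be κ
  have hβ1 := be_lt_one h0
  obtain ⟨C2, hC2, h2⟩ := polar_le (q := dd κ / be κ) ((one_lt_div hβ).2 (by linarith))
  refine ⟨4 * (C + C2), by positivity,
    fun F η x₀ R hF hη => sq_le_of (add_pos hC hC2) fun r hr => ?_⟩
  refine (Det2_split (g := fun Z => Det2_g A r F Z +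
    ENNReal.ofReal (min 1 (‖Z‖ / r) ^ (dd κ / be κ) / ‖Z‖ ^ 3))
    ((Det2_meas hF A r).add (by fun_prop)) fun Z hZ => ?_).trans (add_le_add ?_ le_rfl)
  · have hY := hη.trans hZ
    have hρ : 0 < ‖Z‖ := hY.trans_le ((le_abs_self _).trans (Complex.abs_im_le_norm Z))
    obtain ⟨b0, b1⟩ := Det2_bw hA η x₀ R F Z
    have b2 := b1.trans (schi_mem hA F Z).2
    obtain ⟨s0, s1⟩ := sS_mem hY
    have hJ : 0 < ‖deriv F Z‖ := norm_pos_iff.2 (hF.ne Z hY)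
    have hc : 0 < sc F Z := mul_pos hY hJ
    have ht : 0 < max 1 (r / ‖Z‖) := lt_max_of_lt_left one_pos
    have hy := Det2_young hc s0 s1 ht hβ (by linarith) hdb (aa_pos h0 h8).le (aa_le κ).1
    have e : (max 1 (r / ‖Z‖))⁻¹ = min 1 (‖Z‖ / r) := by
      rcases le_total r ‖Z‖ with h3 | h3
      · rw [max_eq_left ((div_le_one hρ).2 h3), min_eq_left ((one_le_div hr).2 h3), inv_one]
      · rw [max_eq_right ((one_le_div hρ).2 h3), min_eq_right ((div_le_one hr).2 h3), inv_div]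
    rw [e] at hy
    have m0 : 0 ≤ min 1 (‖Z‖ / r) ^ (dd κ / be κ) := by positivity
    rw [add_right_comm]
    refine le_trans (ENNReal.ofReal_le_ofReal ?_) (ENNReal.ofReal_add_le.trans
      (add_le_add (Det2_pt (η := η) (R := R) h0 h8 hA hr x₀ F hY) le_rfl))
    have h3 := mul_le_mul_of_nonneg_left hy
      (show 0 ≤ bw A η x₀ R F Z / (‖Z‖ * Z.im ^ 2) by positivity)
    have h4 : bw A η x₀ R F Z * (min 1 (‖Z‖ / r) ^ (dd κ / be κ) / ‖Z‖ ^ 3) ≤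
        min 1 (‖Z‖ / r) ^ (dd κ / be κ) / ‖Z‖ ^ 3 := mul_le_of_le_one_left (by positivity) b2
    have e1 : sc F Z ^ 2 = Z.im ^ 2 * ‖deriv F Z‖ ^ 2 := mul_pow _ _ _
    have e2 : sS Z ^ 2 = Z.im ^ 2 / ‖Z‖ ^ 2 := div_pow _ _ _
    rw [e1, e2] at h3
    refine le_trans (le_of_eq ?_) (h3.trans (le_trans (le_of_eq ?_) (add_le_add le_rfl h4)))
    · field_simp
    · field_simp
  · rw [lintegral_add_left (Det2_meas hF A r), Det2_g, lintegral_indicator (Det2_set r), add_div,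
      ENNReal.ofReal_add (by positivity) (by positivity)]
    exact add_le_add (h F r hF hr) (h2 r hr)

end Vale.Agent.P164
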