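import Vale.Agent.P164.Det1
import Vale.Agent.P164.Det2

/-!
# P164 DriftA

The drift of the exponential of the total potential is nonpositive. `R2` and `RH` are finite
(integrands at most `om (F Z) J / η ^ 2`, `Univ.lint_le`, `lint_om`), hence so are `L1, L2, M1, M2`.
Choose `A` by `E1`, then `ε₂` small, `ε₁` small, `K` large. Transport the integrals with
`lintegral_alive` (`F = FF w t`, `F (ZZ) = z`): `∫ om D ≤ ε₁ L1 + ε₂ L2 - c₂ ε₂ R2 - 8 K RH` and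
`|∫ om M| ≤ C (ε₁ M1 + ε₂ M2)` (in real numbers).
-/

open MeasureTheory ProbabilityTheory Set Filter Topology Complex Function
open scoped NNReal ENNReal ComplexConjugate

noncomputable section

namespace Vale.Agent.P164

variable {κ : ℝ}

theorem DriftA_fin {η R : ℝ} {x₀ : ℂ} {F : ℂ → ℂ} (hη : 0 < η) (hR : 1 ≤ R) (hF : Univ F)
    {k : ℂ → ℝ} (hk : ∀ Z : ℂ, 0 < Z.im → k Z ≤ om x₀ R (F Z)) :
    LI F η (fun Z => k Z / ‖Z‖ ^ 2) ≠ ⊤ := by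
  obtain ⟨C, -, hC⟩ := lint_om
  have hS : MeasurableSet {Z : ℂ | η < Z.im} := measurableSet_lt measurable_const measurable_im
  have h1 := hF.lint_le (fun z => ENNReal.ofReal (om x₀ R z)) hS fun Z hZ => hη.trans hZ
  refine ne_top_of_le_ne_top (ENNReal.mul_ne_top (ENNReal.ofReal_ne_top (r := 1 / η ^ 2))
    ENNReal.ofReal_ne_top) (le_trans ?_ (mul_le_mul_right (h1.trans (hC x₀ R hR)) _))
  rw [← lintegral_const_mul' _ _ ENNReal.ofReal_ne_top]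
  refine setLIntegral_mono' hS fun Z hZ => ?_
  have h2 := (om_mem x₀ R (F Z)).1
  have h3 : η ≤ ‖Z‖ := (le_of_lt hZ).trans ((le_abs_self _).trans (abs_im_le_norm Z))
  rw [← ENNReal.ofReal_mul h2.le, ← ENNReal.ofReal_mul (by positivity), ← mul_assoc]
  refine ENNReal.ofReal_le_ofReal (mul_le_mul_of_nonneg_right ?_ (by positivity))
  rw [one_div_mul_eq_div]
  exact div_le_div₀ h2.le (hk Z (hη.trans hZ)) (by positivity) (by gcongr)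

theorem DriftA_sq {a b : ℝ≥0∞} {c : ℝ} (hc : 0 < c) (hb : b ≠ ⊤)
    (h : a ^ 2 ≤ ENNReal.ofReal c * b) : a ≠ ⊤ ∧ a.toReal ^ 2 ≤ c * b.toReal := by
  have h1 : ENNReal.ofReal c * b ≠ ⊤ := ENNReal.mul_ne_top ENNReal.ofReal_ne_top hb
  refine ⟨fun e => h1 (top_le_iff.1 (by simpa [e] using h)), ?_⟩
  have h2 := ENNReal.toReal_mono h1 h
  rwa [ENNReal.toReal_pow, ENNReal.toReal_mul, ENNReal.toReal_ofReal hc.le] at h2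

theorem R_ne_top (h0 : 0 < κ) (h8 : κ < 8) {A η R : ℝ} {x₀ : ℂ} {F : ℂ → ℂ} (hA : 1 ≤ A)
    (hη : 0 < η) (hR : 1 ≤ R) (hF : Univ F) : R2 κ A η x₀ R F ≠ ⊤ ∧ RH η x₀ R F ≠ ⊤ := by
  refine ⟨DriftA_fin (x₀ := x₀) hη hR hF fun Z hZ => ?_,
    DriftA_fin (x₀ := x₀) hη hR hF fun Z hZ => ?_⟩
  · have h1 := schi_mem hA F Z
    have h2 := sS_mem hZ
    rw [bw, mul_assoc, mul_assoc]
    exact mul_le_of_le_one_right (om_mem _ _ _).1.le (mul_le_one₀ h1.2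
      (mul_nonneg (stp_nonneg _) (Real.rpow_nonneg h2.1.le _))
      (mul_le_one₀ (stp_le_one _) (Real.rpow_nonneg h2.1.le _)
        (Real.rpow_le_one h2.1.le h2.2 (aa_pos h0 h8).le)))
  · have h2 := sS_mem hZ
    rw [mul_assoc]
    refine mul_le_of_le_one_right (om_mem _ _ _).1.le (mul_le_one₀ ?_ (sq_nonneg _)
      (pow_le_one₀ h2.1.le h2.2))
    rw [div_le_one (by positivity)]
    nlinarith [sq_nonneg (sc F Z), sq_nonneg (sc F Z ^ 2)]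

theorem params (h0 : 0 < κ) (h8 : κ < 8) {C c₂ : ℝ} (hC : 0 < C) (hc : 0 < c₂) :
    ∃ A ε₁ ε₂ K : ℝ, 1 ≤ A ∧ 0 < ε₁ ∧ 0 < ε₂ ∧ 0 < K ∧
    ∀ (F : ℂ → ℂ) (η : ℝ) (x₀ : ℂ) (R : ℝ), Univ F → 0 < η → 1 ≤ R →
    L1 κ C A η x₀ R F ≠ ⊤ ∧ L2 κ C A η x₀ R F ≠ ⊤ ∧ M1 κ A η x₀ R F ≠ ⊤ ∧ M2 κ A η x₀ R F ≠ ⊤ ∧
    ε₁ * (L1 κ C A η x₀ R F).toReal + ε₂ * (L2 κ C A η x₀ R F).toReal
      - c₂ * ε₂ * (R2 κ A η x₀ R F).toReal - 8 * K * (RH η x₀ R F).toReal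
      + κ / 2 * (C * (ε₁ * (M1 κ A η x₀ R F).toReal + ε₂ * (M2 κ A η x₀ R F).toReal)) ^ 2 ≤ 0 := by
  obtain ⟨A, C1, hA, c1, e1⟩ := E1 h0 h8 hC hc
  obtain ⟨C2, c2, e2⟩ := E2 h0 h8 hC hA
  obtain ⟨C3, c3, e3⟩ := E3 h0 h8 hA
  obtain ⟨C4, c4, e4⟩ := E4 h0 h8 hA
  obtain ⟨ε₂, p2, q2⟩ : ∃ ε₂ : ℝ, 0 < ε₂ ∧ κ * C ^ 2 * (C3 + C4) * ε₂ = c₂ / 4 :=
    ⟨c₂ / 4 / (κ * C ^ 2 * (C3 + C4)), by positivity, by field_simp⟩
  obtain ⟨ε₁, p1, q1, q1'⟩ : ∃ ε₁ : ℝ, 0 < ε₁ ∧ ε₁ ≤ ε₂ ∧ ε₁ * C2 ≤ ε₂ * c₂ / 4 :=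
    ⟨min ε₂ (ε₂ * c₂ / 4 / C2), by positivity, min_le_left _ _,
      (le_div_iff₀ c2).1 (min_le_right _ _)⟩
  refine ⟨A, ε₁, ε₂, ε₁ * C2 + ε₂ * C1, hA, p1, p2, by positivity, fun F η x₀ R hF hη hR => ?_⟩
  obtain ⟨f1, f2⟩ := R_ne_top (x₀ := x₀) h0 h8 hA hη hR hF
  obtain ⟨g2, m2⟩ := DriftA_sq c3 f1 (e3 F η x₀ R hF hη)
  obtain ⟨g1, m1⟩ := DriftA_sq c4 f1 (e4 F η x₀ R hF hη)
  have t1 := ENNReal.mul_ne_top (ENNReal.ofReal_ne_top (r := C2)) (ENNReal.add_ne_top.2 ⟨f1, f2⟩)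
  have t3 := ENNReal.mul_ne_top (ENNReal.ofReal_ne_top (r := c₂ / 4)) f1
  have t4 := ENNReal.mul_ne_top (ENNReal.ofReal_ne_top (r := C1)) f2
  have t2 := ENNReal.add_ne_top.2 ⟨t3, t4⟩
  have l1 := ENNReal.toReal_mono t1 (e2 F η x₀ R hF hη)
  have l2 := ENNReal.toReal_mono t2 (e1 F η x₀ R hF hη)
  rw [ENNReal.toReal_mul, ENNReal.toReal_add f1 f2, ENNReal.toReal_ofReal c2.le] at l1
  rw [ENNReal.toReal_add t3 t4, ENNReal.toReal_mul, ENNReal.toReal_mul,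
    ENNReal.toReal_ofReal c1.le, ENNReal.toReal_ofReal (by positivity)] at l2
  refine ⟨ne_top_of_le_ne_top t1 (e2 F η x₀ R hF hη), ne_top_of_le_ne_top t2 (e1 F η x₀ R hF hη),
    g1, g2, ?_⟩
  have hr := ENNReal.toReal_nonneg (a := R2 κ A η x₀ R F)
  have hh := ENNReal.toReal_nonneg (a := RH η x₀ R F)
  generalize (R2 κ A η x₀ R F).toReal = r at *
  generalize (RH η x₀ R F).toReal = h at *
  generalize (L1 κ C A η x₀ R F).toReal = a1 at *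
  generalize (L2 κ C A η x₀ R F).toReal = a2 at *
  generalize (M1 κ A η x₀ R F).toReal = b1 at *
  generalize (M2 κ A η x₀ R F).toReal = b2 at *
  have k1 : (ε₁ * b1) ^ 2 ≤ ε₂ ^ 2 * (C4 * r) := by
    rw [mul_pow]
    gcongr
  have k2 : (ε₂ * b2) ^ 2 ≤ ε₂ ^ 2 * (C3 * r) := by
    rw [mul_pow]
    gcongr
  have k3 : (ε₁ * b1 + ε₂ * b2) ^ 2 ≤ 2 * (ε₂ ^ 2 * ((C3 + C4) * r)) := by
    nlinarith [sq_nonneg (ε₁ * b1 - ε₂ * b2)]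
  have k4 : κ / 2 * (C * (ε₁ * b1 + ε₂ * b2)) ^ 2 ≤ c₂ / 4 * (ε₂ * r) := by
    rw [← q2, mul_pow]
    calc _ ≤ κ / 2 * (C ^ 2 * (2 * (ε₂ ^ 2 * ((C3 + C4) * r)))) := by gcongr
      _ = _ := by ring
  have k5 := mul_le_mul_of_nonneg_left l1 p1.le
  have k6 := mul_le_mul_of_nonneg_left l2 p2.le
  have k7 := mul_le_mul_of_nonneg_right q1' hr
  have k8 : 0 ≤ (ε₁ * C2 + ε₂ * C1) * h := by positivity
  have k9 : 0 ≤ c₂ * (ε₂ * r) := by positivity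
  nlinarith

end Vale.Agent.P164
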