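import Vale.Agent.P164.Det1
import Vale.Agent.P164.Det2
import Vale.Agent.P164.PathM
import Vale.Agent.P164.DriftA
import Vale.Agent.P164.Link

/-!
# P164 Drift

The drift of the exponential of the total potential is nonpositive. `R2` and `RH` are finite
(integrands at most `om (F Z) J / η ^ 2`, `Univ.lint_le`, `lint_om`), hence so are `L1, L2, M1, M2`.
Choose `A` by `E1`, then `ε₂` small, `ε₁` small, `K` large. Transport the integrals with
`lintegral_alive` (`F = FF w t`, `F (ZZ) = z`): `∫ om D ≤ ε₁ L1 + ε₂ L2 - c₂ ε₂ R2 - 8 K RH` and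
`|∫ om M| ≤ C (ε₁ M1 + ε₂ M2)` (in real numbers).
-/

open MeasureTheory ProbabilityTheory Set Filter Topology Complex Function
open scoped NNReal ENNReal ComplexConjugate

noncomputable section

namespace Vale.Agent.P164

variable {κ : ℝ}

theorem Drift_meas {η t : ℝ} {w : ℝ → ℝ} (hη : 0 < η) (hw : Continuous w) (ht : 0 ≤ t) :
    Measurable fun z => fl η w z t := by
  let w' : Path := ⟨fun s => w s, hw.comp NNReal.continuous_coe⟩
  have h1 : Continuous (pf w') := w'.2.comp continuous_real_toNNReal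
  have e : (fun z => fl η w z t) = fun z => fl η (pf w') z t := funext fun z =>
    fl_congr hη hw h1 (fun s hs => congrArg w (Real.coe_toNNReal s hs.1).symm) z ⟨ht, le_rfl⟩
  rw [e]
  exact measurable_fl measurable_const measurable_const measurable_id measurable_const

theorem Drift_set {η t : ℝ} {w : ℝ → ℝ} (hη : 0 < η) (hw : Continuous w) (ht : 0 ≤ t) :
    MeasurableSet {z : ℂ | η < (fl η w z t).im} :=
  measurableSet_lt measurable_const (measurable_im.comp (Drift_meas hη hw ht))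

theorem Drift_up (η : ℝ) : MeasurableSet {z : ℂ | η ≤ z.im} :=
  measurableSet_le measurable_const measurable_im

theorem Drift_bw {A η R : ℝ} {x₀ : ℂ} {F : ℂ → ℂ} (hA : 1 ≤ A) (hF : Univ F) :
    Measurable (bw A η x₀ R F) ∧ ∀ Z, 0 ≤ bw A η x₀ R F Z :=
  ⟨(((continuous_om x₀ R).measurable.comp hF.meas).mul (hF.measurable A).2.2.1).mul
    (contDiff_stp.continuous.measurable.comp (measurable_im.div_const η)), fun Z =>
    mul_nonneg (mul_nonneg (om_mem _ _ _).1.le (schi_mem hA F Z).1.le) (stp_nonneg _)⟩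

theorem Drift_lam {C A : ℝ} {F : ℂ → ℂ} (hC : 0 < C) (hA : 1 ≤ A) (hF : Univ F) :
    Measurable (sLam C A F) ∧ ∀ Z, 0 ≤ sLam C A F Z := by
  obtain ⟨h1, h2, -, h4⟩ := hF.measurable A
  refine ⟨?_, fun Z => ?_⟩
  · exact ((measurable_const.min (h2.div_const A)).const_mul C).add
      ((((h4.pow_const 2).const_mul 32).mul (h1.pow_const 2)).div ((h1.pow_const 2).const_add _))
  · have h5 : 0 ≤ scb F Z := mul_nonneg (norm_nonneg _) (norm_nonneg _)
    unfold sLam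
    positivity

/-- transport of a nonnegative function -/
theorem integral_alive {η t : ℝ} {w : ℝ → ℝ} (hη : 0 < η) (hw : Continuous w) (ht : 0 ≤ t)
    {k : ℂ → ℝ} (hk : Measurable k) (h0 : ∀ Z : ℂ, η < Z.im → 0 ≤ k Z) (hf : LI (FF w t) η k ≠ ⊤) :
    IntegrableOn (fun z => k (ZZ η w z t)) {z : ℂ | η ≤ z.im ∧ η < (fl η w z t).im} ∧
    ∫ z in {z : ℂ | η ≤ z.im ∧ η < (fl η w z t).im}, k (ZZ η w z t) = (LI (FF w t) η k).toReal := by
  have hS : MeasurableSet {z : ℂ | η ≤ z.im ∧ η < (fl η w z t).im} :=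
    (Drift_up η).inter (Drift_set hη hw ht)
  have hm : Measurable fun z => k (ZZ η w z t) := hk.comp ((Drift_meas hη hw ht).sub_const _)
  have hn : 0 ≤ᵐ[volume.restrict {z : ℂ | η ≤ z.im ∧ η < (fl η w z t).im}]
      fun z => k (ZZ η w z t) :=
    ae_restrict_of_forall_mem hS fun z hz => h0 _ (by rw [ZZ_im]; exact hz.2)
  have e : ∫⁻ z in {z : ℂ | η ≤ z.im ∧ η < (fl η w z t).im}, ENNReal.ofReal (k (ZZ η w z t)) =
      LI (FF w t) η k := by
    rw [lintegral_alive hη hw ht fun Z => ENNReal.ofReal (k Z), LI]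
    exact lintegral_congr fun Z => (ENNReal.ofReal_mul' (sq_nonneg _)).symm
  exact ⟨(lintegral_ofReal_ne_top_iff_integrable hm.aestronglyMeasurable hn).1 (e ▸ hf),
    by rw [integral_eq_lintegral_of_nonneg_ae hn hm.aestronglyMeasurable, e]⟩

theorem drift_le (h0 : 0 < κ) (h8 : κ < 8) {C c₂ : ℝ} (hC : 0 < C) (hc : 0 < c₂) :
    ∃ A ε₁ ε₂ K : ℝ, 1 ≤ A ∧ 0 < ε₁ ∧ 0 < ε₂ ∧ 0 < K ∧
    ∀ (η t R : ℝ) (x₀ : ℂ) (w : ℝ → ℝ) (D M : ℂ → ℝ), 0 < η → 0 ≤ t → 1 ≤ R → Continuous w →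
    IntegrableOn (fun z => om x₀ R z * D z) {z : ℂ | η ≤ z.im} →
    (∀ z : ℂ, η ≤ z.im → (η < (fl η w z t).im →
        D z ≤ sD κ C A ε₁ ε₂ K c₂ η (FF w t) (ZZ η w z t) ∧
        |M z| ≤ sM κ C A ε₁ ε₂ η (FF w t) (ZZ η w z t)) ∧
      ((fl η w z t).im ≤ η → D z ≤ 0 ∧ M z = 0)) →
    (∫ z in {z : ℂ | η ≤ z.im}, om x₀ R z * D z)
      + κ / 2 * (∫ z in {z : ℂ | η ≤ z.im}, om x₀ R z * M z) ^ 2 ≤ 0 := by
  obtain ⟨A, ε₁, ε₂, K, hA, h1, h2, hK, H⟩ := params h0 h8 hC hc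
  refine ⟨A, ε₁, ε₂, K, hA, h1, h2, hK, fun η t R x₀ w D M hη ht hR hw hD h => ?_⟩
  have hF := FF_univ hw ht
  obtain ⟨f1, f2, f3, f4, H⟩ := H _ η x₀ R hF hη hR
  obtain ⟨f5, f6⟩ := R_ne_top h0 h8 (x₀ := x₀) hA hη hR hF
  obtain ⟨mb, pb⟩ := Drift_bw (η := η) (R := R) (x₀ := x₀) hA hF
  obtain ⟨ml, pl⟩ := Drift_lam hC hA hF
  obtain ⟨mc, -, -, ms⟩ := hF.measurable A
  have ps : ∀ (Z : ℂ) (a : ℝ), η < Z.im → 0 ≤ sS Z ^ a := fun Z a hZ =>
    Real.rpow_nonneg (sS_mem (hη.trans hZ)).1.le a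
  have pc : ∀ (Z : ℂ), η < Z.im → 0 ≤ sc (FF w t) Z ^ (-be κ) * sS Z ^ al κ := fun Z hZ =>
    mul_nonneg (Real.rpow_nonneg (hF.sc_pos (hη.trans hZ)).le _) (ps Z _ hZ)
  have m1 := (mc.pow_const (-be κ)).mul (ms.pow_const (al κ))
  have m2 := ms.pow_const (aa κ)
  have m3 : Measurable fun Z : ℂ => ‖Z‖ ^ 2 := measurable_norm.pow_const 2
  obtain ⟨i1, e1⟩ := integral_alive hη hw ht (((mb.mul m1).mul ml).div m3)
    (fun Z hZ => div_nonneg (mul_nonneg (mul_nonneg (pb Z) (pc Z hZ)) (pl Z)) (sq_nonneg _)) f1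
  obtain ⟨i2, e2⟩ := integral_alive hη hw ht (((mb.mul m2).mul ml).div m3)
    (fun Z hZ => div_nonneg (mul_nonneg (mul_nonneg (pb Z) (ps Z _ hZ)) (pl Z)) (sq_nonneg _)) f2
  obtain ⟨i3, e3⟩ := integral_alive hη hw ht ((mb.mul m1).div measurable_norm)
    (fun Z hZ => div_nonneg (mul_nonneg (pb Z) (pc Z hZ)) (norm_nonneg _)) f3
  obtain ⟨i4, e4⟩ := integral_alive hη hw ht ((mb.mul m2).div measurable_norm)
    (fun Z hZ => div_nonneg (mul_nonneg (pb Z) (ps Z _ hZ)) (norm_nonneg _)) f4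
  obtain ⟨i5, e5⟩ := integral_alive hη hw ht ((mb.mul m2).div m3)
    (fun Z hZ => div_nonneg (mul_nonneg (pb Z) (ps Z _ hZ)) (sq_nonneg _)) f5
  obtain ⟨i6, e6⟩ := integral_alive hη hw ht
    (((((continuous_om x₀ R).measurable.comp hF.meas).mul ((mc.pow_const 2).div
      (((mc.pow_const 2).const_add 1).pow_const 2))).mul (ms.pow_const 2)).div m3)
    (fun Z _ => div_nonneg (mul_nonneg (mul_nonneg (om_mem _ _ _).1.le
      (div_nonneg (sq_nonneg _) (sq_nonneg _))) (sq_nonneg _)) (sq_nonneg _)) f6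
  have hV := Drift_set hη hw ht
  have hS : MeasurableSet {z : ℂ | η ≤ z.im ∧ η < (fl η w z t).im} := (Drift_up η).inter hV
  have hz : ∀ z ∈ {z : ℂ | η ≤ z.im ∧ η < (fl η w z t).im}, FF w t (ZZ η w z t) = z :=
    fun z hz => (FF_ZZ hη hw (hη.trans_le hz.1) ht hz.2.le).1
  have a1 : ∫ z in {z : ℂ | η ≤ z.im}, om x₀ R z * D z ≤
      ε₁ * (L1 κ C A η x₀ R (FF w t)).toReal + ε₂ * (L2 κ C A η x₀ R (FF w t)).toReal
      - c₂ * ε₂ * (R2 κ A η x₀ R (FF w t)).toReal - 8 * K * (RH η x₀ R (FF w t)).toReal := by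
    have j1 := (i1.const_mul ε₁).add (i2.const_mul ε₂)
    have j2 := j1.sub (i5.const_mul (c₂ * ε₂))
    have b1 := setIntegral_nonpos (μ := volume) (f := fun z => om x₀ R z * D z)
      ((Drift_up η).diff hV) fun z hz => mul_nonpos_of_nonneg_of_nonpos (om_mem _ _ _).1.le
        ((h z hz.1).2 (not_lt.1 hz.2)).1
    have b2 := setIntegral_mono_on (hD.mono_set fun z hz => hz.1)
      (j2.sub (i6.const_mul (8 * K))) hS fun z hz' => by
        refine (mul_le_mul_of_nonneg_left ((h z hz'.1).1 hz'.2).1 (om_mem _ _ _).1.le).trans_eq ?_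
        simp only [Pi.add_apply, Pi.sub_apply, Pi.mul_apply, Pi.div_apply, comp_apply, bw, sD,
          hz z hz']
        ring
    rw [integral_sub' j2 (i6.const_mul _), integral_sub' j1 (i5.const_mul _),
      integral_add' (i1.const_mul _) (i2.const_mul _), integral_const_mul, integral_const_mul,
      integral_const_mul, integral_const_mul, e1, e2, e5, e6] at b2
    rw [← integral_inter_add_diff hV hD]
    exact (add_le_of_nonpos_right b1).trans b2
  have a2 : |∫ z in {z : ℂ | η ≤ z.im}, om x₀ R z * M z| ≤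
      C * (ε₁ * (M1 κ A η x₀ R (FF w t)).toReal + ε₂ * (M2 κ A η x₀ R (FF w t)).toReal) := by
    have j1 := (i3.const_mul ε₁).add (i4.const_mul ε₂)
    have b1 := norm_integral_le_of_norm_le (f := fun z => om x₀ R z * M z) (j1.const_mul C)
      (ae_restrict_of_forall_mem hS fun z hz' => by
        rw [norm_mul, Real.norm_of_nonneg (om_mem _ _ _).1.le]
        refine (mul_le_mul_of_nonneg_left ((h z hz'.1).1 hz'.2).2 (om_mem _ _ _).1.le).trans_eq ?_
        simp only [Pi.add_apply, Pi.mul_apply, Pi.div_apply, bw, sM, hz z hz']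
        ring)
    rw [integral_const_mul, integral_add' (i3.const_mul _) (i4.const_mul _), integral_const_mul,
      integral_const_mul, e3, e4] at b1
    rw [setIntegral_eq_of_subset_of_forall_diff_eq_zero (Drift_up η)
      (s := {z : ℂ | η ≤ z.im ∧ η < (fl η w z t).im}) (fun z hz => hz.1) fun z hz => by
        rw [((h z hz.1).2 (not_lt.1 fun h3 => hz.2 ⟨hz.1, h3⟩)).2, mul_zero]]
    exact b1
  have a3 := pow_le_pow_left₀ (abs_nonneg _) a2 2
  rw [sq_abs] at a3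
  linarith [mul_le_mul_of_nonneg_left a3 (half_pos h0).le]

end Vale.Agent.P164
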