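import Vale.Agent.P164.Gz
import Vale.Agent.P164.Drift

/-!
# P164 Exp

The exponential moment. Let `ν` be the finite measure `om x₀ R · volume` on `{η ≤ im}`
(`withDensity`, `lint_om`), `G w t x = ∫ gz dν`. Choose the jets of `gz_jet` (put zero for `im z < η`),
`Jet.integral`, `Jet.exp`, `dynkin`; the drift is `exp G (G0 + κ / 2 (G2 + G1 ^ 2)) ≤ 0` by `drift_le`.
`Mart.os_le` between `τ` and `T`, `gz_ge`, `gz_le`.
-/

open MeasureTheory ProbabilityTheory Set Filter Topology Complex Function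
open scoped NNReal ENNReal ComplexConjugate

noncomputable section

namespace Vale.Agent.P164

/-- projection to the points of height at least `η` -/
def Exp_pr (η : ℝ) (z : ℂ) : ℂ := if η ≤ z.im then z else η * I

theorem Exp_pr_im (η : ℝ) (z : ℂ) : η ≤ (Exp_pr η z).im := by
  unfold Exp_pr
  split_ifs with h
  · exact h
  · simp

theorem Exp_pr_eq {η : ℝ} {z : ℂ} (h : η ≤ z.im) : Exp_pr η z = z := if_pos h

theorem Exp_measS (η : ℝ) : MeasurableSet {z : ℂ | η ≤ z.im} :=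
  measurableSet_le measurable_const Complex.measurable_im

theorem Exp_pr_meas (η : ℝ) : Measurable (Exp_pr η) :=
  Measurable.ite (Exp_measS η) measurable_id measurable_const

/-- the spatial measure -/
def Exp_nu (η : ℝ) (x₀ : ℂ) (R : ℝ) : Measure ℂ :=
  (volume.restrict {z : ℂ | η ≤ z.im}).withDensity fun z => ((om x₀ R z).toNNReal : ℝ≥0∞)

theorem Exp_om_meas (x₀ : ℂ) (R : ℝ) : Measurable fun z => (om x₀ R z).toNNReal :=
  (continuous_om x₀ R).measurable.real_toNNReal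

theorem Exp_nu_univ (η : ℝ) (x₀ : ℂ) (R : ℝ) :
    Exp_nu η x₀ R univ ≤ ∫⁻ z, ENNReal.ofReal (om x₀ R z) := by
  unfold Exp_nu
  rw [withDensity_apply _ MeasurableSet.univ, Measure.restrict_univ]
  exact setLIntegral_le_lintegral _ _

theorem Exp_int (η : ℝ) (x₀ : ℂ) (R : ℝ) (f : ℂ → ℝ) :
    ∫ z, f z ∂Exp_nu η x₀ R = ∫ z in {z : ℂ | η ≤ z.im}, om x₀ R z * f z := by
  unfold Exp_nu
  rw [integral_withDensity_eq_integral_smul (Exp_om_meas x₀ R)]
  refine integral_congr_ae (Eventually.of_forall fun z => ?_)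
  simp only [NNReal.smul_def, smul_eq_mul, Real.coe_toNNReal _ (om_mem x₀ R z).1.le]

theorem Exp_intg {η : ℝ} {x₀ : ℂ} {R : ℝ} {f : ℂ → ℝ} (h : Integrable f (Exp_nu η x₀ R)) :
    IntegrableOn (fun z => om x₀ R z * f z) {z : ℂ | η ≤ z.im} := by
  unfold Exp_nu at h
  rw [integrable_withDensity_iff_integrable_smul (Exp_om_meas x₀ R)] at h
  refine h.congr (Eventually.of_forall fun z => ?_)
  simp only [NNReal.smul_def, smul_eq_mul, Real.coe_toNNReal _ (om_mem x₀ R z).1.le]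

theorem Exp_bdd {ν : Measure ℂ} [IsFiniteMeasure ν] {f : ℂ → ℝ} (hf : Measurable f) {K : ℝ}
    (hK : ∀ z, |f z| ≤ K) : Integrable f ν :=
  Integrable.of_bound hf.aestronglyMeasurable K (Eventually.of_forall hK)

theorem Exp_mass {η R c : ℝ} {x₀ : ℂ} (hx : η + R ≤ x₀.im) (f : ℂ → ℝ) :
    ∫ z, c * (Metric.ball x₀ R).indicator f (Exp_pr η z) ∂Exp_nu η x₀ R
      = c * ∫ z in Metric.ball x₀ R, f z := by
  have hsub : Metric.ball x₀ R ⊆ {z : ℂ | η ≤ z.im} := by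
    intro z hz
    have h1 : ‖z - x₀‖ < R := by rwa [Metric.mem_ball, dist_eq_norm] at hz
    have h2 := Complex.abs_im_le_norm (z - x₀)
    rw [Complex.sub_im] at h2
    have h3 := neg_abs_le (z.im - x₀.im)
    show η ≤ z.im
    linarith
  rw [Exp_int]
  have e : ∫ z in {z : ℂ | η ≤ z.im}, om x₀ R z * (c * (Metric.ball x₀ R).indicator f (Exp_pr η z))
      = ∫ z in {z : ℂ | η ≤ z.im}, c * (Metric.ball x₀ R).indicator f z := by
    refine setIntegral_congr_fun (Exp_measS η) fun z hz => ?_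
    have hz' : η ≤ z.im := hz
    simp only [Exp_pr_eq hz']
    by_cases hb : z ∈ Metric.ball x₀ R
    · rw [om_ball hb, one_mul]
    · rw [indicator_of_notMem hb, mul_zero, mul_zero]
  rw [e, integral_const_mul, setIntegral_indicator Metric.isOpen_ball.measurableSet,
    inter_eq_self_of_subset_right hsub]

theorem Exp_hint {ν : Measure ℂ} [IsFiniteMeasure ν] {T K : ℝ} (hT : 0 < T)
    {g g0 g1 g2 : ℂ → ℝ → ℝ → ℝ} (hj : ∀ z, Jet T (g z) (g0 z) (g1 z) (g2 z))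
    (hb : ∀ z, JBd T K (g z) (g0 z) (g1 z) (g2 z))
    (hm : ∀ t ∈ Icc 0 T, ∀ x, Measurable fun z => g z t x) {t : ℝ} (ht : t ∈ Icc 0 T) (x : ℝ) :
    Integrable (fun z => g z t x) ν ∧ Integrable (fun z => g0 z t x) ν ∧
      Integrable (fun z => g2 z t x) ν := by
  obtain ⟨m, m0, -, m2⟩ := Jet.measurable hT hj hm ht (x := fun _ => x) measurable_const
  exact ⟨Exp_bdd m fun z => (hb z t ht x).1, Exp_bdd m0 fun z => (hb z t ht x).2.1,
    Exp_bdd m2 fun z => (hb z t ht x).2.2.2⟩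

/-- the abstract supermartingale inequality -/
theorem Exp_core {κ T K B : ℝ} {μ : Measure Path} (hμ : IsW κ μ) (hT : 0 < T) {ν : Measure ℂ}
    [IsFiniteMeasure ν] {g g0 g1 g2 : Path → ℂ → ℝ → ℝ → ℝ}
    (hj : ∀ w z, Jet T (g w z) (g0 w z) (g1 w z) (g2 w z))
    (hb : ∀ w z, JBd T K (g w z) (g0 w z) (g1 w z) (g2 w z))
    (hmj : ∀ t x, Measurable fun q : Path × ℂ => g q.1 q.2 t x)
    (hcg : ∀ t ∈ Icc 0 T, ∀ x w w' z, Agr t (pf w) (pf w') → g w' z t x = g w z t x)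
    (hdr : ∀ w, ∀ t ∈ Icc 0 T, (∫ z, (g0 w z t (pf w t) + κ / 2 * g2 w z t (pf w t)) ∂ν)
      + κ / 2 * (∫ z, g1 w z t (pf w t) ∂ν) ^ 2 ≤ 0)
    {τ : Path → ℝ} {A : Set Path} (hτ : Stp T τ) (hA : DetS τ A) {f : Path → ℝ}
    (hf : ∀ w, f w ≤ ∫ z, g w z T (pf w T) ∂ν)
    (hB : ∀ w ∈ A, ∫ z, g w z (τ w) (pf w (τ w)) ∂ν ≤ B) :
    ∫ w in A, Real.exp (f w) ∂μ ≤ Real.exp B * μ.real A := by
  have := hμ.prob
  have hmz : ∀ w, ∀ t ∈ Icc 0 T, ∀ x, Measurable fun z => g w z t x := fun w t _ x =>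
    (hmj t x).comp (measurable_const.prodMk measurable_id)
  have hI := fun w => Jet.integral ν hT (hj w) (hb w) (hmz w)
  have hdet : ∀ t ∈ Icc 0 T, ∀ x,
      Det (fun _ => t) fun w : Path => Real.exp (∫ z, g w z t x ∂ν) := by
    intro t ht x
    refine ⟨((hmj t x).stronglyMeasurable.integral_prod_right' (ν := ν)).measurable.exp, ?_⟩
    intro w w' hww
    congr 1
    exact integral_congr_ae (Eventually.of_forall fun z => hcg t ht x w w' z hww)
  have hM := dynkin hμ hT (fun w => (hI w).1.exp) (fun w => (hI w).2.exp) hdet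
  have hTm : T ∈ Icc 0 T := ⟨hT.le, le_rfl⟩
  have hos := hM.os_le hτ (Stp.const hTm) hA (fun w _ => (hτ.mem w).2) (by
    intro w _ u hu
    have hu' : u ∈ Icc 0 T := ⟨(hτ.mem w).1.trans hu.1.le, hu.2.le⟩
    obtain ⟨-, i0, i2⟩ := Exp_hint (ν := ν) hT (hj w) (hb w) (hmz w) hu' (pf w u)
    have key := hdr w u hu'
    rw [integral_add i0 (i2.const_mul _), integral_const_mul] at key
    have h3 := mul_nonpos_of_nonneg_of_nonpos
      (Real.exp_pos (∫ z, g w z u (pf w u) ∂ν)).le key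
    linarith)
  have iT := hM.integrable_at (τ := fun _ => T) measurable_const fun _ => hTm
  have iτ := hM.integrable_at hτ.det.meas hτ.mem
  refine le_trans ?_ (hos.trans ?_)
  · exact integral_mono_of_nonneg (Eventually.of_forall fun w => (Real.exp_pos _).le)
      iT.integrableOn (Eventually.of_forall fun w => Real.exp_le_exp.2 (hf w))
  · have e : Real.exp B * μ.real A = ∫ _ in A, Real.exp B ∂μ := by
      rw [setIntegral_const, smul_eq_mul, mul_comm]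
    rw [e]
    exact setIntegral_mono_on iτ.integrableOn (integrable_const _).integrableOn hA.meas
      fun w hw => Real.exp_le_exp.2 (hB w hw)

theorem exp_super {κ : ℝ} (h0 : 0 < κ) (h8 : κ < 8) : ∃ θ C : ℝ, 0 < θ ∧ 0 < C ∧
    ∀ (μ : Measure Path) (η e T R : ℝ) (x₀ : ℂ) (τ : Path → ℝ) (A : Set Path), IsW κ μ → 0 < η →
    0 < e → e ≤ 1 → 0 < T → 1 ≤ R → η + R ≤ x₀.im → Stp T τ → DetS τ A →
    (∀ w ∈ A, ∀ z ∈ Metric.ball x₀ R, ∀ s ∈ Icc 0 (τ w), η < (fl η (pf w) z s).im →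
      2 ≤ cc η (pf w) z s) →
    ∫ w in A, Real.exp (θ * mass κ η e (pf w) T (Metric.ball x₀ R)) ∂μ
      ≤ Real.exp (C * R ^ 2) * μ.real A := by
  obtain ⟨C, c₂, cχ, hC, hc₂, hcχ, hJ⟩ := gz_jet h0 h8
  obtain ⟨A₀, ε₁, ε₂, K, hA₀, h1, h2, hK, hD⟩ := drift_le h0 h8 hC hc₂
  obtain ⟨Co, hCo, hom⟩ := lint_om
  refine ⟨ε₁ * cχ, (ε₁ + ε₂ + K) * Co, by positivity, by positivity, ?_⟩
  intro μ η e T R x₀ τ A hμ hη he he1 hT hR hx hτ hA hcc
  obtain ⟨K', hK'⟩ := hJ A₀ ε₁ ε₂ K η e T hA₀ h1.le h2.le hK.le hη he he1 hT.le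
  choose g0 g1 g2 hj hb hs using fun (w : Path) (z : ℂ) =>
    hK' x₀ R (pf w) (Exp_pr η z) (continuous_pf w) (Exp_pr_im η z)
  have hpos : ∀ z, 0 < (Exp_pr η z).im := fun z => hη.trans_le (Exp_pr_im η z)
  have hνu : Exp_nu η x₀ R univ ≤ ENNReal.ofReal (Co * R ^ 2) :=
    (Exp_nu_univ η x₀ R).trans (hom x₀ R hR)
  have : IsFiniteMeasure (Exp_nu η x₀ R) := ⟨hνu.trans_lt ENNReal.ofReal_lt_top⟩
  have hνr : (Exp_nu η x₀ R).real univ ≤ Co * R ^ 2 :=
    ENNReal.toReal_le_of_le_ofReal (by positivity) hνu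
  have hge := fun (w : Path) (z : ℂ) (x : ℝ) => gz_ge (κ := κ) (cχ := cχ) (e := e) (R := R) (t := T)
    (x := x) (x₀ := x₀) hA₀ h1.le h2.le hK.le hη (continuous_pf w) (hpos z)
  have hle := fun (w : Path) (hw : w ∈ A) (z : ℂ) (x : ℝ) => gz_le (cχ := cχ) (x := x) h0 h8 hA₀
    h1.le h2.le hK.le hη he he1 (continuous_pf w) (hpos z) (hτ.mem w).1 fun hz => hcc w hw _ hz
  have hcg := fun (t : ℝ) (ht : t ∈ Icc 0 T) (x : ℝ) (w w' : Path) (z : ℂ)
    (h : Agr t (pf w) (pf w')) => (gz_congr κ A₀ ε₁ ε₂ K cχ e x₀ R hη (continuous_pf w)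
      (continuous_pf w') h (hpos z) ⟨ht.1, le_rfl⟩ x).symm
  obtain ⟨g, hg⟩ : ∃ g : Path → ℂ → ℝ → ℝ → ℝ,
      ∀ w z, gz κ A₀ ε₁ ε₂ K cχ η e x₀ R (pf w) (Exp_pr η z) = g w z := ⟨_, fun _ _ => rfl⟩
  have hmj : ∀ t x, Measurable fun q : Path × ℂ => g q.1 q.2 t x := by
    intro t x
    have h3 : Measurable fun q : Path × ℂ => (q.1, Exp_pr η q.2) :=
      measurable_fst.prodMk ((Exp_pr_meas η).comp measurable_snd)
    have h4 := (measurable_gz κ A₀ ε₁ ε₂ K cχ η e x₀ R t x).comp h3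
    simp only [Function.comp_def, hg] at h4
    exact h4
  simp only [hg] at hj hb hge hle hcg
  have hmz : ∀ w, ∀ t ∈ Icc 0 T, ∀ x, Measurable fun z => g w z t x := fun w t _ x =>
    (hmj t x).comp (measurable_const.prodMk measurable_id)
  have hTm : T ∈ Icc 0 T := ⟨hT.le, le_rfl⟩
  refine Exp_core (ν := Exp_nu η x₀ R) hμ hT hj hb hmj hcg ?_ hτ hA ?_ ?_
  · intro w t ht
    obtain ⟨-, i0, i2⟩ := Exp_hint (ν := Exp_nu η x₀ R) hT (hj w) (hb w) (hmz w) ht (pf w t)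
    have i3 : Integrable (fun z => g0 w z t (pf w t) + κ / 2 * g2 w z t (pf w t))
        (Exp_nu η x₀ R) := i0.add (i2.const_mul _)
    rw [Exp_int, Exp_int]
    refine hD η t R x₀ (pf w) _ _ hη ht.1 hR (continuous_pf w) (Exp_intg i3) ?_
    intro z hz
    have h3 := hs w z t ht
    rw [Exp_pr_eq hz] at h3
    exact h3
  · intro w
    unfold mass
    rw [← Exp_mass hx]
    refine integral_mono_of_nonneg (Eventually.of_forall fun z => ?_)
      (Exp_hint hT (hj w) (hb w) (hmz w) hTm _).1 (Eventually.of_forall fun z => hge w z _)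
    refine mul_nonneg (by positivity) ?_
    by_cases hz : Exp_pr η z ∈ Metric.ball x₀ R
    · rw [indicator_of_mem hz]
      exact Pay_nonneg κ he hη (continuous_pf w) (hpos z) hT.le
    · rw [indicator_of_notMem hz]
  · intro w hw
    have h3 : ∫ z, g w z (τ w) (pf w (τ w)) ∂Exp_nu η x₀ R ≤ ∫ _, (ε₁ + ε₂ + K) ∂Exp_nu η x₀ R :=
      integral_mono (Exp_hint hT (hj w) (hb w) (hmz w) (hτ.mem w) _).1 (integrable_const _)
        fun z => hle w hw z _
    rw [integral_const, smul_eq_mul] at h3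
    have h4 := mul_le_mul_of_nonneg_right hνr (show 0 ≤ ε₁ + ε₂ + K by positivity)
    linarith

end Vale.Agent.P164
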