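import Vale.Agent.P164.Phi

/-!
# P164 Gz

The jet of the potential `gz` of one point: `phi_jet` twice (`θ c = stp (c / e)` and `θ = 1`),
`Jet.time` for `Pay` (derivative `pay`) and for `cc ^ 2 / (1 + cc ^ 2)`. Where `pay ≠ 0` we have
`cc < 2 e ≤ 2`, so `cχ S ^ 40 ≤ chi` (`schi_ge`, `chi_eq`) and the payoff is paid by the term with
`deriv θ`. Translate to conformal coordinates with `FF_ZZ`, `chi_eq`, `pv_eq`, `sn_eq`, `r2_eq`.
-/

open MeasureTheory ProbabilityTheory Set Filter Topology Complex Function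
open scoped NNReal ENNReal ComplexConjugate

noncomputable section

namespace Vale.Agent.P164

theorem Gz_deriv (e c : ℝ) : deriv (fun c => stp (c / e)) c * c = deriv stp (c / e) * (c / e) := by
  have h : HasDerivAt (fun c => stp (c / e)) (deriv stp (c / e) * (1 / e)) c :=
    (contDiff_stp.differentiable one_ne_zero _).hasDerivAt.comp c ((hasDerivAt_id c).div_const e)
  rw [h.deriv]
  ring

theorem Gz_stp {B : ℝ} (hB : 0 < B) (hs : ∀ u, deriv stp u ≤ B) (u : ℝ) :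
    0 ≤ deriv stp u * u ∧ deriv stp u * u ≤ 2 * B := by
  by_cases h : deriv stp u = 0
  · simp [h, hB.le]
  · obtain ⟨h1, h2⟩ := deriv_stp_ne h
    have h3 := deriv_stp_nonneg u
    exact ⟨by positivity, by nlinarith [hs u]⟩

theorem Gz_time {T K : ℝ} {g g' : ℝ → ℝ} (h : ∀ t ∈ Icc 0 T, |g t| ≤ K ∧ |g' t| ≤ K) :
    JBd T K (fun t _ => g t) (fun t _ => g' t) (fun _ _ => 0) fun _ _ => 0 := fun t ht _ => by
  have hK := (abs_nonneg _).trans (h t ht).1
  exact ⟨(h t ht).1, (h t ht).2, by simpa using hK, by simpa using hK⟩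

theorem Gz_h {η : ℝ} {w : ℝ → ℝ} (hη : 0 < η) (hw : Continuous w) (z : ℂ) (t : ℝ) :
    HasDerivAt (fun t => cc η w z t ^ 2 / (1 + cc η w z t ^ 2))
      (-2 * (cc η w z t ^ 2 / (1 + cc η w z t ^ 2) ^ 2) *
        (4 * (fl η w z t).im ^ 2 / den η (w t) (fl η w z t) ^ 2)) t := by
  have h := (cc_deriv hη hw z t).fun_pow 2
  refine (h.fun_div (h.const_add 1) (by positivity)).congr_deriv ?_
  simp only [Nat.cast_ofNat, Nat.add_one_sub_one, pow_one]
  ring

theorem Gz_pay {κ η e B t : ℝ} {w : ℝ → ℝ} {z : ℂ} (h0 : 0 < κ) (h8 : κ < 8) (he : 0 < e)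
    (hη : 0 < η) (hw : Continuous w) (hz : 0 < z.im) (hB : 0 < B) (hs : ∀ u, deriv stp u ≤ B) :
    pay κ η e w z t ≤ e ^ (-be κ) * (2 * B) * (4 / η ^ 2) := by
  by_cases h : pay κ η e w z t = 0
  · rw [h]
    positivity
  obtain ⟨h1, h2, -⟩ := pay_ne he hη h
  have hal : 0 ≤ al κ := ((be_pos h8).trans (be_lt_al h0 h8)).le
  have h3 := pw_le hη hw hz (-be κ) (a := al κ + 40) (by positivity) 0 t (w t)
  rw [Real.rpow_zero, mul_one] at h3
  have h4 := h3.trans (Real.rpow_le_rpow_of_nonpos he h2.le (neg_nonpos.2 (be_pos h8).le))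
  have h5 := Gz_stp hB hs (cc η w z t / e)
  rw [pay, clk_alive hη h1.le]
  refine mul_le_mul (mul_le_mul ?_ h5.2 h5.1 (by positivity))
    (Flow_le hη _ _ (by positivity) (sq_le_den hη.le _ _)) (by positivity) (by positivity)
  exact (mul_le_of_le_one_right (pw_pos hη hw hz _ _ _ _ _).le (stp_le_one _)).trans h4

theorem Gz_alg {i ε₁ ε₂ P P' χ k θ L r D a b c₂ II q y : ℝ} (hi : 0 ≤ i) (hi1 : i ≤ 1)
    (h1 : 0 ≤ ε₁) (h2 : 0 ≤ ε₂) (hP : 0 ≤ P) (hP' : 0 ≤ P') (hχ : 0 ≤ χ) (hk : 0 ≤ k) (hθ : 0 ≤ θ)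
    (hθ1 : θ ≤ 1) (hL : 0 ≤ L) (hr : 0 < r) (hII : II ≤ -c₂)
    (ha : a ≤ P * χ * k * (θ * L / r - D)) (hb : b ≤ P' * χ * k * ((II + L) / r))
    (hy : y ≤ P * χ * k * D) :
    ε₁ * i * (a + y) + ε₂ * b - q / r ≤ (χ * k * (ε₁ * P * L + ε₂ * P' * (L - c₂)) - q) / r := by
  have e1 : i * (a + y) ≤ P * χ * k * L / r := by
    have e2 : 0 ≤ P * χ * k * L / r := by positivity
    calc i * (a + y) ≤ i * (θ * (P * χ * k * L / r)) := by
          refine mul_le_mul_of_nonneg_left ?_ hi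
          calc a + y ≤ _ := add_le_add ha hy
            _ = _ := by ring
      _ ≤ 1 * (1 * (P * χ * k * L / r)) := by gcongr
      _ = _ := by ring
  have e3 : b ≤ P' * χ * k * ((-c₂ + L) / r) := hb.trans (by gcongr)
  calc _ ≤ ε₁ * (P * χ * k * L / r) + ε₂ * (P' * χ * k * ((-c₂ + L) / r)) - q / r := by
        rw [mul_assoc]
        gcongr
    _ = _ := by ring

theorem gz_jet {κ : ℝ} (h0 : 0 < κ) (h8 : κ < 8) : ∃ C c₂ cχ : ℝ, 0 < C ∧ 0 < c₂ ∧ 0 < cχ ∧
    ∀ (A ε₁ ε₂ K η e T : ℝ), 1 ≤ A → 0 ≤ ε₁ → 0 ≤ ε₂ → 0 ≤ K → 0 < η → 0 < e → e ≤ 1 → 0 ≤ T →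
    ∃ K' : ℝ, ∀ (x₀ : ℂ) (R : ℝ) (w : ℝ → ℝ) (z : ℂ), Continuous w → η ≤ z.im →
    ∃ g0 g1 g2 : ℝ → ℝ → ℝ, Jet T (gz κ A ε₁ ε₂ K cχ η e x₀ R w z) g0 g1 g2 ∧
      JBd T K' (gz κ A ε₁ ε₂ K cχ η e x₀ R w z) g0 g1 g2 ∧ ∀ t ∈ Icc 0 T,
        (η < (fl η w z t).im →
          g0 t (w t) + κ / 2 * g2 t (w t) ≤ sD κ C A ε₁ ε₂ K c₂ η (FF w t) (ZZ η w z t) ∧
          |g1 t (w t)| ≤ sM κ C A ε₁ ε₂ η (FF w t) (ZZ η w z t)) ∧
        ((fl η w z t).im ≤ η → g0 t (w t) + κ / 2 * g2 t (w t) ≤ 0 ∧ g1 t (w t) = 0) := by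
  obtain ⟨C, hC, hφ⟩ := phi_jet h0 h8
  obtain ⟨c₂, hc₂, hII⟩ := II_aa h0 h8
  obtain ⟨cχ, hcχ, hχ⟩ := schi_ge
  obtain ⟨B, hB, hs⟩ := deriv_stp_le
  have hal : 0 ≤ al κ := ((be_pos h8).trans (be_lt_al h0 h8)).le
  refine ⟨C, c₂, cχ, hC, hc₂, hcχ, fun A ε₁ ε₂ K η e T hA h1 h2 hK hη he he1 hT => ?_⟩
  obtain ⟨K₁, hK₁⟩ := hφ (-be κ) (al κ) η T (2 * B) (fun c => stp (c / e))
    (by linarith [be_lt_one h0]) (by linarith [be_pos h8]) hal le_rfl hη
    (contDiff_stp.comp (contDiff_id.div_const e)) fun c => ⟨stp_nonneg _, stp_le_one _, by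
      rw [Gz_deriv, abs_of_nonneg (Gz_stp hB hs _).1]
      exact (Gz_stp hB hs _).2⟩
  obtain ⟨K₂, hK₂⟩ := hφ 0 (aa κ) η T 0 (fun _ => 1) (by norm_num) le_rfl (aa_pos h0 h8).le
    (aa_lt_al h8).le hη contDiff_const fun c => by simp
  obtain ⟨K₃, hK₃⟩ : ∃ K₃, K₃ = e ^ (-be κ) + e ^ (-be κ) * (2 * B) * (4 / η ^ 2) := ⟨_, rfl⟩
  refine ⟨|ε₁| * |K₁ + |cχ| * K₃| + |ε₂| * K₂ + |K| * (1 + 2 * (4 / η ^ 2)),
    fun x₀ R w z hw hz => ?_⟩
  have hz0 : 0 < z.im := hη.trans_le hz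
  obtain ⟨a0, a1, a2, ja, ba, ha⟩ := hK₁ A w z hA hw hz
  obtain ⟨b0, b1, b2, jb, bb, hb⟩ := hK₂ A w z hA hw hz
  simp only [mul_one, one_mul, deriv_const', zero_mul, sub_zero] at jb bb hb
  obtain ⟨i, hi⟩ : ∃ i, i = (Metric.ball x₀ R).indicator (fun _ => (1 : ℝ)) z := ⟨_, rfl⟩
  have hi0 : 0 ≤ i := hi ▸ indicator_nonneg (fun _ _ => zero_le_one) z
  have hi1 : i ≤ 1 := hi ▸ indicator_le_self' (fun _ _ => zero_le_one) z
  have hp := pay_cont κ e hη hw hz0
  have jp := Jet.time (g := fun t => Pay κ η e w t z)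
    (fun t => (hp.integral_hasStrictDerivAt 0 t).hasDerivAt) hp T
  have bp : JBd T K₃ (fun t _ => Pay κ η e w t z) (fun t _ => pay κ η e w z t) (fun _ _ => 0)
      fun _ _ => 0 := Gz_time fun t ht => by
    rw [abs_of_nonneg (Pay_nonneg κ he hη hw hz0 ht.1),
      abs_of_nonneg (pay_nonneg κ he η w hη hw hz0 t), hK₃]
    exact ⟨le_add_of_le_of_nonneg (Pay_le h0 h8 he hη hw hz0 ht.1) (by positivity),
      le_add_of_nonneg_of_le (by positivity) (Gz_pay h0 h8 he hη hw hz0 hB hs)⟩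
  have jh := Jet.time (Gz_h hη hw z) (by
    have := cc_cont hη hw z
    exact (continuous_const.mul (Continuous.div (by fun_prop) (by fun_prop)
      fun t => by positivity)).mul (Flow_k' hη hw z)) T
  have bh := Phi_time (T := T) (K := 2 * (4 / η ^ 2))
    (g := fun t => cc η w z t ^ 2 / (1 + cc η w z t ^ 2))
    (g' := fun t => -2 * (cc η w z t ^ 2 / (1 + cc η w z t ^ 2) ^ 2) *
      (4 * (fl η w z t).im ^ 2 / den η (w t) (fl η w z t) ^ 2)) fun t _ => by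
    have e1 : cc η w z t ^ 2 / (1 + cc η w z t ^ 2) ^ 2 ≤ 1 :=
      div_le_one_of_le₀ (by nlinarith [sq_nonneg (cc η w z t), sq_nonneg (cc η w z t ^ 2)])
        (by positivity)
    refine ⟨(abs_of_nonneg (by positivity)).trans_le
      (div_le_one_of_le₀ (by linarith) (by positivity)), ?_⟩
    rw [neg_mul, neg_mul, abs_neg, abs_of_nonneg (by positivity)]
    exact mul_le_mul (by linarith) (Flow_le hη _ _ (by positivity) (sq_le_den hη.le _ _))
      (by positivity) zero_le_two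
  have eg : gz κ A ε₁ ε₂ K cχ η e x₀ R w z = fun t x => ε₁ * i *
      (pw η w z (-be κ) (al κ) 0 t x * chi A η w z t x * kil η w z t * stp (cc η w z t / e)
        + cχ * Pay κ η e w t z) + ε₂ * (pw η w z 0 (aa κ) 0 t x * chi A η w z t x * kil η w z t)
      + K * (cc η w z t ^ 2 / (1 + cc η w z t ^ 2)) := by
    rw [hi]
    rfl
  rw [eg]
  refine ⟨_, _, _, (((ja.add (jp.smul cχ)).smul _).add (jb.smul ε₂)).add (jh.smul K),
    (((((ba.add (bp.smul cχ)).smul _).mono ?_).add (bb.smul ε₂)).add (bh.smul K)),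
    fun t ht => ⟨fun h => ?_, fun h => ?_⟩⟩
  · rw [abs_mul, abs_of_nonneg hi0]
    exact (mul_le_mul_of_nonneg_left (le_abs_self _) (by positivity)).trans
      (mul_le_mul_of_nonneg_right (mul_le_of_le_one_right (abs_nonneg _) hi1) (abs_nonneg _))
  · obtain ⟨a3, a4⟩ := (ha t ht).1 h
    obtain ⟨b3, b4⟩ := (hb t ht).1 h
    have hZ : 0 < (ZZ η w z t).im := by
      rw [ZZ_im]
      exact hη.trans h
    have hr := r2_pos hη hw hz0 t (w t)
    have hS := sn_pos hη hw hz0 t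
    have hc := cc_pos hz0 η w t
    have c0 := (chi_mem hA η w z t (w t)).1
    have k0 : 0 ≤ kil η w z t := stp_nonneg _
    have e1 := (FF_ZZ hη hw hz0 ht.1 h.le).2
    have e2 := chi_eq A hη hw hz0 ht.1 h.le
    have e3 : stp ((ZZ η w z t).im / η) = kil η w z t := by rw [ZZ_im, kil]
    have e4 : √(r2 η w z t (w t)) = ‖ZZ η w z t‖ := by rw [r2_eq, Real.sqrt_sq (norm_nonneg _)]
    have hL : 0 ≤ sLam C A (FF w t) (ZZ η w z t) := by
      have : 0 ≤ scb (FF w t) (ZZ η w z t) := mul_nonneg (norm_nonneg _) (norm_nonneg _)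
      unfold sLam
      positivity
    simp only [pv_eq hη hw hz0, Real.rpow_zero, mul_one, one_mul, II_al h0, mul_zero,
      neg_add_cancel, sub_zero, zero_add, Gz_deriv, e4] at a3 a4 b3 b4
    constructor
    · have hy : cχ * pay κ η e w z t ≤ cc η w z t ^ (-be κ) * sn η w z t ^ al κ *
          chi A η w z t (w t) * kil η w z t *
          (deriv stp (cc η w z t / e) * (cc η w z t / e) * clk η w z t) := by
        have d0 : 0 ≤ deriv stp (cc η w z t / e) * (cc η w z t / e) * clk η w z t :=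
          mul_nonneg (Gz_stp hB hs _).1 (by unfold clk; positivity)
        by_cases hp0 : pay κ η e w z t = 0
        · rw [hp0, mul_zero]
          positivity
        have e5 := hχ _ _ A (FF_univ hw ht.1) hZ hA
          (e1.trans_le (by linarith [(pay_ne he hη hp0).2.2]))
        rw [← e2, ← sn_eq] at e5
        rw [pay, pv_eq hη hw hz0, Real.rpow_zero, mul_one, Real.rpow_add hS,
          show (40 : ℝ) = (40 : ℕ) by norm_num, Real.rpow_natCast]
        calc _ = cc η w z t ^ (-be κ) * sn η w z t ^ al κ * (cχ * sn η w z t ^ 40) * kil η w z t *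
              (deriv stp (cc η w z t / e) * (cc η w z t / e) * clk η w z t) := by ring
          _ ≤ _ := by gcongr
      have key := Gz_alg (q := 8 * K * (cc η w z t ^ 2 / (1 + cc η w z t ^ 2) ^ 2) * sn η w z t ^ 2)
        hi0 hi1 h1 h2 (by positivity) (by positivity) c0 k0 (stp_nonneg _) (stp_le_one _) hL hr
        (hII _ hS.le (sn_le_one η w z t)) a3 b3 hy
      rw [sD, e1, ← e2, e3, ← sn_eq, ← r2_eq, ← clk_alive hη h.le, clk]
      exact le_trans (le_of_eq (by ring)) key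
    · rw [sM, e1, ← e2, e3, ← sn_eq]
      simp only [mul_zero, add_zero]
      refine (abs_add_le _ _).trans ?_
      rw [abs_mul, abs_mul ε₂, abs_of_nonneg (mul_nonneg h1 hi0), abs_of_nonneg h2]
      have s0 := stp_nonneg (cc η w z t / e)
      have s1 := stp_le_one (cc η w z t / e)
      calc _ ≤ ε₁ * 1 * (C * (cc η w z t ^ (-be κ) * sn η w z t ^ al κ * chi A η w z t (w t) *
            kil η w z t * 1) / ‖ZZ η w z t‖) + ε₂ * (C * (sn η w z t ^ aa κ *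
            chi A η w z t (w t) * kil η w z t) / ‖ZZ η w z t‖) := by
            gcongr
            exact a4.trans (by gcongr)
        _ = _ := by ring
  · obtain ⟨a3, a4⟩ := (ha t ht).2 h
    obtain ⟨b3, b4⟩ := (hb t ht).2 h
    have e1 : pay κ η e w z t = 0 := by
      by_contra h3
      exact h.not_gt (pay_ne he hη h3).1
    have e2 : 0 ≤ K * (cc η w z t ^ 2 / (1 + cc η w z t ^ 2) ^ 2 *
        (4 * (fl η w z t).im ^ 2 / den η (w t) (fl η w z t) ^ 2)) := by positivity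
    refine ⟨?_, by simp [a4, b4]⟩
    simp only [e1, mul_zero, add_zero]
    linear_combination (ε₁ * i) * a3 + ε₂ * b3 + 2 * e2

theorem gz_ge {κ A ε₁ ε₂ K cχ η e R t x : ℝ} {x₀ z : ℂ} {w : ℝ → ℝ} (hA : 1 ≤ A) (h1 : 0 ≤ ε₁)
    (h2 : 0 ≤ ε₂) (hK : 0 ≤ K) (hη : 0 < η) (hw : Continuous w) (hz : 0 < z.im) :
    ε₁ * cχ * (Metric.ball x₀ R).indicator (Pay κ η e w t) z
      ≤ gz κ A ε₁ ε₂ K cχ η e x₀ R w z t x := by
  have e1 := (chi_mem hA η w z t x).1
  have e2 : 0 ≤ kil η w z t := stp_nonneg _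
  have e3 := stp_nonneg (cc η w z t / e)
  have e4 := (pw_pos hη hw hz (-be κ) (al κ) 0 t x).le
  have e5 := (pw_pos hη hw hz 0 (aa κ) 0 t x).le
  refine le_add_of_le_of_nonneg (le_add_of_le_of_nonneg ?_ (by positivity)) (by positivity)
  by_cases h : z ∈ Metric.ball x₀ R
  · rw [indicator_of_mem h, indicator_of_mem h, mul_one, mul_add, mul_assoc]
    exact le_add_of_nonneg_left (by positivity)
  · simp [indicator_of_notMem h]

/-- before any payoff, with `cc ≥ 2` for the living points of the ball -/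
theorem gz_le {κ A ε₁ ε₂ K cχ η e R t x : ℝ} {x₀ z : ℂ} {w : ℝ → ℝ} (h0 : 0 < κ) (h8 : κ < 8)
    (hA : 1 ≤ A) (h1 : 0 ≤ ε₁) (h2 : 0 ≤ ε₂) (hK : 0 ≤ K) (hη : 0 < η) (he : 0 < e) (he1 : e ≤ 1)
    (hw : Continuous w) (hz : 0 < z.im) (ht : 0 ≤ t)
    (h : z ∈ Metric.ball x₀ R → ∀ s ∈ Icc 0 t, η < (fl η w z s).im → 2 ≤ cc η w z s) :
    gz κ A ε₁ ε₂ K cχ η e x₀ R w z t x ≤ ε₁ + ε₂ + K := by
  obtain ⟨e1, e1'⟩ := chi_mem hA η w z t x
  have e2 : 0 ≤ kil η w z t := stp_nonneg _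
  have e2' : kil η w z t ≤ 1 := stp_le_one _
  have hal : 0 ≤ al κ := ((be_pos h8).trans (be_lt_al h0 h8)).le
  refine add_le_add (add_le_add ?_ (mul_le_of_le_one_right h2 ?_))
    (mul_le_of_le_one_right hK (div_le_one_of_le₀ (by linarith) (by positivity)))
  · by_cases hb : z ∈ Metric.ball x₀ R
    · have e3 : Pay κ η e w t z = 0 := by
        rw [Pay, intervalIntegral.integral_congr (g := fun _ => 0) fun s hs => ?_,
          intervalIntegral.integral_zero]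
        by_contra h3
        obtain ⟨h4, -, h5⟩ := pay_ne he hη h3
        linarith [h hb s (uIcc_of_le ht ▸ hs) h4]
      rw [indicator_of_mem hb, mul_one, e3, mul_zero, add_zero]
      refine mul_le_of_le_one_right h1 ?_
      by_cases hl : η < (fl η w z t).im
      · have e4 := pw_le hη hw hz (-be κ) hal 0 t x
        rw [Real.rpow_zero, mul_one] at e4
        exact mul_le_one₀ (mul_le_one₀ (mul_le_one₀ (e4.trans (Real.rpow_le_one_of_one_le_of_nonpos
          (by linarith [h hb t ⟨ht, le_rfl⟩ hl]) (by linarith [be_pos h8]))) e1 e1') e2 e2')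
          (stp_nonneg _) (stp_le_one _)
      · rw [kil, stp_zero ((div_le_one hη).2 (not_lt.1 hl))]
        simp
    · simpa [indicator_of_notMem hb] using h1
  · have e4 := pw_le hη hw hz 0 (aa_pos h0 h8).le 0 t x
    rw [Real.rpow_zero, Real.rpow_zero, mul_one] at e4
    exact mul_le_one₀ (mul_le_one₀ e4 e1 e1') e2 e2'

end Vale.Agent.P164
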