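import Vale.Agent.P164.Defs
import Vale.Agent.P142.Area

/-!
# P164 Koebe

Bieberbach's inequality from the area theorem `Vale.Agent.P142.area`. For `f` injective on the unit
disc with `f 0 = 0`, `f' 0 = 1`: `φ = dslope f 0` does not vanish, take a holomorphic square root `ψ`
of `φ` with `ψ 0 = 1` (a primitive of `φ' / φ` on the disc, `DifferentiableOn.isExactOn_ball`,
then `exp (L / 2)`), `g u = u ψ (u ^ 2)` is injective (`g u ^ 2 = f (u ^ 2)` and `g` is odd),
`1 / g u = 1 / u + P u` with `P u = u * Q (u ^ 2)`, `Q = dslope (1 / ψ) 0`, `P' 0 = Q 0 = -f'' 0 / 4`,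
and `|P' 0| ^ 2 π ≤ ∫ |P'| ^ 2 ≤ π` (mean value inequality; any absolute constant may be obtained
first, but the statement needs `4`: use the circle mean value property of `(P') ^ 2` or of `P'`).
-/

open MeasureTheory ProbabilityTheory Set Filter Topology Complex Function
open scoped NNReal ENNReal ComplexConjugate

noncomputable section

namespace Vale.Agent.P164

theorem Koebe_mean {Q : ℂ → ℂ} (hQ : DifferentiableOn ℂ Q (Metric.ball 0 1)) :
    ENNReal.ofReal (Real.pi * ‖Q 0‖ ^ 2) ≤ ∫⁻ u in P142.ann 0 1, ENNReal.ofReal (‖Q u‖ ^ 2) := by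
  rw [P142.polar (g := fun u => ‖Q u‖ ^ 2) le_rfl
    ((hQ.continuousOn.mono (P142.ann_sub le_rfl)).norm.pow 2)
    fun _ _ => by positivity]
  have hI : ∫ r in (0 : ℝ)..1, 2 * Real.pi * r * ‖Q 0‖ ^ 2 = Real.pi * ‖Q 0‖ ^ 2 := by
    rw [intervalIntegral.integral_mul_const, intervalIntegral.integral_const_mul, integral_id]
    ring
  have hInt : IntegrableOn (fun r : ℝ => 2 * Real.pi * r * ‖Q 0‖ ^ 2) (Ioo 0 1) :=
    (Continuous.integrableOn_Icc (by fun_prop)).mono_set Ioo_subset_Icc_self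
  rw [← hI, intervalIntegral.integral_of_le zero_le_one, integral_Ioc_eq_integral_Ioo,
    ofReal_integral_eq_lintegral_ofReal hInt]
  · refine setLIntegral_mono' measurableSet_Ioo fun r hr => ENNReal.ofReal_le_ofReal ?_
    have hr0 := hr.1
    refine mul_le_mul_of_nonneg_left ?_ (by positivity)
    have h := le_hasSum (P142.parseval_holo hr0 (hQ.mono (Metric.closedBall_subset_ball hr.2))) 0
      fun _ _ => by positivity
    simpa [P142.co] using h
  · filter_upwards [ae_restrict_mem measurableSet_Ioo] with r hr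
    have hr0 := hr.1
    simp only [Pi.zero_apply]
    positivity

theorem Koebe_area {P : ℂ → ℂ} (hP : DifferentiableOn ℂ P (Metric.ball 0 1))
    (hi : InjOn (fun u => 1 / u + P u) (P142.ann 0 1)) : ‖deriv P 0‖ ≤ 1 := by
  have h := (Koebe_mean (P142.diff_deriv hP)).trans (P142.area one_ne_zero hP hi)
  rw [ENNReal.ofReal_le_ofReal_iff (by positivity), norm_one] at h
  exact (pow_le_pow_iff_left₀ (norm_nonneg _) zero_le_one two_ne_zero).1
    (le_of_mul_le_mul_left h Real.pi_pos)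

/-- the inverse of a square root -/
theorem Koebe_root {φ : ℂ → ℂ} (hφ : DifferentiableOn ℂ φ (Metric.ball 0 1))
    (h0 : ∀ u ∈ Metric.ball (0 : ℂ) 1, φ u ≠ 0) (h1 : φ 0 = 1) :
    ∃ χ : ℂ → ℂ, DifferentiableOn ℂ χ (Metric.ball 0 1) ∧ χ 0 = 1 ∧
      deriv χ 0 = -deriv φ 0 / 2 ∧ ∀ u ∈ Metric.ball (0 : ℂ) 1, χ u ^ 2 * φ u = 1 := by
  have hb : (0 : ℂ) ∈ Metric.ball (0 : ℂ) 1 := Metric.mem_ball_self one_pos
  obtain ⟨L, hL0, hL⟩ := ((P142.diff_deriv hφ).div hφ h0).isExactOn_ball.with_val_at 0 0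
  have hχ : ∀ u ∈ Metric.ball (0 : ℂ) 1, HasDerivAt (fun u => exp (-L u / 2))
      (exp (-L u / 2) * (-(deriv φ u / φ u) / 2)) u := fun u hu =>
    ((hL u hu).fun_neg.div_const 2).cexp
  have hd : ∀ u ∈ Metric.ball (0 : ℂ) 1, HasDerivAt (fun u => exp (-L u / 2) ^ 2 * φ u) 0 u := by
    intro u hu
    have h2 := ((hχ u hu).fun_pow 2).fun_mul
      (hφ.differentiableAt (Metric.isOpen_ball.mem_nhds hu)).hasDerivAt
    refine h2.congr_deriv ?_
    have := h0 u hu
    field_simp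
    ring
  refine ⟨fun u => exp (-L u / 2), fun u hu => (hχ u hu).differentiableAt.differentiableWithinAt,
    by simp [hL0], by simp [(hχ 0 hb).deriv, hL0, h1], fun u hu => ?_⟩
  have h2 := Metric.isOpen_ball.is_const_of_deriv_eq_zero (convex_ball (0 : ℂ) 1).isPreconnected
    (fun u hu => (hd u hu).differentiableAt.differentiableWithinAt)
    (fun u hu => (hd u hu).deriv) hu hb
  simpa [hL0, h1] using h2

theorem bieberbach {f : ℂ → ℂ} (hf : DifferentiableOn ℂ f (Metric.ball 0 1))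
    (hi : InjOn f (Metric.ball 0 1)) (h0 : f 0 = 0) (h1 : deriv f 0 = 1) :
    ‖deriv (deriv f) 0‖ ≤ 4 := by
  have hb : (0 : ℂ) ∈ Metric.ball (0 : ℂ) 1 := Metric.mem_ball_self one_pos
  have hn : Metric.ball (0 : ℂ) 1 ∈ 𝓝 (0 : ℂ) := Metric.ball_mem_nhds 0 one_pos
  have hφ : DifferentiableOn ℂ (dslope f 0) (Metric.ball 0 1) :=
    (Complex.differentiableOn_dslope hn).2 hf
  have hφ0 : dslope f 0 0 = 1 := by rw [dslope_same, h1]
  have e : ∀ u, u * dslope f 0 u = f u := fun u => by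
    simpa [h0] using sub_smul_dslope f 0 u
  set φ := dslope f 0
  have hne : ∀ u ∈ Metric.ball (0 : ℂ) 1, φ u ≠ 0 := fun u hu h => by
    have h2 : u = 0 := hi hu hb (by rw [← e, h, mul_zero, h0])
    rw [h2, hφ0] at h
    exact one_ne_zero h
  obtain ⟨χ, hχ, hχ0, hχ1, hχ2⟩ := Koebe_root hφ hne hφ0
  have hQ : DifferentiableOn ℂ (dslope χ 0) (Metric.ball 0 1) :=
    (Complex.differentiableOn_dslope hn).2 hχ
  have hQ0 : dslope χ 0 0 = -deriv φ 0 / 2 := by rw [dslope_same, hχ1]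
  have e' : ∀ u, u * dslope χ 0 u = χ u - 1 := fun u => by
    simpa [hχ0] using sub_smul_dslope χ 0 u
  set Q := dslope χ 0
  have hsq : ∀ u ∈ Metric.ball (0 : ℂ) 1, u ^ 2 ∈ Metric.ball (0 : ℂ) 1 := fun u hu => by
    rw [mem_ball_zero_iff] at hu ⊢
    rw [norm_pow]
    exact pow_lt_one₀ (norm_nonneg _) hu two_ne_zero
  have hQ2 : DifferentiableOn ℂ (fun u => Q (u ^ 2)) (Metric.ball 0 1) :=
    hQ.comp (differentiableOn_pow 2) hsq
  have hG : ∀ u ≠ 0, 1 / u + u * Q (u ^ 2) = χ (u ^ 2) / u := fun u hu => by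
    have := e' (u ^ 2)
    field_simp
    linear_combination this
  have h2 := Koebe_area (P := fun u => u * Q (u ^ 2)) (differentiableOn_id.mul hQ2) (by
    intro u hu w hw h
    have hu0 := P142.ann_ne le_rfl hu
    have hw0 := P142.ann_ne le_rfl hw
    have hu1 := hsq u (P142.ann_sub le_rfl hu)
    have hw1 := hsq w (P142.ann_sub le_rfl hw)
    simp only [hG u hu0, hG w hw0] at h
    rw [div_eq_div_iff hu0 hw0] at h
    have h3 : u ^ 2 = w ^ 2 := hi hu1 hw1 (by
      rw [← e, ← e]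
      have h4 := hχ2 _ hu1
      have h5 := hχ2 _ hw1
      linear_combination (-(u ^ 2 * φ (u ^ 2))) * h5 + (w ^ 2 * φ (w ^ 2)) * h4 -
        φ (u ^ 2) * φ (w ^ 2) * (χ (u ^ 2) * w + χ (w ^ 2) * u) * h)
    rw [h3] at h
    refine (mul_left_cancel₀ (fun h6 => ?_) h).symm
    have h5 := hχ2 _ hw1
    rw [h6] at h5
    simp at h5)
  have h3 := (hasDerivAt_id' (0 : ℂ)).fun_mul (hQ2.differentiableAt hn).hasDerivAt
  rw [h3.deriv] at h2
  have h4 : deriv f =ᶠ[𝓝 0] fun u => φ u + u * deriv φ u := by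
    filter_upwards [hn] with u hu
    have h5 := (hasDerivAt_id' u).fun_mul
      (hφ.differentiableAt (Metric.isOpen_ball.mem_nhds hu)).hasDerivAt
    rw [← funext e, h5.deriv, one_mul]
  have h5 := (hφ.differentiableAt hn).hasDerivAt.fun_add ((hasDerivAt_id' (0 : ℂ)).fun_mul
    ((P142.diff_deriv hφ).differentiableAt hn).hasDerivAt)
  rw [h4.deriv_eq, h5.deriv]
  simp only [zero_mul, add_zero, one_mul, ne_eq, OfNat.ofNat_ne_zero, not_false_eq_true, zero_pow,
    hQ0, norm_div, norm_neg, Complex.norm_ofNat] at h2 ⊢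
  linarith [norm_add_le (deriv φ 0) (deriv φ 0)]

/-- apply `bieberbach` to `u ↦ (F (Z + Y u) - F Z) / (Y F' Z)` -/
theorem Univ.koebe {F : ℂ → ℂ} (hF : Univ F) {Z : ℂ} (hZ : 0 < Z.im) :
    Z.im * ‖deriv (deriv F) Z‖ ≤ 4 * ‖deriv F Z‖ := by
  have ho : IsOpen HH := isOpen_lt continuous_const continuous_im
  have hY : (Z.im : ℂ) ≠ 0 := ofReal_ne_zero.2 hZ.ne'
  have hD := hF.ne Z hZ
  have hm : ∀ u ∈ Metric.ball (0 : ℂ) 1, Z + Z.im * u ∈ HH := fun u hu => by
    have h1 := (abs_lt.1 ((abs_im_le_norm u).trans_lt (mem_ball_zero_iff.1 hu))).1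
    change 0 < (Z + Z.im * u).im
    rw [add_im, im_ofReal_mul]
    nlinarith
  have ha : ∀ u : ℂ, HasDerivAt (fun u : ℂ => Z + Z.im * u) Z.im u := fun u => by
    simpa using ((hasDerivAt_id' u).const_mul (Z.im : ℂ)).const_add Z
  have hd : ∀ u ∈ Metric.ball (0 : ℂ) 1,
      HasDerivAt (fun u : ℂ => (F (Z + Z.im * u) - F Z) / (Z.im * deriv F Z))
        (deriv F (Z + Z.im * u) / deriv F Z) u := fun u hu => by
    have h1 := (((hF.diff.differentiableAt (ho.mem_nhds (hm u hu))).hasDerivAt.comp u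
      (ha u)).sub_const (F Z)).div_const (Z.im * deriv F Z)
    refine h1.congr_deriv ?_
    field_simp
  have hb : (0 : ℂ) ∈ Metric.ball (0 : ℂ) 1 := Metric.mem_ball_self one_pos
  have h := bieberbach (fun u hu => (hd u hu).differentiableAt.differentiableWithinAt)
    (fun u hu w hw e => by
      have h1 := hF.inj (hm u hu) (hm w hw)
        (sub_left_inj.1 ((div_left_inj' (mul_ne_zero hY hD)).1 e))
      exact mul_left_cancel₀ hY (add_left_cancel h1)) (by simp)
    (by rw [(hd 0 hb).deriv]; simp [hD])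
  have h4 : deriv (fun u : ℂ => (F (Z + Z.im * u) - F Z) / (Z.im * deriv F Z)) =ᶠ[𝓝 0]
      fun u => deriv F (Z + Z.im * u) / deriv F Z := by
    filter_upwards [Metric.ball_mem_nhds (0 : ℂ) one_pos] with u hu using (hd u hu).deriv
  have h5 := (((hF.diff.deriv ho).differentiableAt (ho.mem_nhds (hm 0 hb))).hasDerivAt.comp 0
    (ha 0)).div_const (deriv F Z)
  rw [h4.deriv_eq] at h
  erw [h5.deriv] at h
  rw [mul_zero, add_zero, norm_div, norm_mul, norm_real, Real.norm_of_nonneg hZ.le,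
    div_le_iff₀ (norm_pos_iff.2 hD), mul_comm] at h
  exact h

end Vale.Agent.P164
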