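import Vale.Agent.P164.Curve
import Vale.Agent.P164.Gauge

/-!
# P164 Lower

Mass distribution principle. Let `F ξ = bf w s (w s + ρ ξ)`; on `ball I (1 / 2)`,
`‖ξ - ξ'‖ ≤ L ‖F ξ - F ξ'‖` (`bf_colip`), `ρ |f'| ≤ Λ` (`norm_deriv_bf_le`) and `cr ≥ c₀ > 0` (`bf_colip` or
`bf_hasDerivAt`). Given a cover `U j` of `Γ = γ '' Icc s t` with small diameters and `η > 0`, choose `a j > 0`
small with `h (diam (U j) + 3 a j) ≤ h (diam (U j)) + η / 2 ^ j`; the open thickenings of `U j` by `a j` cover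
the compact set `Γ`; Lebesgue number `λ`; take `e` with `7 Λ e < λ`: `Generates.near_seg`, `ever_shs` show
that `F (supp m)` is covered by the thickenings; the preimage of each of them in `supp m` lies in a ball of
radius `L (diam (U j) + 3 a j)` around one of its points.
-/

open MeasureTheory ProbabilityTheory Set Filter Topology Complex Function
open scoped NNReal ENNReal ComplexConjugate

noncomputable section

namespace Vale.Agent.P164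

theorem Lower_small {h : ℝ → ℝ} (hh : IsGauge h) {d ε b : ℝ} (hd : 0 ≤ d) (hε : 0 < ε) (hb : 0 < b) :
    ∃ a, 0 < a ∧ a < b ∧ h (d + 3 * a) ≤ h d + ε := by
  obtain ⟨δ, hδ, h1⟩ := Metric.continuousWithinAt_iff.1 (hh.1 d hd) ε hε
  refine ⟨min (δ / 4) (b / 2), by positivity, (min_le_right _ _).trans_lt (by linarith), ?_⟩
  have h2 : 0 < min (δ / 4) (b / 2) := by positivity
  have h3 := min_le_left (δ / 4) (b / 2)
  have h4 := h1 (x := d + 3 * min (δ / 4) (b / 2)) (mem_Ici.2 (by linarith)) (by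
    rw [Real.dist_eq, abs_of_nonneg (by linarith)]; linarith)
  rw [Real.dist_eq] at h4
  linarith [(abs_lt.1 h4).2]

/-- the mass distribution principle -/
theorem Lower_abs {Γ D : Set ℂ} (hΓ : IsCompact Γ) {h : ℝ → ℝ} (hh : IsGauge h) {F : ℂ → ℂ}
    {L A c₁ r₁ : ℝ} (hL : 0 < L) (hA : 0 < A) (hc : 0 < c₁) (hr : 0 < r₁)
    (hF : ∀ ξ ∈ D, ∀ ξ' ∈ D, ‖ξ' - ξ‖ ≤ L * ‖F ξ' - F ξ‖)
    (hm : ∀ l, 0 < l → ∃ m : ℂ → ℝ≥0∞, (∀ z, m z ≠ 0 → z ∈ D ∧ ∃ y ∈ Γ, ‖F z - y‖ < l) ∧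
      ENNReal.ofReal c₁ ≤ ∫⁻ z, m z ∧ ∀ z, m z ≠ 0 → ∀ r, 0 < r → r < r₁ →
        ∫⁻ ξ in Metric.ball z (L * r), m ξ ≤ ENNReal.ofReal (A * h r)) : 0 < hausH h Γ := by
  obtain ⟨q, hq⟩ : ∃ q, q = ENNReal.ofReal (c₁ / (2 * A)) := ⟨_, rfl⟩
  have hq0 : 0 < q := by rw [hq]; exact ENNReal.ofReal_pos.2 (by positivity)
  refine hq0.trans_le ?_
  unfold hausH
  refine le_iSup₂_of_le (r₁ / 4) (by positivity) ?_
  refine le_iInf fun U => le_iInf fun hU => le_iInf fun hd => ?_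
  by_contra hlt
  rw [not_le] at hlt
  obtain ⟨ε, hε, hεs⟩ := ENNReal.exists_pos_sum_of_countable hq0.ne' ℕ
  have hd' : ∀ j, Metric.diam (U j) ≤ r₁ / 4 := fun j =>
    ENNReal.toReal_le_of_le_ofReal (by positivity) (hd j)
  choose a ha0 ha1 ha2 using fun j => Lower_small hh (Metric.diam_nonneg (s := U j))
    (NNReal.coe_pos.2 (hε j)) (show 0 < r₁ / 4 by positivity)
  obtain ⟨l, hl, hleb⟩ := lebesgue_number_lemma_of_metric hΓ
    (c := fun j => Metric.thickening (a j) (U j)) (fun j => Metric.isOpen_thickening)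
    (hU.trans (iUnion_mono fun j => Metric.self_subset_thickening (ha0 j) _))
  obtain ⟨m, hm1, hm2, hm3⟩ := hm l hl
  have hB : ∀ j, ∃ B : Set ℂ, (∀ z, m z ≠ 0 → F z ∈ Metric.thickening (a j) (U j) → z ∈ B) ∧
      ∫⁻ ξ in B, m ξ ≤ ENNReal.ofReal (A * h (Metric.diam (U j) + 3 * a j)) := by
    intro j
    by_cases hex : ∃ z, m z ≠ 0 ∧ F z ∈ Metric.thickening (a j) (U j)
    · obtain ⟨z, hz, hz'⟩ := hex
      have h0 := Metric.diam_nonneg (s := U j)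
      refine ⟨_, fun z' h1 h2 => ?_, hm3 z hz _ (by linarith [ha0 j]) (by linarith [ha1 j, hd' j])⟩
      obtain ⟨y, hy, hy'⟩ := Metric.mem_thickening_iff.1 hz'
      obtain ⟨y', hy1, hy1'⟩ := Metric.mem_thickening_iff.1 h2
      have h3 : dist y' y ≤ Metric.diam (U j) :=
        Metric.dist_le_diam_of_mem' (ne_top_of_le_ne_top ENNReal.ofReal_ne_top (hd j)) hy1 hy
      have h4 : dist (F z') (F z) < Metric.diam (U j) + 3 * a j := by
        have h5 := dist_triangle4 (F z') y' y (F z)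
        rw [dist_comm y (F z)] at h5
        linarith [ha0 j]
      rw [Metric.mem_ball, dist_eq_norm]
      rw [dist_eq_norm] at h4
      exact (hF z (hm1 z hz).1 z' (hm1 z' h1).1).trans_lt (mul_lt_mul_of_pos_left h4 hL)
    · exact ⟨∅, fun z h1 h2 => (hex ⟨z, h1, h2⟩).elim, by simp⟩
  choose B hB1 hB2 using hB
  have hsup : m.support ⊆ ⋃ j, B j := by
    intro z hz
    obtain ⟨-, y, hy, hy'⟩ := hm1 z hz
    obtain ⟨j, hj⟩ := hleb y hy
    exact mem_iUnion.2 ⟨j, hB1 j z hz (hj (by rwa [Metric.mem_ball, dist_eq_norm]))⟩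
  have hterm : ∀ j, ∫⁻ ξ in B j, m ξ ≤
      ENNReal.ofReal A * (ENNReal.ofReal (h (Metric.diam (U j))) + ε j) := by
    intro j
    refine (hB2 j).trans ?_
    rw [ENNReal.ofReal_mul hA.le]
    refine mul_le_mul_right ((ENNReal.ofReal_le_ofReal (ha2 j)).trans ?_) _
    refine ENNReal.ofReal_add_le.trans (le_of_eq ?_)
    rw [ENNReal.ofReal_coe_nnreal]
  have h1 : ENNReal.ofReal c₁ ≤ ENNReal.ofReal A *
      (∑' j, ENNReal.ofReal (h (Metric.diam (U j))) + ∑' j, (ε j : ℝ≥0∞)) := by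
    rw [← ENNReal.tsum_add, ← ENNReal.tsum_mul_left]
    refine hm2.trans ?_
    rw [← setLIntegral_eq_of_support_subset hsup]
    exact (lintegral_iUnion_le _ _).trans (ENNReal.tsum_le_tsum hterm)
  have h2 : ENNReal.ofReal A * (q + q) = ENNReal.ofReal c₁ := by
    rw [hq, ← ENNReal.ofReal_add (by positivity) (by positivity), ← ENNReal.ofReal_mul hA.le]
    congr 1
    field_simp
    ring
  have h3 := ENNReal.mul_lt_mul_right (ENNReal.ofReal_pos.2 hA).ne' ENNReal.ofReal_ne_top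
    (ENNReal.add_lt_add hlt hεs)
  rw [h2] at h3
  exact absurd h1 (not_le.2 h3)

theorem Lower_gauge {κ : ℝ} (h8 : κ < 8) {h : ℝ → ℝ} {c L r₀ : ℝ} (C : ℝ) (hc : 0 < c) (hL : 0 < L)
    (hr : 0 < r₀) (hl : ∀ᶠ r in 𝓝[>] (0 : ℝ), c * gaugeFn κ r ≤ h r) :
    ∃ A r₁, 0 < A ∧ 0 < r₁ ∧ ∀ r, 0 < r → r < r₁ →
      L * r ≤ r₀ ∧ C * gaugeFn κ (L * r) ≤ A * h r := by
  obtain ⟨C₂, hC₂, h1⟩ := gaugeFn_mul h8 hL
  have ht : Tendsto (fun r : ℝ => L * r) (𝓝[>] 0) (𝓝[>] 0) := by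
    refine tendsto_nhdsWithin_iff.2 ⟨?_, ?_⟩
    · have h2 : Tendsto (fun r : ℝ => L * r) (𝓝 0) (𝓝 (L * 0)) :=
        (continuous_const.mul continuous_id).tendsto 0
      rw [mul_zero] at h2
      exact h2.mono_left nhdsWithin_le_nhds
    · filter_upwards [self_mem_nhdsWithin] with r hr using mul_pos hL hr
  have h2 := ht.eventually (gaugeFn_pos κ)
  have h3 := ht.eventually (Ioc_mem_nhdsGT hr)
  obtain ⟨r₁, hr₁, h4⟩ := (mem_nhdsGT_iff_exists_Ioo_subset).1 ((h1.and h2).and (h3.and hl))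
  have hM : 0 < max C 1 := lt_max_of_lt_right one_pos
  refine ⟨max C 1 * C₂ / c, r₁, by positivity, hr₁, fun r h5 h6 => ?_⟩
  obtain ⟨⟨e1, e2⟩, e3, e4⟩ := h4 ⟨h5, h6⟩
  refine ⟨e3.2, ?_⟩
  calc C * gaugeFn κ (L * r) ≤ max C 1 * gaugeFn κ (L * r) :=
        mul_le_mul_of_nonneg_right (le_max_left _ _) e2.le
    _ ≤ max C 1 * (C₂ * gaugeFn κ r) := mul_le_mul_of_nonneg_left e1 hM.le
    _ = max C 1 * C₂ / c * (c * gaugeFn κ r) := by field_simp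
    _ ≤ max C 1 * C₂ / c * h r := mul_le_mul_of_nonneg_left e4 (by positivity)

theorem Lower_im {ξ : ℂ} (hξ : ξ ∈ Metric.ball I (1 / 2)) (x : ℝ) {ρ : ℝ} (hρ : 0 < ρ) :
    ρ / 2 ≤ ((x : ℂ) + ρ * ξ).im ∧ ‖((x : ℂ) + ρ * ξ) - (x + ρ * I)‖ ≤ ρ / 2 := by
  rw [Metric.mem_ball, dist_eq_norm] at hξ
  have h1 := (abs_le.1 ((Complex.abs_im_le_norm (ξ - I)).trans hξ.le)).1
  simp only [sub_im, I_im] at h1
  refine ⟨?_, ?_⟩
  · simp only [add_im, ofReal_im, mul_im, ofReal_re, zero_mul, add_zero, zero_add]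
    nlinarith
  · have h2 : ((x : ℂ) + ρ * ξ) - (x + ρ * I) = ρ * (ξ - I) := by ring
    rw [h2, norm_mul, Complex.norm_real, Real.norm_eq_abs, abs_of_pos hρ]
    nlinarith

theorem Lower_deriv {F : ℂ → ℂ} (hF : Univ F) (x : ℝ) {ρ : ℝ} (hρ : 0 < ρ) :
    ∃ lo hi : ℝ, 0 < lo ∧ 0 < hi ∧ ∀ ξ ∈ Metric.ball I (1 / 2),
      lo ≤ ‖deriv F (x + ρ * ξ)‖ ∧ ‖deriv F (x + ρ * ξ)‖ ≤ hi := by
  have h0 := (Lower_im (Metric.mem_ball_self (by norm_num)) x hρ).1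
  have hD : 0 < ‖deriv F (x + ρ * I)‖ :=
    norm_pos_iff.2 (hF.ne _ (lt_of_lt_of_le (by positivity) h0))
  refine ⟨‖deriv F (x + ρ * I)‖ / Real.exp 4, ‖deriv F (x + ρ * I)‖ * Real.exp 4, by positivity,
    by positivity, fun ξ hξ => ?_⟩
  obtain ⟨h1, h2⟩ := Lower_im hξ x hρ
  have h3 : Real.exp (4 * ‖((x : ℂ) + ρ * ξ) - (x + ρ * I)‖ / (ρ / 2)) ≤ Real.exp 4 := by
    refine Real.exp_le_exp.2 ?_
    rw [div_le_iff₀ (by positivity)]
    linarith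
  refine ⟨?_, (hF.deriv_le (by positivity) h0 h1).trans (mul_le_mul_of_nonneg_left h3 hD.le)⟩
  rw [div_le_iff₀ (Real.exp_pos 4)]
  refine (hF.deriv_le (by positivity) h1 h0).trans ?_
  rw [norm_sub_rev]
  exact mul_le_mul_of_nonneg_left h3 (norm_nonneg _)

theorem lower_det {κ : ℝ} (h8 : κ < 8) {γ : ℝ≥0 → ℂ} {W : ℝ≥0 → ℝ} (hG : Generates γ W)
    (hW : Continuous W) {w' : ℝ → ℝ} (hw' : Continuous w') {s t : ℝ≥0} {ρ T : ℝ} (hρ : 0 < ρ)
    (hS : ShS s ρ T (fun u => W u.toNNReal) w') (ht : s + ρ ^ 2 * T ≤ t) (hF : Frost κ w' T)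
    {h : ℝ → ℝ} (hh : IsGauge h) {c : ℝ} (hc : 0 < c)
    (hl : ∀ᶠ r in 𝓝[>] (0 : ℝ), c * gaugeFn κ r ≤ h r) : 0 < hausH h (γ '' Icc s t) := by
  obtain ⟨w, hwe⟩ : ∃ w : ℝ → ℝ, w = fun u => W u.toNNReal := ⟨_, rfl⟩
  have hw : Continuous w := by rw [hwe]; exact hW.comp continuous_real_toNNReal
  have hns : ∀ {ζ : ℂ} {e : ℝ}, 0 < ζ.im → bf w s ζ ∈ Ever w t e → 700 * e ≤ cr w s ζ →
      ∃ u ∈ Icc s t, ‖bf w s ζ - γ u‖ ≤ 7 * e := by
    rw [hwe]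
    exact fun h1 h2 h3 => hG.near_seg hW h1 h2 h3
  rw [← hwe] at hS
  obtain ⟨c₁, C, r₀, hc₁, hr₀, hm⟩ := hF
  obtain ⟨lo, hi, hlo, hhi, hD⟩ := Lower_deriv (bf_univ hw s.2) (w s) hρ
  obtain ⟨L, hLe⟩ : ∃ L, L = Real.exp (2 * s / (ρ / 2) ^ 2) / ρ := ⟨_, rfl⟩
  have hL : 0 < L := by rw [hLe]; positivity
  obtain ⟨A, r₁, hA, hr₁, hg⟩ := Lower_gauge h8 C hc hL hr₀ hl
  refine Lower_abs (D := Metric.ball I (1 / 2)) (F := fun ξ => bf w s (w s + ρ * ξ))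
    (isCompact_Icc.image hG.1) hh hL hA hc₁ hr₁ (fun ξ hξ ξ' hξ' => ?_) fun l hl0 => ?_
  · have h1 := bf_colip hw (by positivity) (Lower_im hξ (w s) hρ).1 (Lower_im hξ' (w s) hρ).1 s.2
    have h2 : ((w s : ℂ) + ρ * ξ') - (w s + ρ * ξ) = ρ * (ξ' - ξ) := by ring
    rw [h2, norm_mul, Complex.norm_real, Real.norm_eq_abs, abs_of_pos hρ] at h1
    refine le_trans (le_of_eq ?_) (mul_le_mul_of_nonneg_left h1 hL.le)
    have h3 : Real.exp (-2 * s / (ρ / 2) ^ 2) = (Real.exp (2 * s / (ρ / 2) ^ 2))⁻¹ := by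
      rw [← Real.exp_neg]; congr 1; ring
    have h4 := Real.exp_pos (2 * s / (ρ / 2) ^ 2)
    change _ = L * (ρ * ‖ξ' - ξ‖ * Real.exp (-2 * s / (ρ / 2) ^ 2))
    rw [h3, hLe]
    field_simp
  · obtain ⟨e, he0, he, m, -, hm1, hm2, hm3⟩ := hm (min (l / (7 * (ρ * hi))) (lo / (1400 * hi)))
      (by positivity)
    have he1 : 7 * (ρ * hi * e) < l := by
      have h1 := he.trans_le (min_le_left _ _)
      rw [lt_div_iff₀ (by positivity)] at h1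
      linarith
    have he2 : 700 * (ρ * hi * e) ≤ ρ / 2 * lo := by
      have h1 := he.trans_le (min_le_right _ _)
      rw [lt_div_iff₀ (by positivity)] at h1
      have h2 := mul_le_mul_of_nonneg_left h1.le hρ.le
      linarith
    refine ⟨m, fun z hz => ⟨(hm1 z hz).1, ?_⟩, hm2, fun z hz r h1 h2 => ?_⟩
    · obtain ⟨hz1, hz2⟩ := hm1 z hz
      have h1 := (Lower_im hz1 (w s) hρ).1
      have h2 := ever_mono ht le_rfl
        (ever_shs hw hw' s.2 hρ hS hz2 (mul_le_mul_of_nonneg_left (hD z hz1).2 hρ.le))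
      obtain ⟨u, hu, hu'⟩ := hns (lt_of_lt_of_le (by positivity) h1) h2
        (he2.trans (mul_le_mul h1 (hD z hz1).1 hlo.le (le_trans (by positivity) h1)))
      exact ⟨γ u, mem_image_of_mem _ hu, hu'.trans_lt he1⟩
    · exact (hm3 z hz _ (mul_pos hL h1) (hg r h1 h2).1).trans
        (ENNReal.ofReal_le_ofReal (hg r h1 h2).2)

end Vale.Agent.P164
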