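import Vale.Agent.P164.Cont
import Vale.Agent.P164.Gauge

/-!
# P164 LowerA

The probabilistic part of the lower bound. Let `D = ball I (1 / 400)`, `r j = (1 / 2) ^ j`,
`R j = √(log j)`, `λ j = C₀ (r j) ^ d (R j) ^ β`. A point `z ∈ D` is bad at scale `j` if
`mass (ball z (r j)) > λ j`. Then for every `x ∈ ball z (r j)`, `mass (ball x (2 r j)) > λ j`; averaging over `x`
and Tonelli give `E ∫ z bad at j, Pay ≤ (π r ^ 2)⁻¹ ∫ x, E [mass (ball x (2 r)); mass (ball x (2 r)) > λ]`,
bounded by `mass_tail` when `e ≤ 2 r / R`; when `e > 2 r / R` no point is bad (`mass_mem`).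
-/

open MeasureTheory ProbabilityTheory Set Filter Topology Complex Function
open scoped NNReal ENNReal ComplexConjugate

noncomputable section

namespace Vale.Agent.P164

variable {κ : ℝ}

theorem LowerA_im {x z : ℂ} {r : ℝ} (h : z ∈ Metric.ball x r) : x.im - r < z.im := by
  have h1 := (abs_im_le_norm (z - x)).trans_lt (mem_ball_iff_norm.1 h)
  rw [sub_im, abs_lt] at h1
  linarith [h1.1]

theorem LowerA_int (h0 : 0 < κ) (h8 : κ < 8) {η e T r : ℝ} (hη : 0 < η) (he : 0 < e) (hT : 0 ≤ T)
    (w : Path) {x : ℂ} (hx : r ≤ x.im) : IntegrableOn (Pay κ η e (pf w) T) (Metric.ball x r) ∧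
      0 ≤ᵐ[volume.restrict (Metric.ball x r)] Pay κ η e (pf w) T := by
  have hm : Measurable fun z => Pay κ η e (pf w) T z :=
    measurable_Pay κ e measurable_const measurable_const measurable_const measurable_id
  have hz : ∀ z ∈ Metric.ball x r, 0 < z.im := fun z hz => by linarith [LowerA_im hz]
  refine ⟨Measure.integrableOn_of_bounded (M := e ^ (-be κ)) measure_ball_lt_top.ne
    hm.aestronglyMeasurable ?_, ?_⟩
  · refine ae_restrict_of_forall_mem measurableSet_ball fun z h => ?_
    rw [Real.norm_of_nonneg (Pay_nonneg κ he hη (continuous_pf w) (hz z h) hT)]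
    exact Pay_le h0 h8 he hη (continuous_pf w) (hz z h) hT
  · exact ae_restrict_of_forall_mem measurableSet_ball fun z h =>
      Pay_nonneg κ he hη (continuous_pf w) (hz z h) hT

/-- averaging over the centres -/
theorem LowerA_avg {P : ℂ → ℝ≥0∞} (hP : Measurable P) {S E : Set ℂ} (hE : MeasurableSet E) {r : ℝ}
    (h : ∀ z ∈ S, Metric.ball z r ⊆ E) :
    ENNReal.ofReal r ^ 2 * ∫⁻ z in S, P z ≤ ∫⁻ x in E, ∫⁻ z in Metric.ball x (2 * r), P z := by
  have hm : MeasurableSet {q : ℂ × ℂ | q.2 ∈ E ∧ q.1 ∈ Metric.ball q.2 (2 * r)} :=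
    (measurable_snd hE).inter (measurableSet_lt (by fun_prop) measurable_const)
  have hG := (hP.comp measurable_fst).indicator hm
  rw [← lintegral_const_mul _ hP]
  refine (setLIntegral_mono (hG.lintegral_prod_right' (ν := volume)) fun z hz => ?_).trans
    ((setLIntegral_le_lintegral _ _).trans (le_of_eq ?_))
  · calc ENNReal.ofReal r ^ 2 * P z ≤ ∫⁻ _ in Metric.ball z r, P z := by
          rw [setLIntegral_const, Complex.volume_ball, mul_comm]
          gcongr
          refine le_mul_of_one_le_right' ?_
          exact_mod_cast (show (1 : ℝ) ≤ Real.pi by linarith [Real.two_le_pi])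
      _ ≤ _ := by
          rw [← lintegral_indicator measurableSet_ball]
          refine lintegral_mono fun x => indicator_apply_le' (fun hx => le_of_eq ?_) fun _ => zero_le
          have h1 : dist x z < r := hx
          have h2 : z ∈ Metric.ball x (2 * r) := by
            rw [Metric.mem_ball, dist_comm]; linarith [dist_nonneg (x := x) (y := z)]
          simp [indicator, h z hz hx, Metric.mem_ball.1 h2]
  · refine (lintegral_lintegral_swap (by exact hG.aemeasurable)).trans ?_
    rw [← lintegral_indicator hE]
    refine lintegral_congr fun x => ?_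
    by_cases hx : x ∈ E
    · rw [indicator_of_mem hx, ← lintegral_indicator measurableSet_ball]
      refine lintegral_congr fun z => ?_
      simp [indicator, hx]
    · simp [indicator, hx]

theorem bad_scale (h0 : 0 < κ) (h8 : κ < 8) : ∃ C₀ C : ℝ, 0 < C₀ ∧ 0 < C ∧
    ∀ (μ : Measure Path) (η e T r R : ℝ), IsW κ μ → 0 < η → η ≤ e → 0 < T → 0 < r → r ≤ 1 / 2000 →
    1 ≤ R → ∫⁻ w, (∫⁻ z in Metric.ball I (1 / 400) ∩
        {z | C₀ * r ^ dd κ * R ^ be κ < mass κ η e (pf w) T (Metric.ball z r)},
        ENNReal.ofReal (Pay κ η e (pf w) T z)) ∂μ ≤ ENNReal.ofReal (C * Real.exp (-2 * R ^ 2)) := by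
  obtain ⟨C₁, C₂, p1, p2, hC⟩ := mass_tail h0 h8
  have b0 := be_pos h8
  have b1 := be_lt_one h0
  have q1 : 0 < C₁ * 2 ^ dd κ := by positivity
  refine ⟨C₁ * 2 ^ dd κ + Real.pi, 8 * C₂, by positivity, by positivity,
    fun μ η e T r R hμ hη hηe hT hr hr1 hR => ?_⟩
  have he := hη.trans_le hηe
  have R0 : 0 < R := by linarith
  have q2 : 0 < r ^ dd κ * R ^ be κ := by positivity
  rcases lt_or_ge (2 * r / R) e with hc | hc
  · refine le_trans (le_of_eq ?_) zero_le
    refine (lintegral_congr fun w => ?_).trans lintegral_zero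
    rw [Set.eq_empty_of_forall_notMem (s := _ ∩ _), Measure.restrict_empty, lintegral_zero_measure]
    rintro z ⟨hz, hb⟩
    have h1 := LowerA_im hz
    rw [I_im] at h1
    have h2 := (mass_mem h0 h8 hη he hT.le (continuous_pf w) hr.le (x := z) (by linarith)).2
    have h3 : e ^ (-be κ) ≤ (r / R) ^ (-be κ) :=
      Real.rpow_le_rpow_of_nonpos (by positivity)
        ((div_le_div_of_nonneg_right (by linarith) R0.le).trans hc.le) (by linarith)
    have h4 : r ^ 2 * (r / R) ^ (-be κ) = r ^ dd κ * R ^ be κ := by
      rw [Real.div_rpow hr.le R0.le, Real.rpow_neg R0.le, div_inv_eq_mul, ← mul_assoc,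
        ← Real.rpow_natCast, ← Real.rpow_add hr, show ((2 : ℕ) : ℝ) + -be κ = dd κ by
          push_cast; linarith [dd_add_be κ]]
    have h5 := mul_le_mul_of_nonneg_left h3 (show 0 ≤ Real.pi * r ^ 2 by positivity)
    rw [mul_assoc Real.pi _ ((r / R) ^ _), h4] at h5
    have h6 : (C₁ * 2 ^ dd κ + Real.pi) * r ^ dd κ * R ^ be κ < _ := hb
    linarith [mul_pos q1 q2]
  have := hμ.prob
  set lam := C₁ * (2 * r) ^ dd κ * R ^ be κ with hlam
  have hx : ∀ x ∈ Metric.ball I (1 / 2), 1 / 2 < x.im := fun x hx => by
    have := LowerA_im hx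
    rw [I_im] at this
    linarith
  have hM : Measurable fun q : Path × ℂ => mass κ η e (pf q.1) T (Metric.ball q.2 (2 * r)) :=
    measurable_mass κ η e T measurable_fst measurable_snd _
  have hS := measurableSet_lt (measurable_const (a := lam)) hM
  have hH := hM.ennreal_ofReal.indicator hS
  refine (ENNReal.mul_le_mul_iff_right (a := ENNReal.ofReal r ^ 2) (by simpa using hr)
    (by finiteness)).1 ?_
  rw [← lintegral_const_mul' _ _ (by finiteness)]
  calc _ ≤ ∫⁻ w, (∫⁻ x in Metric.ball I (1 / 2), {q : Path × ℂ | lam <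
          mass κ η e (pf q.1) T (Metric.ball q.2 (2 * r))}.indicator (fun q => ENNReal.ofReal
            (mass κ η e (pf q.1) T (Metric.ball q.2 (2 * r)))) (w, x)) ∂μ := by
        refine lintegral_mono fun w => ?_
        have hE : MeasurableSet {x | lam < mass κ η e (pf w) T (Metric.ball x (2 * r))} :=
          measurable_prodMk_left hS
        refine (LowerA_avg (measurable_Pay κ e measurable_const measurable_const measurable_const
          measurable_id).ennreal_ofReal (hE.inter (s₂ := Metric.ball I (1 / 2)) measurableSet_ball)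
          fun z hz x hxz => ?_).trans (le_of_eq ?_)
        · have h1 : x ∈ Metric.ball I (1 / 2) := by
            have := dist_triangle x z I
            rw [Metric.mem_ball] at hxz ⊢
            linarith [Metric.mem_ball.1 hz.1]
          refine ⟨?_, h1⟩
          obtain ⟨i1, i2⟩ := LowerA_int h0 h8 hη he hT.le w (x := x) (r := 2 * r)
            (by linarith [hx x h1])
          have h2 : mass κ η e (pf w) T (Metric.ball z r) ≤
              mass κ η e (pf w) T (Metric.ball x (2 * r)) :=
            setIntegral_mono_set i1 i2 (Eventually.of_forall (Metric.ball_subset (by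
              rw [dist_comm]; linarith [Metric.mem_ball.1 hxz])))
          have h6 : (C₁ * 2 ^ dd κ + Real.pi) * r ^ dd κ * R ^ be κ < _ := hz.2
          change lam < _
          rw [hlam, Real.mul_rpow zero_le_two hr.le]
          linarith [mul_pos Real.pi_pos q2]
        · rw [← Measure.restrict_restrict hE, ← lintegral_indicator hE]
          refine setLIntegral_congr_fun measurableSet_ball fun x h1 => ?_
          obtain ⟨i1, i2⟩ := LowerA_int h0 h8 hη he hT.le w (x := x) (r := 2 * r)
            (by linarith [hx x h1])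
          simp only [indicator, mem_setOf_eq, id, ← ofReal_integral_eq_lintegral_ofReal i1 i2]
          rfl
    _ ≤ ∫⁻ _ in Metric.ball I (1 / 2),
          ENNReal.ofReal (r ^ 2 * (8 * C₂ * Real.exp (-2 * R ^ 2))) := by
        refine (lintegral_lintegral_swap (by exact hH.aemeasurable)).trans_le
          (setLIntegral_mono measurable_const fun x h1 => ?_)
        have h2 := hx x h1
        have hm : Measurable fun w : Path => mass κ η e (pf w) T (Metric.ball x (2 * r)) :=
          hM.comp measurable_prodMk_right
        have hb := fun w : Path => mass_mem h0 h8 hη he hT.le (continuous_pf w) (r := 2 * r)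
          (x := x) (by linarith) (by linarith)
        have hi : Integrable (fun w : Path => mass κ η e (pf w) T (Metric.ball x (2 * r))) μ :=
          Integrable.of_bound hm.aestronglyMeasurable _ (Eventually.of_forall fun w => by
            rw [Real.norm_of_nonneg (hb w).1]; exact (hb w).2)
        have h3 := hC μ η e T (2 * r) R x hμ hη (hηe.trans hc) he hc hT hR (by linarith)
        have h4 : x.im ^ (-be κ) ≤ 2 := by
          refine (Real.rpow_le_rpow_of_nonpos (by norm_num) h2.le (by linarith)).trans ?_
          rw [Real.rpow_neg (by norm_num), ← Real.inv_rpow (by norm_num)]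
          exact (Real.rpow_le_self_of_one_le (by norm_num) b1.le).trans (by norm_num)
        refine le_trans (le_of_eq ?_) (ENNReal.ofReal_le_ofReal (h3.trans ?_))
        · rw [ofReal_integral_eq_lintegral_ofReal hi.integrableOn
            (Eventually.of_forall fun w => (hb w).1),
            ← lintegral_indicator (measurableSet_lt measurable_const hm)]
          rfl
        · refine le_trans (b := C₂ * (2 * r) ^ 2 * 2 * Real.exp (-2 * R ^ 2)) (by gcongr) ?_
          exact le_of_eq (by ring)
    _ ≤ _ := by
        rw [setLIntegral_const, ENNReal.ofReal_mul (sq_nonneg _), ENNReal.ofReal_pow hr.le]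
        refine mul_le_of_le_one_right' ?_
        rw [Complex.volume_ball, ← ENNReal.ofReal_pow (by norm_num), ← ENNReal.ofReal_coe_nnreal,
          ← ENNReal.ofReal_mul (by norm_num), ENNReal.ofReal_le_one, NNReal.coe_real_pi]
        linarith [Real.pi_le_four]

end Vale.Agent.P164
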