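import Vale.Agent.P164.Cont
import Vale.Agent.P164.Gauge
import Vale.Agent.P164.LowerA

/-!
# P164 LowerB

The probabilistic part of the lower bound. Let `D = ball I (1 / 400)`, `r j = (1 / 2) ^ j`,
`R j = √(log j)`, `λ j = C₀ (r j) ^ d (R j) ^ β`. A point `z ∈ D` is bad at scale `j` if
`mass (ball z (r j)) > λ j`. Then for every `x ∈ ball z (r j)`, `mass (ball x (2 r j)) > λ j`; averaging over `x`
and Tonelli give `E ∫ z bad at j, Pay ≤ (π r ^ 2)⁻¹ ∫ x, E [mass (ball x (2 r)); mass (ball x (2 r)) > λ]`,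
bounded by `mass_tail` when `e ≤ 2 r / R`; when `e > 2 r / R` no point is bad (`mass_mem`).
-/

open MeasureTheory ProbabilityTheory Set Filter Topology Complex Function
open scoped NNReal ENNReal ComplexConjugate

noncomputable section

namespace Vale.Agent.P164

variable {κ : ℝ}

theorem LowerB_meas {A : Set (Path × ℂ)} (hA : MeasurableSet A) {f : Path × ℂ → ℝ≥0∞}
    (hf : Measurable f) : Measurable fun w => ∫⁻ z in {z | (w, z) ∈ A}, f (w, z) := by
  have : (fun w => ∫⁻ z in {z | (w, z) ∈ A}, f (w, z)) =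
      fun w => ∫⁻ z, A.indicator f (w, z) := by
    funext w
    exact (lintegral_indicator (measurable_prodMk_left hA) fun z => f (w, z)).symm
  rw [this]
  exact (hf.indicator hA).lintegral_prod_right'

theorem LowerB_tail {C c : ℝ} (hC : 0 < C) (hc : 0 < c) : ∃ j₀ : ℕ, 11 ≤ j₀ ∧
    ∑' k : ℕ, ENNReal.ofReal (C * (1 / ((k + j₀ : ℕ) : ℝ) ^ 2)) ≤ ENNReal.ofReal c := by
  have hs : Summable fun n : ℕ => C * (1 / (n : ℝ) ^ 2) :=
    (Real.summable_one_div_nat_pow.2 one_lt_two).mul_left C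
  have h := ENNReal.tendsto_sum_nat_add (fun n : ℕ => ENNReal.ofReal (C * (1 / (n : ℝ) ^ 2))) (by
    rw [← ENNReal.ofReal_tsum_of_nonneg (fun n => by positivity) hs]
    exact ENNReal.ofReal_ne_top)
  obtain ⟨j, h1, h2⟩ := ((eventually_ge_atTop 11).and
    (h.eventually (ge_mem_nhds (ENNReal.ofReal_pos.2 hc)))).exists
  exact ⟨j, h1, h2⟩

theorem LowerB_scale {j : ℕ} (hj : 11 ≤ j) : (1 / 2 : ℝ) ^ j ≤ 1 / 2000 ∧ 1 ≤ √(Real.log j) ∧
    Real.exp (-2 * √(Real.log j) ^ 2) = 1 / (j : ℝ) ^ 2 := by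
  have h1 : (11 : ℝ) ≤ j := by exact_mod_cast hj
  have h2 : 1 ≤ Real.log j := by
    rw [Real.le_log_iff_exp_le (by linarith)]
    linarith [Real.exp_one_lt_d9]
  refine ⟨(pow_le_pow_of_le_one (by norm_num) (by norm_num) hj).trans (by norm_num),
    Real.one_le_sqrt.2 h2, ?_⟩
  rw [Real.sq_sqrt (by linarith), neg_mul, Real.exp_neg, one_div, two_mul, Real.exp_add,
    Real.exp_log (by linarith), sq]

theorem LowerB_mass (h0 : 0 < κ) (h8 : κ < 8) {η e T : ℝ} (hη : 0 < η) (he : 0 < e) (hT : 0 ≤ T)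
    (w : Path) : ENNReal.ofReal (mass κ η e (pf w) T (Metric.ball I (1 / 400))) =
      ∫⁻ z in Metric.ball I (1 / 400), ENNReal.ofReal (Pay κ η e (pf w) T z) := by
  have him : ∀ z ∈ Metric.ball I (1 / 400), 0 < z.im := fun z hz => by
    have h1 := (Complex.abs_im_le_norm (z - I)).trans_lt (mem_ball_iff_norm.1 hz)
    simp only [sub_im, I_im] at h1
    linarith [(abs_lt.1 h1).1]
  have hm : Measurable fun z => Pay κ η e (pf w) T z :=
    measurable_Pay κ e measurable_const measurable_const measurable_const measurable_id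
  have hp := fun z hz => Pay_nonneg κ he hη (continuous_pf w) (him z hz) hT
  refine ofReal_integral_eq_lintegral_ofReal ?_
    ((ae_restrict_mem Metric.isOpen_ball.measurableSet).mono hp)
  refine Measure.integrableOn_of_bounded (M := e ^ (-be κ)) measure_ball_lt_top.ne
    hm.aestronglyMeasurable ((ae_restrict_mem Metric.isOpen_ball.measurableSet).mono fun z hz => ?_)
  rw [Real.norm_of_nonneg (hp z hz)]
  exact Pay_le h0 h8 he hη (continuous_pf w) (him z hz) hT

/-- `X w = ∫ z in good points, Pay`; `E X ≥ c - C ∑ j ≥ j₀, j ^ (-2) ≥ c / 2`, `X ≤ mass D`, `paley` -/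
theorem good_mass (h0 : 0 < κ) (h8 : κ < 8) : ∃ T c p C₀ : ℝ, ∃ j₀ : ℕ, 0 < T ∧ 0 < c ∧ 0 < p ∧
    0 < C₀ ∧ 11 ≤ j₀ ∧ ∀ e : ℝ, 0 < e → e ≤ 1 / 400 → ∃ η : ℝ, 0 < η ∧ ∃ S : Set Path,
      DetS (fun _ => T) S ∧ (∀ μ : Measure Path, IsW κ μ → p ≤ μ.real S) ∧ ∀ w ∈ S,
      ENNReal.ofReal c ≤ ∫⁻ z in Metric.ball I (1 / 400) ∩ {z | ∀ j ≥ j₀,
        mass κ η e (pf w) T (Metric.ball z ((1 / 2) ^ j))
          ≤ C₀ * ((1 / 2 : ℝ) ^ j) ^ dd κ * √(Real.log j) ^ be κ},
        ENNReal.ofReal (Pay κ η e (pf w) T z) := by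
  obtain ⟨T, c, hT, hc, hfirst⟩ := mass_first h0 h8
  obtain ⟨C₀, C, hC₀, hC, hbad⟩ := bad_scale h0 h8
  obtain ⟨C₂, hC₂, hsq⟩ := mass_sq h0 h8
  obtain ⟨j₀, hj₀, htail⟩ := LowerB_tail hC (half_pos hc)
  refine ⟨T, c / 2 / 2, (c / 2) ^ 2 / (4 * C₂), C₀, j₀, hT, by positivity, by positivity, hC₀, hj₀,
    fun e he he1 => ?_⟩
  obtain ⟨η, hη, hηe, hf⟩ := hfirst e he he1
  set D : Set ℂ := Metric.ball I (1 / 400) with hD
  set lam : ℕ → ℝ := fun j => C₀ * ((1 / 2 : ℝ) ^ j) ^ dd κ * √(Real.log j) ^ be κ with hlam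
  set ms : ℕ → Path → ℂ → ℝ := fun j w z => mass κ η e (pf w) T (Metric.ball z ((1 / 2) ^ j))
    with hms
  set m : Path → ℂ → ℝ≥0∞ := fun w z => ENNReal.ofReal (Pay κ η e (pf w) T z) with hm
  set Y : Path → ℝ≥0∞ := fun w => ∫⁻ z in D ∩ {z | ∀ j ≥ j₀, ms j w z ≤ lam j}, m w z with hY
  set B : ℕ → Path → ℝ≥0∞ := fun j w => ∫⁻ z in D ∩ {z | lam j < ms j w z}, m w z with hB
  set M : Path → ℝ := fun w => mass κ η e (pf w) T D with hM
  have mm : Measurable fun q : Path × ℂ => m q.1 q.2 :=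
    (measurable_Pay κ e measurable_const measurable_fst measurable_const
      measurable_snd).ennreal_ofReal
  have mms : ∀ j, Measurable fun q : Path × ℂ => ms j q.1 q.2 := fun j =>
    measurable_mass κ η e T measurable_fst measurable_snd _
  have mD : MeasurableSet {q : Path × ℂ | q.2 ∈ D} :=
    measurable_snd Metric.isOpen_ball.measurableSet
  have mY : Measurable Y := by
    refine LowerB_meas (A := {q | q.2 ∈ D} ∩ {q | ∀ j ≥ j₀, ms j q.1 q.2 ≤ lam j}) (mD.inter ?_) mm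
    simp only [ofPred_forall]
    exact MeasurableSet.iInter fun j => MeasurableSet.iInter fun _ =>
      measurableSet_le (mms j) measurable_const
  have mB : ∀ j, Measurable (B j) := fun j =>
    LowerB_meas (A := {q | q.2 ∈ D} ∩ {q | lam j < ms j q.1 q.2})
      (mD.inter (measurableSet_lt measurable_const (mms j))) mm
  have mM : Measurable M := measurable_mass κ η e T measurable_id measurable_const _
  have bM : ∀ w, 0 ≤ M w ∧ M w ≤ Real.pi * (1 / 400) ^ 2 * e ^ (-be κ) := fun w =>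
    mass_mem h0 h8 hη he hT.le (continuous_pf w) (by norm_num) (by norm_num)
  have eM : ∀ w, ENNReal.ofReal (M w) = ∫⁻ z in D, m w z := LowerB_mass h0 h8 hη he hT.le
  have YM : ∀ w, Y w ≤ ENNReal.ofReal (M w) := fun w => by
    rw [eM]; exact lintegral_mono_set inter_subset_left
  have XM : ∀ w, (Y w).toReal ≤ M w := fun w => ENNReal.toReal_le_of_le_ofReal (bM w).1 (YM w)
  have cover : ∀ w, ENNReal.ofReal (M w) ≤ Y w + ∑' k, B (k + j₀) w := fun w => by
    rw [eM]
    refine (lintegral_mono_set (t := (D ∩ {z | ∀ j ≥ j₀, ms j w z ≤ lam j}) ∪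
      ⋃ k, D ∩ {z | lam (k + j₀) < ms (k + j₀) w z}) fun z hz => ?_).trans
      ((lintegral_union_le _ _ _).trans (add_le_add_right (lintegral_iUnion_le _ _) _))
    by_cases h : ∀ j ≥ j₀, ms j w z ≤ lam j
    · exact .inl ⟨hz, h⟩
    · push Not at h
      obtain ⟨j, hj, h⟩ := h
      exact .inr (mem_iUnion.2 ⟨j - j₀, hz, by rwa [Nat.sub_add_cancel hj]⟩)
  refine ⟨η, hη, {w | c / 2 / 2 ≤ (Y w).toReal},
    ⟨measurableSet_le measurable_const mY.ennreal_toReal, fun w w' h hw => ?_⟩,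
    fun μ hμ => ?_, fun w hw => ENNReal.ofReal_le_of_le_toReal hw⟩
  · have e1 : Pay κ η e (pf w') T = Pay κ η e (pf w) T := funext fun z =>
      (Pay_congr κ e hη (continuous_pf w) (continuous_pf w') h z ⟨hT.le, le_rfl⟩).symm
    have e2 : Y w' = Y w := by simp only [hY, hms, hm, mass, e1]
    simpa only [mem_ofPred_eq, e2] using hw
  · have := hμ.prob
    have iM : Integrable M μ := Integrable.of_bound mM.aestronglyMeasurable _
      (.of_forall fun w => by rw [Real.norm_of_nonneg (bM w).1]; exact (bM w).2)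
    have h1 : ENNReal.ofReal c ≤ ∫⁻ w, Y w ∂μ + ENNReal.ofReal (c / 2) := by
      refine (ENNReal.ofReal_le_ofReal (hf μ hμ)).trans ?_
      rw [ofReal_integral_eq_lintegral_ofReal iM (.of_forall fun w => (bM w).1)]
      refine (lintegral_mono cover).trans ?_
      rw [lintegral_add_left mY, lintegral_tsum fun k => (mB _).aemeasurable]
      refine add_le_add_right ((ENNReal.tsum_le_tsum fun k => ?_).trans htail) _
      obtain ⟨s1, s2, s3⟩ := LowerB_scale (j := k + j₀) (by omega)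
      rw [← s3]
      exact hbad μ η e T _ _ hμ hη hηe hT (by positivity) s1 s2
    have h2 : ENNReal.ofReal (c / 2) ≤ ∫⁻ w, Y w ∂μ := by
      rw [← add_halves c, ENNReal.ofReal_add (half_pos hc).le (half_pos hc).le, add_halves c] at h1
      exact (ENNReal.add_le_add_iff_right ENNReal.ofReal_ne_top).1 h1
    have h3 : ∫⁻ w, Y w ∂μ ≠ ⊤ := by
      refine ne_top_of_le_ne_top ?_ (lintegral_mono YM)
      rw [← ofReal_integral_eq_lintegral_ofReal iM (.of_forall fun w => (bM w).1)]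
      exact ENNReal.ofReal_ne_top
    refine paley mY.ennreal_toReal (fun w => ⟨ENNReal.toReal_nonneg, (XM w).trans (bM w).2⟩)
      (half_pos hc) hC₂ ?_ ?_
    · rw [integral_toReal mY.aemeasurable
        (.of_forall fun w => (YM w).trans_lt ENNReal.ofReal_lt_top)]
      exact (ENNReal.ofReal_le_iff_le_toReal h3).1 h2
    · refine (integral_mono_of_nonneg (.of_forall fun w => sq_nonneg _) ?_
        (.of_forall fun w => pow_le_pow_left₀ ENNReal.toReal_nonneg (XM w) 2)).trans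
        (hsq μ η e T hμ hη (hηe.trans he1) he he1 hT)
      exact Integrable.of_bound (mM.pow_const 2).aestronglyMeasurable _ (.of_forall fun w => by
        rw [Real.norm_of_nonneg (sq_nonneg _)]
        exact pow_le_pow_left₀ (bM w).1 (bM w).2 2)

end Vale.Agent.P164
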