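import Vale.Agent.P164.Cont
import Vale.Agent.P164.Gauge
import Vale.Agent.P164.LowerA
import Vale.Agent.P164.LowerB

/-!
# P164 LowerP

The probabilistic part of the lower bound. Let `D = ball I (1 / 400)`, `r j = (1 / 2) ^ j`,
`R j = √(log j)`, `λ j = C₀ (r j) ^ d (R j) ^ β`. A point `z ∈ D` is bad at scale `j` if
`mass (ball z (r j)) > λ j`. Then for every `x ∈ ball z (r j)`, `mass (ball x (2 r j)) > λ j`; averaging over `x`
and Tonelli give `E ∫ z bad at j, Pay ≤ (π r ^ 2)⁻¹ ∫ x, E [mass (ball x (2 r)); mass (ball x (2 r)) > λ]`,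
bounded by `mass_tail` when `e ≤ 2 r / R`; when `e > 2 r / R` no point is bad (`mass_mem`).
-/

open MeasureTheory ProbabilityTheory Set Filter Topology Complex Function
open scoped NNReal ENNReal ComplexConjugate

noncomputable section

namespace Vale.Agent.P164

variable {κ : ℝ}

theorem LowerP_limsup {T p : ℝ} {S : ℕ → Set Path} (h1 : ∀ n, DetS (fun _ => T) (S n))
    (h2 : ∀ n, ∀ μ : Measure Path, IsW κ μ → p ≤ μ.real (S n)) :
    ∃ S' : Set Path, DetS (fun _ => T) S' ∧ (∀ μ : Measure Path, IsW κ μ → p ≤ μ.real S') ∧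
      ∀ w ∈ S', ∀ N, ∃ n, N ≤ n ∧ w ∈ S n := by
  have hm : ∀ N, MeasurableSet (⋃ n, ⋃ _ : N ≤ n, S n) := fun N =>
    MeasurableSet.iUnion fun n => MeasurableSet.iUnion fun _ => (h1 n).meas
  refine ⟨⋂ N, ⋃ n, ⋃ _ : N ≤ n, S n, ⟨MeasurableSet.iInter hm, fun w w' ha hw => ?_⟩,
    fun μ hμ => ?_, fun w hw N => ?_⟩
  · refine mem_iInter.2 fun N => ?_
    obtain ⟨n, hn, h⟩ := mem_iUnion₂.1 (mem_iInter.1 hw N)
    exact mem_iUnion₂.2 ⟨n, hn, (h1 n).mem w w' ha h⟩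
  · haveI := hμ.prob
    have ht := tendsto_measure_iInter_atTop (μ := μ) (fun N => (hm N).nullMeasurableSet)
      (fun N N' h w hw => by
        obtain ⟨n, hn, h'⟩ := mem_iUnion₂.1 hw
        exact mem_iUnion₂.2 ⟨n, h.trans hn, h'⟩) ⟨0, measure_ne_top _ _⟩
    refine (ENNReal.ofReal_le_iff_le_toReal (measure_ne_top _ _)).1 (ge_of_tendsto' ht fun N => ?_)
    exact ((ENNReal.ofReal_le_iff_le_toReal (measure_ne_top _ _)).2 (h2 N μ hμ)).trans
      (measure_mono fun w hw => mem_iUnion₂.2 ⟨N, le_rfl, hw⟩)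
  · obtain ⟨n, hn, h⟩ := mem_iUnion₂.1 (mem_iInter.1 hw N)
    exact ⟨n, hn, h⟩

theorem LowerP_im {z x : ℂ} {r : ℝ} (h : z ∈ Metric.ball x r) : x.im - r < z.im := by
  have h1 := (abs_le.1 (Complex.abs_im_le_norm (z - x))).1
  rw [mem_ball_iff_norm] at h
  rw [Complex.sub_im] at h1
  linarith

theorem LowerP_mass (h0 : 0 < κ) (h8 : κ < 8) {η e T r : ℝ} (hη : 0 < η) (he : 0 < e) (hT : 0 ≤ T)
    (w : Path) {x : ℂ} (hx : r ≤ x.im) :
    ∫⁻ z in Metric.ball x r, ENNReal.ofReal (Pay κ η e (pf w) T z) =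
      ENNReal.ofReal (mass κ η e (pf w) T (Metric.ball x r)) := by
  have hm : Measurable fun z : ℂ => Pay κ η e (pf w) T z :=
    measurable_Pay κ e measurable_const measurable_const measurable_const measurable_id
  have hp : ∀ z ∈ Metric.ball x r, 0 < z.im := fun z hz => by linarith [LowerP_im hz]
  refine (ofReal_integral_eq_lintegral_ofReal (Measure.integrableOn_of_bounded
    (M := e ^ (-be κ)) measure_ball_lt_top.ne hm.aestronglyMeasurable ?_) ?_).symm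
  · refine ae_restrict_of_forall_mem measurableSet_ball fun z hz => ?_
    rw [Real.norm_of_nonneg (Pay_nonneg κ he hη (continuous_pf w) (hp z hz) hT)]
    exact Pay_le h0 h8 he hη (continuous_pf w) (hp z hz) hT
  · exact ae_restrict_of_forall_mem measurableSet_ball fun z hz =>
      Pay_nonneg κ he hη (continuous_pf w) (hp z hz) hT

theorem LowerP_scale (h0 : 0 < κ) (h8 : κ < 8) (j₀ : ℕ) : ∃ C r₀ : ℝ, 0 < r₀ ∧ ∀ r, 0 < r → r ≤ r₀ →
    ∃ j, j₀ ≤ j ∧ r ≤ (1 / 2 : ℝ) ^ j ∧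
      ((1 / 2 : ℝ) ^ j) ^ dd κ * √(Real.log j) ^ be κ ≤ C * gaugeFn κ r := by
  obtain ⟨C1, hC1, hd⟩ := dyadic_le h8
  obtain ⟨j₁, hd⟩ := eventually_atTop.1 hd
  obtain ⟨C2, -, hg⟩ := gaugeFn_mul h8 two_pos
  obtain ⟨δ, hδ, hg⟩ := mem_nhdsGT_iff_exists_Ioc_subset.1 hg
  obtain ⟨r₁, hr₁, hmono⟩ := gaugeFn_mono h0 h8
  refine ⟨C1 * C2, min (min δ (r₁ / 2)) ((1 / 2) ^ max j₀ j₁),
    lt_min (lt_min hδ (by positivity)) (by positivity), fun r hr hle => ?_⟩
  obtain ⟨a1, a3⟩ := le_min_iff.1 hle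
  obtain ⟨a1, a2⟩ := le_min_iff.1 a1
  obtain ⟨j, b1, b2⟩ := exists_nat_pow_near_of_lt_one hr
    (a3.trans (pow_le_one₀ (by norm_num) (by norm_num))) (show (0 : ℝ) < 1 / 2 by norm_num)
    (by norm_num)
  have hj : max j₀ j₁ ≤ j := Nat.lt_succ_iff.1
    ((pow_lt_pow_iff_right_of_lt_one₀ (by norm_num) (by norm_num)).1 (b1.trans_le a3))
  rw [pow_succ] at b1
  refine ⟨j, (le_max_left _ _).trans hj, b2, (hd j ((le_max_right _ _).trans hj)).trans ?_⟩
  rw [mul_assoc]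
  refine mul_le_mul_of_nonneg_left (le_trans ?_ (hg ⟨hr, a1⟩)) hC1.le
  exact hmono ⟨by positivity, by linarith⟩ ⟨by positivity, by linarith⟩ (by linarith)

/-- `S = limsup S n` for `e n = 1 / (400 (n + 1))`; `m` is the indicator of the good points times `Pay`;
for `r ≤ r₀` choose `j` with `(1 / 2) ^ (j + 1) < r ≤ (1 / 2) ^ j`; `dyadic_le`, `gaugeFn_mul`,
`gaugeFn_mono`, `Pay_ne_ever` -/
theorem frost_event (h0 : 0 < κ) (h8 : κ < 8) : ∃ T p : ℝ, 0 < T ∧ 0 < p ∧ ∃ S : Set Path,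
    DetS (fun _ => T) S ∧ (∀ μ : Measure Path, IsW κ μ → p ≤ μ.real S) ∧
    ∀ w ∈ S, Frost κ (pf w) T := by
  obtain ⟨T, c, p, C₀, j₀, hT, hc, hp, hC₀, hj₀, hg⟩ := good_mass h0 h8
  obtain ⟨C, r₀, hr₀, hs⟩ := LowerP_scale h0 h8 j₀
  have e1 : ∀ n : ℕ, 0 < 1 / 400 * (1 / ((n : ℝ) + 1)) := fun n => by positivity
  have e2 : ∀ n : ℕ, 1 / 400 * (1 / ((n : ℝ) + 1)) ≤ 1 / 400 := fun n =>
    mul_le_of_le_one_right (by norm_num)
      ((div_le_one (by positivity)).2 (le_add_of_nonneg_left n.cast_nonneg))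
  choose η hη S hS1 hS2 hS3 using fun n => hg _ (e1 n) (e2 n)
  obtain ⟨S', a1, a2, a3⟩ := LowerP_limsup hS1 hS2
  refine ⟨T, p, hT, hp, S', a1, a2, fun w hw => ⟨c, C₀ * C, r₀, hc, hr₀, fun e₀ he₀ => ?_⟩⟩
  obtain ⟨N, hN⟩ := exists_nat_one_div_lt he₀
  obtain ⟨n, hn, hwn⟩ := a3 w hw N
  have h1 := hS3 n w hwn
  have h2 : 2 * (1 / 400 * (1 / ((n : ℝ) + 1))) < e₀ := by
    have := Nat.one_div_le_one_div (α := ℝ) hn
    have := e1 n
    linarith
  have he := e1 n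
  generalize 1 / 400 * (1 / ((n : ℝ) + 1)) = e at h1 h2 he
  obtain ⟨G, hG⟩ : ∃ G : Set ℂ, G = Metric.ball I (1 / 400) ∩ {z | ∀ j ≥ j₀,
      mass κ (η n) e (pf w) T (Metric.ball z ((1 / 2) ^ j))
        ≤ C₀ * ((1 / 2 : ℝ) ^ j) ^ dd κ * √(Real.log j) ^ be κ} := ⟨_, rfl⟩
  have hm : MeasurableSet G := by
    rw [hG]
    refine measurableSet_ball.inter ?_
    simp only [setOf_forall]
    exact MeasurableSet.iInter fun j => MeasurableSet.iInter fun _ => measurableSet_le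
      (measurable_mass κ _ e T measurable_const measurable_id _) measurable_const
  rw [← hG] at h1
  have him : ∀ z ∈ G, 1 / 2 < z.im := fun z hz => by
    have := LowerP_im (hG ▸ hz).1
    rw [Complex.I_im] at this
    linarith
  refine ⟨2 * e, by positivity, h2, G.indicator fun z => ENNReal.ofReal (Pay κ (η n) e (pf w) T z),
    (measurable_Pay κ e measurable_const measurable_const measurable_const
      measurable_id).ennreal_ofReal.indicator hm, fun z hz => ?_, ?_, fun z hz r hr hle => ?_⟩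
  · have hz' := mem_of_indicator_ne_zero hz
    rw [indicator_of_mem hz'] at hz
    refine ⟨Metric.ball_subset_ball (by norm_num) (hG ▸ hz').1,
      Pay_ne_ever (κ := κ) he (hη n) (continuous_pf w) (by linarith [him z hz']) hT.le fun h => hz ?_⟩
    rw [h, ENNReal.ofReal_zero]
  · rwa [lintegral_indicator hm]
  · have hz' := mem_of_indicator_ne_zero hz
    obtain ⟨j, b1, b2, b3⟩ := hs r hr hle
    have b4 : (1 / 2 : ℝ) ^ j ≤ z.im := by
      have := pow_le_of_le_one (show (0 : ℝ) ≤ 1 / 2 by norm_num) (by norm_num)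
        (show j ≠ 0 by omega)
      linarith [him z hz']
    refine (lintegral_mono_set (Metric.ball_subset_ball b2)).trans
      ((lintegral_mono (indicator_le_self _ _)).trans ?_)
    rw [LowerP_mass h0 h8 (hη n) he hT.le w b4]
    refine ENNReal.ofReal_le_ofReal (((hG ▸ hz').2 j b1).trans ?_)
    rw [mul_assoc, mul_assoc]
    exact mul_le_mul_of_nonneg_left b3 hC₀.le

end Vale.Agent.P164
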