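import Vale.Agent.P164.Upper
import Vale.Agent.P164.Lower
import Vale.Agent.P164.LowerP

/-!
# P164 Main
-/

open MeasureTheory ProbabilityTheory Set Filter Topology
open scoped NNReal ENNReal

namespace Vale.Agent.P164

theorem lower_ae {κ : ℝ} (h0 : 0 < κ) (h8 : κ < 8) {μ : Measure Path} (hμ : IsW κ μ) {h : ℝ → ℝ}
    (hh : IsGauge h) {c : ℝ} (hc : 0 < c) (hl : ∀ᶠ r in 𝓝[>] (0 : ℝ), c * gaugeFn κ r ≤ h r) :
    ∀ᵐ w ∂μ, ∀ γ : ℝ≥0 → ℂ, Generates γ w.1 → ∀ s t : ℝ≥0, s < t →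
      0 < hausH h (γ '' Icc s t) := by
  obtain ⟨T, p, hT, hp, S, hS, hpS, hF⟩ := frost_event h0 h8
  filter_upwards [hμ.zero_one hT hS (hp.trans_le (hpS μ hμ))] with w hw γ hγ s t hst
  obtain ⟨s', ρ, h1, h2, h3, h4⟩ := hw s t s.2 hst
  have h5 : 0 ≤ s' := s.2.trans h1
  have key := lower_det h8 hγ w.2 (continuous_pf _) (s := ⟨s', h5⟩) (t := t) h2
    (shS_shs s' ρ T w) h3 (hF _ h4) hh hc hl
  exact key.trans_le (hausH_mono h (image_mono (Icc_subset_Icc_left h1)))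

theorem main {κ : ℝ} (h0 : 0 < κ) (h8 : κ < 8) {h : ℝ → ℝ} (hh : IsGauge h) {c C : ℝ} (hc : 0 < c)
    (hl : ∀ᶠ r in 𝓝[>] (0 : ℝ), c * gaugeFn κ r ≤ h r ∧ h r ≤ C * gaugeFn κ r)
    {Ω : Type*} [MeasurableSpace Ω] {P : Measure Ω} {B : ℝ≥0 → Ω → ℝ} (hB : IsBrownianReal B P)
    {γ : Ω → ℝ≥0 → ℂ} (hγ : ∀ᵐ ω ∂P, Generates (γ ω) fun t => √κ * B t ω) :
    ∀ᵐ ω ∂P, ∀ s t : ℝ≥0, 0 < s → s < t →
      0 < hausH h (γ ω '' Icc s t) ∧ hausH h (γ ω '' Icc s t) < ⊤ := by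
  obtain ⟨Φ, hΦ, hW, he⟩ := exists_isW h0 hB
  have h1 := ae_of_ae_map hΦ.aemeasurable (lower_ae h0 h8 hW hh hc (hl.mono fun _ h => h.1))
  have h2 := ae_of_ae_map hΦ.aemeasurable (upper_ae h0 h8 hW hh (hl.mono fun _ h => h.2))
  filter_upwards [h1, h2, he, hγ] with ω k1 k2 k3 k4 s t _ hst
  rw [← k3] at k4
  exact ⟨k1 _ k4 s t hst,
    (hausH_mono h (image_mono Icc_subset_Iic_self)).trans_lt (k2 _ k4 t)⟩

end Vale.Agent.P164
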