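import Vale.Agent.P164.ChiEst

/-!
# P164 Phi

The jet of `pw * chi * kil * θ (cc)`: `Jet.mul` of `jet_pw`, `jet_chi` and `Jet.time`. At `x = w t` the
generator is `pw chi kil θ (l0 + m0 + κ / 2 (l2 + l1 ^ 2 + m2 + m1 ^ 2 + 2 l1 m1)) + pw chi (kil θ)'`.
-/

open MeasureTheory ProbabilityTheory Set Filter Topology Complex Function
open scoped NNReal ENNReal ComplexConjugate

noncomputable section

namespace Vale.Agent.P164

theorem Phi_log {T K K' : ℝ} {P a0 a1 a2 : ℝ → ℝ → ℝ}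
    (h : ∀ t ∈ Icc 0 T, ∀ x, |P t x| ≤ K ∧ |a0 t x| ≤ K' ∧ |a1 t x| ≤ K' ∧ |a2 t x| ≤ K') :
    JBd T (K * (1 + K' + K' ^ 2)) P (fun t x => P t x * a0 t x) (fun t x => P t x * a1 t x)
      fun t x => P t x * (a2 t x + a1 t x ^ 2) := by
  intro t ht x
  obtain ⟨h1, h2, h3, h4⟩ := h t ht x
  have hK := (abs_nonneg _).trans h1
  have hK' := (abs_nonneg _).trans h2
  have h5 : |a2 t x + a1 t x ^ 2| ≤ K' + K' ^ 2 := by
    refine (abs_add_le _ _).trans (add_le_add h4 ?_)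
    rw [abs_pow]
    exact pow_le_pow_left₀ (abs_nonneg _) h3 2
  simp only [abs_mul]
  refine ⟨h1.trans (le_mul_of_one_le_right hK (by nlinarith)), ?_, ?_, ?_⟩
  · exact mul_le_mul h1 (by nlinarith) (abs_nonneg _) hK
  · exact mul_le_mul h1 (by nlinarith) (abs_nonneg _) hK
  · exact mul_le_mul h1 (by nlinarith) (abs_nonneg _) hK

theorem Phi_time {T K : ℝ} {g g' : ℝ → ℝ} (h : ∀ t ∈ Icc 0 T, |g t| ≤ 1 ∧ |g' t| ≤ K) :
    JBd T (1 + K) (fun t _ => g t) (fun t _ => g' t) (fun _ _ => 0) fun _ _ => 0 := by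
  intro t ht x
  obtain ⟨h1, h2⟩ := h t ht
  have hK := (abs_nonneg _).trans h2
  simp only [abs_zero]
  exact ⟨by linarith, by linarith, by linarith, by linarith⟩

theorem Phi_alg {κ C a μ E ρ l1 m0 m1 m2 : ℝ} (hκ : 0 < κ) (hC : 0 < C) (ha : 0 ≤ a) (hρ : 0 < ρ)
    (hμ : 0 ≤ μ) (hμ1 : μ ≤ 1) (h0 : ρ ^ 2 * m0 ≤ C * μ + E) (h1 : ρ * |m1| ≤ C * μ)
    (h2 : ρ ^ 2 * |m2| ≤ C * μ) (h3 : |l1| ≤ a / ρ) :
    m0 + κ / 2 * (m2 + m1 ^ 2 + 2 * l1 * m1) ≤
        ((C + κ / 2 * (C + C ^ 2 + 2 * a * C) + a) * μ + E) / ρ ^ 2 ∧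
      |l1 + m1| ≤ (C + κ / 2 * (C + C ^ 2 + 2 * a * C) + a) / ρ := by
  rw [le_div_iff₀ hρ] at h3
  have h4 : C * μ ≤ C := mul_le_of_le_one_right hC.le hμ1
  constructor
  · rw [le_div_iff₀ (by positivity)]
    have h5 : ρ ^ 2 * m2 ≤ C * μ :=
      (mul_le_mul_of_nonneg_left (le_abs_self _) (by positivity)).trans h2
    have h6 : (ρ * |m1|) * (ρ * |m1|) ≤ C * (C * μ) :=
      mul_le_mul (h1.trans h4) h1 (by positivity) hC.le
    have h7 : (|l1| * ρ) * (ρ * |m1|) ≤ a * (C * μ) := mul_le_mul h3 h1 (by positivity) ha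
    have h8 : ρ ^ 2 * (l1 * m1) ≤ ρ ^ 2 * (|l1| * |m1|) :=
      mul_le_mul_of_nonneg_left ((le_abs_self _).trans (abs_mul _ _).le) (by positivity)
    have h9 : ρ * |m1| * (ρ * |m1|) = ρ ^ 2 * m1 ^ 2 := by rw [← sq_abs m1]; ring
    have h10 : ρ ^ 2 * (m2 + m1 ^ 2 + 2 * l1 * m1) ≤ (C + C ^ 2 + 2 * a * C) * μ := by linarith
    have h11 := mul_le_mul_of_nonneg_left h10 (half_pos hκ).le
    have h12 := mul_nonneg ha hμ
    linarith
  · rw [le_div_iff₀ hρ]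
    have h5 := mul_le_mul_of_nonneg_right (abs_add_le l1 m1) hρ.le
    have h6 : 0 ≤ κ / 2 * (C + C ^ 2 + 2 * a * C) := by positivity
    linarith

theorem phi_jet {κ : ℝ} (h0 : 0 < κ) (h8 : κ < 8) : ∃ C : ℝ, 0 < C ∧
    ∀ (p a η T B : ℝ) (θ : ℝ → ℝ), -1 ≤ p → p ≤ 0 → 0 ≤ a → a ≤ al κ → 0 < η → ContDiff ℝ 1 θ →
    (∀ c, 0 ≤ θ c ∧ θ c ≤ 1 ∧ |deriv θ c * c| ≤ B) → ∃ K : ℝ, ∀ (A : ℝ) (w : ℝ → ℝ) (z : ℂ), 1 ≤ A →
    Continuous w → η ≤ z.im → ∃ φ0 φ1 φ2 : ℝ → ℝ → ℝ,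
      Jet T (fun t x => pw η w z p a 0 t x * chi A η w z t x * kil η w z t * θ (cc η w z t))
        φ0 φ1 φ2 ∧
      JBd T K (fun t x => pw η w z p a 0 t x * chi A η w z t x * kil η w z t * θ (cc η w z t))
        φ0 φ1 φ2 ∧
      ∀ t ∈ Icc 0 T,
        (η < (fl η w z t).im →
          φ0 t (w t) + κ / 2 * φ2 t (w t) ≤ pv η w z p a 0 t * chi A η w z t (w t) * kil η w z t *
            (θ (cc η w z t) * (II κ p a 0 (sn η w z t) + sLam C A (FF w t) (ZZ η w z t))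
              / r2 η w z t (w t) - deriv θ (cc η w z t) * cc η w z t * clk η w z t) ∧
          |φ1 t (w t)| ≤ C * (pv η w z p a 0 t * chi A η w z t (w t) * kil η w z t *
            θ (cc η w z t)) / √(r2 η w z t (w t))) ∧
        ((fl η w z t).im ≤ η → φ0 t (w t) + κ / 2 * φ2 t (w t) = 0 ∧ φ1 t (w t) = 0) := by
  obtain ⟨C, hC, hm⟩ := m_fine
  have hal : 0 ≤ al κ := ((be_pos h8).trans (be_lt_al h0 h8)).le
  refine ⟨C + κ / 2 * (C + C ^ 2 + 2 * al κ * C) + al κ, by positivity,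
    fun p a η T B θ _ hp ha ha' hη hθ hB => ?_⟩
  obtain ⟨Km, hKm⟩ := m_crude hη T
  obtain ⟨B', hB', hs⟩ := deriv_stp_le
  obtain ⟨y, hy, hyd⟩ : ∃ y, 0 < y ∧ y = η * Real.exp (-2 * T / η ^ 2) := ⟨_, by positivity, rfl⟩
  obtain ⟨c, hc, hcd⟩ : ∃ c, 0 < c ∧ c = η * Real.exp (-4 * T / η ^ 2) := ⟨_, by positivity, rfl⟩
  obtain ⟨Kl, hKl⟩ : ∃ Kl, Kl = (4 * |p| + 2 * |a + 0| + 4 * |a|) / y ^ 2 + |a| / y +
    3 * |a| / y ^ 2 := ⟨_, rfl⟩
  refine ⟨4 * (4 * (4 * (c ^ p * (1 + Kl + Kl ^ 2)) * (1 * (1 + Km + Km ^ 2))) *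
    (1 + B' * (2 / (η * y)))) * (1 + B * (4 / η ^ 2)), fun A w z hA hw hz => ?_⟩
  have hz0 : 0 < z.im := hη.trans_le hz
  have hθ' : ∀ t, HasDerivAt (fun t => θ (cc η w z t)) (deriv θ (cc η w z t) *
      -(cc η w z t * (4 * (fl η w z t).im ^ 2 / den η (w t) (fl η w z t) ^ 2))) t := fun t =>
    (hθ.differentiable one_ne_zero _).hasDerivAt.comp t (cc_deriv hη hw z t)
  have hθc : Continuous fun t => deriv θ (cc η w z t) *
      -(cc η w z t * (4 * (fl η w z t).im ^ 2 / den η (w t) (fl η w z t) ^ 2)) := by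
    have h1 := cc_cont hη hw z
    have h2 := fl_cont hη hw z
    have h3 : Continuous fun t => den η (w t) (fl η w z t) :=
      continuous_den.comp (continuous_const.prodMk (hw.prodMk h2))
    exact (hθ.continuous_deriv_one.comp h1).mul (h1.mul (Continuous.div (by fun_prop) (h3.pow 2)
      fun t => (pow_pos (den_pos hη _ _) 2).ne')).neg
  have hY : ∀ t ∈ Icc 0 T, y ≤ (fl η w z t).im := fun t ht => by
    refine le_trans ?_ (fl_im_ge hη hw hz0 ht.1)
    rw [hyd]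
    exact mul_le_mul hz (Real.exp_le_exp.2 (div_le_div_of_nonneg_right (by linarith [ht.2])
      (by positivity))) (by positivity) hz0.le
  have hcc : ∀ t ∈ Icc 0 T, c ≤ cc η w z t := fun t ht => by
    refine le_trans ?_ (cc_ge hη hw hz0 ht.1)
    rw [hcd]
    exact mul_le_mul hz (Real.exp_le_exp.2 (div_le_div_of_nonneg_right (by linarith [ht.2])
      (by positivity))) (by positivity) hz0.le
  refine ⟨_, _, _, (((jet_pw hη hw hz0 p a 0 T).mul (jet_chi hA hη hw hz0 T)).mul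
    (Jet.time (kil_deriv hη hw z) (kilD_cont hη hw hz0).neg T)).mul (Jet.time hθ' hθc T),
    (((Phi_log fun t ht x => ?_).mul (Phi_log fun t ht x => ?_)).mul
      (Phi_time fun t ht => ?_)).mul (Phi_time fun t ht => ?_),
    fun t ht => ⟨fun h => ?_, fun h => ?_⟩⟩
  · obtain ⟨h1, h2, h3⟩ := abs_l_le hη hw hz0 p a 0 t x hy (hY t ht)
    have h4 := pw_le hη hw hz0 p ha 0 t x
    rw [Real.rpow_zero, mul_one] at h4
    have e1 : 0 ≤ (4 * |p| + 2 * |a + 0| + 4 * |a|) / y ^ 2 := by positivity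
    have e2 : 0 ≤ |a| / y := by positivity
    have e3 : 0 ≤ 3 * |a| / y ^ 2 := by positivity
    refine ⟨?_, by linarith, by linarith, by linarith⟩
    rw [abs_of_pos (pw_pos hη hw hz0 p a 0 t x)]
    exact h4.trans (Real.rpow_le_rpow_of_nonpos hc (hcc t ht) hp)
  · refine ⟨?_, hKm A w z hA hw hz t ht x⟩
    rw [abs_of_nonneg (chi_mem hA η w z t x).1]
    exact (chi_mem hA η w z t x).2
  · refine ⟨(abs_of_nonneg (stp_nonneg _)).trans_le (stp_le_one _), ?_⟩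
    rw [abs_neg, abs_of_nonneg (kilD_nonneg hη w z t), kilD]
    have h1 := hY t ht
    have h2 := r2_pos hη hw hz0 t (w t)
    have h3 : (fl η w z t).im ^ 2 ≤ r2 η w z t (w t) := le_add_of_nonneg_left (sq_nonneg _)
    have h4 := hy.trans_le h1
    refine mul_le_mul (hs _) ?_ (by positivity) hB'.le
    rw [div_le_div_iff₀ (by positivity) (by positivity)]
    have h5 : (fl η w z t).im * y ≤ r2 η w z t (w t) := by nlinarith
    nlinarith [mul_le_mul_of_nonneg_left h5 hη.le]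
  · refine ⟨(abs_of_nonneg (hB _).1).trans_le (hB _).2.1, ?_⟩
    have h1 := den_pos hη (w t) (fl η w z t)
    have h2 := sq_le_den hη.le (w t) (fl η w z t)
    have h3 := (le_add_of_nonneg_left (sq_nonneg _)).trans (normSq_le_den η (w t) (fl η w z t))
    rw [mul_neg, abs_neg, ← mul_assoc, abs_mul,
      abs_of_nonneg (a := 4 * (fl η w z t).im ^ 2 / _) (by positivity)]
    refine mul_le_mul (hB _).2.2 ?_ (by positivity) ((abs_nonneg _).trans (hB 0).2.2)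
    rw [div_le_div_iff₀ (by positivity) (by positivity)]
    nlinarith [mul_le_mul h3 h2 (by positivity) h1.le]
  · obtain ⟨h1, h2, h3⟩ := hm A η t w z hA hη ht.1 hw hz0 h.le
    have hr := r2_pos hη hw hz0 t (w t)
    have h4 := (abs_l1_le hη hw hz0 a t (w t)).trans
      (div_le_div_of_nonneg_right ((abs_of_nonneg ha).trans_le ha') (Real.sqrt_nonneg _))
    have h5 := Real.sq_sqrt hr.le
    obtain ⟨h6, h7⟩ := Phi_alg (m0 := m0 A η w z t (w t)) (m2 := m2 A η w z t (w t)) h0 hC hal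
      (Real.sqrt_pos.2 hr) (le_min zero_le_one (div_nonneg (mul_nonneg (norm_nonneg _)
        (norm_nonneg _)) (by linarith))) (min_le_left _ _) (h5.symm ▸ h1) h2 (h5.symm ▸ h3) h4
    rw [h5] at h6
    have h8 := l_gen (w := w) (z := z) κ hη p a 0 h.le
    have e1 := (pw_pos hη hw hz0 p a 0 t (w t)).le
    have e2 := (chi_mem hA η w z t (w t)).1
    have e3 : 0 ≤ kil η w z t := stp_nonneg _
    have e4 := (hB (cc η w z t)).1
    have e5 := mul_nonneg (mul_nonneg (mul_nonneg e1 e2) e3) e4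
    have e6 := mul_nonneg (mul_nonneg (mul_nonneg e1 e2) (kilD_nonneg hη w z t)) e4
    constructor
    · have h9 := mul_le_mul_of_nonneg_left h6 e5
      simp only [pv, sLam, scb, clk_alive hη h.le, mul_div_assoc (θ (cc η w z t)), add_div _ _
        (r2 η w z t (w t)), ← h8] at h9 ⊢
      linarith
    · have h9 := mul_le_mul_of_nonneg_left h7 e5
      rw [← abs_of_nonneg e5, ← abs_mul, abs_of_nonneg e5] at h9
      refine le_trans (le_of_eq (congrArg _ (by ring))) (h9.trans (le_of_eq ?_))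
      rw [pv]
      ring
  · have h1 : (fl η w z t).im / η ≤ 1 := (div_le_one hη).2 h
    have h2 : kil η w z t = 0 := stp_zero h1
    have h3 : deriv stp ((fl η w z t).im / η) = 0 := by
      by_contra h4
      linarith [(deriv_stp_ne h4).1]
    simp [h2, kilD, h3]

end Vale.Agent.P164
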