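import Vale.Agent.P164.Cont
import Vale.Agent.P164.ZigB
import Vale.Agent.P164.Tube

/-!
# P164 ZigU

The zigzag event. In the units of `zig`: `tube` with `S` from `content` (threshold `e₁ / Λ`),
`a i = 2 T V tri m i`, `n = (2 m + 1) m`. For a good step `i`, `fat_pull` (`s = 2 T i`, `ρ = 1`, `lo = Λ⁻¹`,
`hi = Λ`, `y = 1 / 2`) gives area `≥ Λ⁻¹ ^ 2 c (e₁ / Λ) ^ β` in `Ever (2 T i + T) e₁ \\ Ever (2 T i) e₁`; these sets
are disjoint. Then rescale by `L = 2 T V m`: `E' = shs 0 L⁻¹ ⁻¹' E`, `fat_pull` with `s = 0`, `ρ = L⁻¹`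
(`bf w 0 = id`), `e₁ = e L`, `T₁ = 2 T n / L ^ 2 ≤ 1`.
-/

open MeasureTheory ProbabilityTheory Set Filter Topology Complex Function
open scoped NNReal ENNReal ComplexConjugate

noncomputable section

namespace Vale.Agent.P164

variable {κ : ℝ}

theorem ZigU_cell {a t : ℝ} {n : ℕ} (hn : 0 < n) (ht : t ∈ Icc 0 (a * n)) :
    ∃ i < n, t ∈ Icc (a * i) (a * (i + 1)) := by
  induction n with
  | zero => omega
  | succ n ih =>
    rcases le_total t (a * n) with h | h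
    · rcases Nat.eq_zero_or_pos n with rfl | h1
      · exact ⟨0, hn, by simpa using ht⟩
      · obtain ⟨i, hi, h2⟩ := ih h1 ⟨ht.1, h⟩
        exact ⟨i, by omega, h2⟩
    · exact ⟨n, by omega, h, by simpa using ht.2⟩

theorem ZigU_ball {ξ : ℂ} (h : ξ ∈ Metric.ball I (1 / 2)) :
    |ξ.re| ≤ 1 ∧ 1 / 2 ≤ ξ.im ∧ ξ.im ≤ 2 := by
  rw [Metric.mem_ball, dist_eq_norm] at h
  have h1 := (Complex.abs_re_le_norm (ξ - I)).trans h.le
  have h2 := abs_le.1 ((Complex.abs_im_le_norm (ξ - I)).trans h.le)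
  simp only [Complex.sub_re, Complex.I_re, sub_zero, Complex.sub_im, Complex.I_im] at h1 h2
  exact ⟨by linarith, by linarith [h2.1], by linarith [h2.2]⟩

theorem ZigU_sum {w : ℝ → ℝ} (hw : Continuous w) {T e v : ℝ} (hT : 0 < T) {n : ℕ}
    {D : Set ℂ} (hD : MeasurableSet D) {G : Finset ℕ} (hG : ∀ i ∈ G, i < n)
    (h : ∀ i ∈ G, ENNReal.ofReal v ≤ volume ((Ever w (2 * T * i + T) e \ Ever w (2 * T * i) e) ∩ D)) :
    Fat w (2 * T * n) e D (G.card * v) := by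
  have hm : ∀ i ∈ G, MeasurableSet ((Ever w (2 * T * i + T) e \ Ever w (2 * T * i) e) ∩ D) :=
    fun i _ => ((measurableSet_ever' hw _ _).diff (measurableSet_ever' hw _ _)).inter hD
  have hlt : ∀ i j : ℕ, i < j → 2 * T * i + T ≤ 2 * T * j := fun i j hij => by
    have h1 : (i : ℝ) + 1 ≤ j := by exact_mod_cast hij
    nlinarith
  have hd : ∀ i j : ℕ, i < j → Disjoint ((Ever w (2 * T * i + T) e \ Ever w (2 * T * i) e) ∩ D)
      ((Ever w (2 * T * j + T) e \ Ever w (2 * T * j) e) ∩ D) := fun i j hij =>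
    Set.disjoint_left.2 fun z h1 h2 => h2.1.2 (ever_mono (hlt i j hij) le_rfl h1.1.1)
  have hs := measure_biUnion_finset (μ := (volume : Measure ℂ)) (s := G)
    (f := fun i : ℕ => (Ever w (2 * T * i + T) e \ Ever w (2 * T * i) e) ∩ D)
    (fun i _ j _ hij => by
      rcases lt_or_gt_of_ne hij with h1 | h1
      · exact hd i j h1
      · exact (hd j i h1).symm) hm
  unfold Fat
  rw [ENNReal.ofReal_mul (Nat.cast_nonneg _), ENNReal.ofReal_natCast, ← nsmul_eq_mul]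
  refine (Finset.card_nsmul_le_sum G _ _ h).trans (hs.ge.trans (measure_mono ?_))
  exact Set.iUnion₂_subset fun i hi z hz =>
    ⟨ever_mono (hlt i n (hG i hi)) le_rfl hz.1.1, hz.2⟩

theorem zig_unit (h0 : 0 < κ) (h8 : κ < 8) : ∃ T V c c' q e₀ : ℝ, ∃ m₀ : ℕ, 0 < T ∧ 1 ≤ V ∧
    3 ≤ T * V ^ 2 ∧ 0 < c ∧ 0 < c' ∧ 0 < q ∧ q ≤ 1 ∧ 0 < e₀ ∧ 1 ≤ m₀ ∧ ∀ m ≥ m₀,
    ∀ (μ : Measure Path) (e : ℝ), IsW κ μ → 0 < e → e ≤ e₀ → ∃ E : Set Path,
      DetS (fun _ => 2 * T * ((2 * m + 1) * m : ℕ)) E ∧ q ^ ((2 * m + 1) * m) ≤ μ.real E ∧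
      ∀ w ∈ E, pf w 0 = 0 ∧
        (∀ t ∈ Icc 0 (2 * T * ((2 * m + 1) * m : ℕ)), |pf w t| ≤ 2 * (2 * T * V * m)) ∧
        Fat (pf w) (2 * T * ((2 * m + 1) * m : ℕ)) e
          {z | |z.re| ≤ 2 * T * V * m ∧ c * (2 * T * V * m) ≤ z.im ∧ z.im ≤ 2 * T * V * m}
          (c' * (m : ℝ) ^ 2 * e ^ be κ) := by
  obtain ⟨T, c₀, p, L, hT, hc₀, hp, hcont⟩ := content h0 h8
  obtain ⟨V, hV, h3, hz⟩ := zig hT
  obtain ⟨D, q, hD, hq, hq1, htube⟩ := tube h0 hT L (2 * T * V) hp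
  obtain ⟨c, Λ, m₁, hc, hΛ, hzig⟩ := hz D hD
  have hTV : 0 < 2 * T * V := by positivity
  obtain ⟨M, hM⟩ := exists_nat_ge (D / (2 * T * V))
  refine ⟨T, V, c, Λ⁻¹ ^ 2 * c₀ * Λ⁻¹ ^ be κ / 32, q, min (Λ / 200) (Λ⁻¹ * (1 / 2)),
    m₁ + M + 6, hT, hV, h3, hc, by positivity, hq, hq1, by positivity, by omega,
    fun m hm μ e hμ he he₀ => ?_⟩
  have hm0 : 0 < m := by omega
  have he1 : e * Λ⁻¹ ≤ 1 / 200 := by
    rw [← div_eq_mul_inv, div_le_iff₀ hΛ]
    linarith [he₀.trans (min_le_left _ _)]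
  have he2 : Λ * (e * Λ⁻¹) = e := by field_simp
  obtain ⟨E, hE, hqE, hw⟩ := htube μ _ (fun i => 2 * T * V * tri m i) hμ
    ((detS_fat T (e * Λ⁻¹) (c₀ * (e * Λ⁻¹) ^ be κ) measurableSet_ball).inter
      (detS_sup hT.le 0 L le_rfl)) (hcont μ _ hμ (by positivity) he1) (fun w hw => hw.2)
    (by simp [tri_zero m hm0]) (fun i => by
      rw [← mul_sub, abs_mul, abs_of_pos hTV]
      exact mul_le_of_le_one_right hTV.le (tri_step m hm0 i)) ((2 * m + 1) * m)
  refine ⟨E, hE, hqE, fun w hwE => ?_⟩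
  obtain ⟨hw0, -, hwi⟩ := hw w hwE
  refine ⟨hw0, fun t ht => ?_, ?_⟩
  · obtain ⟨i, hi, hti⟩ := ZigU_cell (by positivity) ht
    have h1 := (hwi i hi).2 t hti
    have h2 : |2 * T * V * tri m i| ≤ 2 * T * V * m := by
      rw [abs_mul, abs_of_pos hTV]
      exact mul_le_mul_of_nonneg_left (abs_tri_le m hm0 i) hTV.le
    have h4 : D ≤ 2 * T * V * m := by
      rw [div_le_iff₀' hTV] at hM
      exact hM.trans (mul_le_mul_of_nonneg_left (by exact_mod_cast (by omega : M ≤ m)) hTV.le)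
    have h5 := abs_add_le (pf w t - 2 * T * V * tri m i) (2 * T * V * tri m i)
    rw [sub_add_cancel] at h5
    linarith
  · have hmeas : MeasurableSet
        {z : ℂ | |z.re| ≤ 2 * T * V * m ∧ c * (2 * T * V * m) ≤ z.im ∧ z.im ≤ 2 * T * V * m} :=
      (measurableSet_le Complex.measurable_re.abs measurable_const).inter
        ((measurableSet_le measurable_const Complex.measurable_im).inter
          (measurableSet_le Complex.measurable_im measurable_const))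
    have hv : 0 ≤ Λ⁻¹ ^ 2 * (c₀ * (e * Λ⁻¹) ^ be κ) := by positivity
    have h1 := ZigU_sum (continuous_pf w) hT hmeas (v := Λ⁻¹ ^ 2 * (c₀ * (e * Λ⁻¹) ^ be κ)) (e := e) (n := (2 * m + 1) * m)
      (G := (Finset.range ((2 * m + 1) * m)).filter
        fun i => m ≤ 2 * ((i + m) / (2 * m)) ∧ 8 * |tri m i| ≤ m)
      (fun i hi => Finset.mem_range.1 (Finset.mem_filter.1 hi).1) fun i hi => by
        obtain ⟨hi1, hi2, hi3⟩ := Finset.mem_filter.1 hi
        have hi4 := Finset.mem_range.1 hi1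
        have h2 := fat_pull (continuous_pf w) (continuous_pf _) (s := 2 * T * i) (by positivity)
          one_pos (shS_shs (2 * T * i) 1 T w)
          ((measurableSet_ever' (continuous_pf _) _ _).inter measurableSet_ball)
          (lo := Λ⁻¹) (hi := Λ) (y := 1 / 2) (inv_pos.2 hΛ).le
          (D' := {z : ℂ | |z.re| ≤ 2 * T * V * m ∧ c * (2 * T * V * m) ≤ z.im ∧
            z.im ≤ 2 * T * V * m}) (fun ξ hξ => by
            obtain ⟨b1, b2, b3⟩ := ZigU_ball hξ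
            obtain ⟨a1, a2, a3, a4, a5⟩ := hzig m (by omega) (pf w) (continuous_pf w)
              (fun i hi => (hwi i hi).2) i hi4 hi2 hi3
              ((pf w (2 * T * i) : ℝ) + ((1 : ℝ) : ℂ) * ξ) (by simpa using b1) (by simpa using b2)
              (by simpa using b3)
            exact ⟨b2, by rwa [one_mul], by rwa [one_mul], a1, a2, a3⟩)
          (by rw [he2]; exact he₀.trans (min_le_right _ _)) (hwi i hi4).1.1
        rwa [he2, one_pow, one_mul] at h2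
    refine le_trans (ENNReal.ofReal_le_ofReal ?_) h1
    have h2 := card_good m
    have h4 : (6 : ℝ) ≤ m := by exact_mod_cast (by omega : 6 ≤ m)
    refine le_trans (le_of_eq ?_) (mul_le_mul_of_nonneg_right
      (show (m : ℝ) ^ 2 / 32 ≤ _ by nlinarith) hv)
    rw [Real.mul_rpow he.le (inv_pos.2 hΛ).le]
    ring

end Vale.Agent.P164
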