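import Vale.Agent.P164.Cont
import Vale.Agent.P164.ZigB
import Vale.Agent.P164.Tube
import Vale.Agent.P164.ZigU

/-!
# P164 ZigE

The zigzag event. In the units of `zig`: `tube` with `S` from `content` (threshold `e₁ / Λ`),
`a i = 2 T V tri m i`, `n = (2 m + 1) m`. For a good step `i`, `fat_pull` (`s = 2 T i`, `ρ = 1`, `lo = Λ⁻¹`,
`hi = Λ`, `y = 1 / 2`) gives area `≥ Λ⁻¹ ^ 2 c (e₁ / Λ) ^ β` in `Ever (2 T i + T) e₁ \\ Ever (2 T i) e₁`; these sets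
are disjoint. Then rescale by `L = 2 T V m`: `E' = shs 0 L⁻¹ ⁻¹' E`, `fat_pull` with `s = 0`, `ρ = L⁻¹`
(`bf w 0 = id`), `e₁ = e L`, `T₁ = 2 T n / L ^ 2 ≤ 1`.
-/

open MeasureTheory ProbabilityTheory Set Filter Topology Complex Function
open scoped NNReal ENNReal ComplexConjugate

noncomputable section

namespace Vale.Agent.P164

variable {κ : ℝ}

theorem ZigE_deriv {w : ℝ → ℝ} (hw : Continuous w) {ζ : ℂ} (hζ : 0 < ζ.im) :
    deriv (bf w 0) ζ = 1 := by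
  have h : bf w 0 =ᶠ[𝓝 ζ] id := by
    filter_upwards [(isOpen_lt continuous_const continuous_im).mem_nhds hζ] with z hz
    exact bf_zero hw hz
  rw [h.deriv_eq, deriv_id]

theorem ZigE_fat {w w' : ℝ → ℝ} {L T e c v : ℝ} (hw : Continuous w) (hw' : Continuous w')
    (hL : 0 < L) (hc : 0 < c) (h0 : w 0 = 0) (h : ShS 0 L⁻¹ T w w') (he : e ≤ c)
    (hF : Fat w' T (e * L) {z | |z.re| ≤ L ∧ c * L ≤ z.im ∧ z.im ≤ L} v) :
    Fat w (L⁻¹ ^ 2 * T) e (box c) (L⁻¹ ^ 2 * v) := by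
  have hρ : 0 < L⁻¹ := inv_pos.2 hL
  have hD : MeasurableSet {z : ℂ | |z.re| ≤ L ∧ c * L ≤ z.im ∧ z.im ≤ L} :=
    (measurableSet_le measurable_re.abs measurable_const).inter
      ((measurableSet_le measurable_const measurable_im).inter
        (measurableSet_le measurable_im measurable_const))
  have h1 := fat_pull (lo := L⁻¹) (hi := L⁻¹) (y := c * L) (D' := box c) hw hw' le_rfl hρ h
    ((measurableSet_ever' hw' T _).inter hD) hρ.le (fun ξ hξ => ?_)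
    (mul_le_mul_of_nonneg_left (mul_le_mul_of_nonneg_right he hL.le) hρ.le) hF
  · have e1 : L⁻¹ * (e * L) = e := by field_simp
    rw [e1, zero_add] at h1
    exact h1.trans (measure_mono (inter_subset_inter_left _ sdiff_subset))
  · obtain ⟨a1, a2, a3⟩ := hξ
    have a4 : 0 < ξ.im := (mul_pos hc hL).trans_le a2
    have e1 : ((w 0 : ℂ) + (L⁻¹ : ℝ) * ξ).im = L⁻¹ * ξ.im := by simp [-ofReal_inv]
    have e2 : ((w 0 : ℂ) + (L⁻¹ : ℝ) * ξ).re = L⁻¹ * ξ.re := by simp [-ofReal_inv, h0]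
    have a5 : 0 < ((w 0 : ℂ) + (L⁻¹ : ℝ) * ξ).im := e1 ▸ mul_pos hρ a4
    rw [ZigE_deriv hw a5, bf_zero hw a5, norm_one, mul_one]
    refine ⟨a2, le_rfl, le_rfl, ?_, ?_, ?_⟩
    · rw [e2, abs_mul, abs_of_pos hρ, inv_mul_le_iff₀ hL, mul_one]
      exact a1
    · rw [e1, le_inv_mul_iff₀ hL, mul_comm]
      exact a2
    · rw [e1, inv_mul_le_iff₀ hL, mul_one]
      exact a3

theorem ZigE_det : DetS (fun _ => 0) {w : Path | pf w 0 = 0} :=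
  ⟨measurable_pf measurable_id measurable_const (measurableSet_singleton 0),
    fun _ _ h hw => (h 0 ⟨le_rfl, le_rfl⟩).symm.trans hw⟩

theorem zig_event (h0 : 0 < κ) (h8 : κ < 8) : ∃ c c' p e₀ : ℝ, ∃ m₀ : ℕ, 0 < c ∧ 0 < c' ∧ 0 < p ∧
    p ≤ 1 ∧ 0 < e₀ ∧ 1 ≤ m₀ ∧ ∀ m ≥ m₀, ∃ T₁ ∈ Icc (0 : ℝ) 1, ∀ (μ : Measure Path) (e : ℝ), IsW κ μ →
    0 < e → e ≤ e₀ / m → ∃ E : Set Path, DetS (fun _ => T₁) E ∧ p ^ (m ^ 2) ≤ μ.real E ∧
      ∀ w ∈ E, (∀ t ∈ Icc 0 T₁, |pf w t| ≤ 2) ∧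
        Fat (pf w) T₁ e (box c) (c' * (m : ℝ) ^ be κ * e ^ be κ) := by
  obtain ⟨T, V, c, c', q, e₀, m₀, hT, hV, hTV, hc, hc', hq, hq1, he₀, hm₀, H⟩ := zig_unit h0 h8
  have hA : 0 < 2 * T * V := by positivity
  refine ⟨c, c' * (2 * T * V) ^ be κ / (2 * T * V) ^ 2, q ^ 3, min (e₀ / (2 * T * V)) c, m₀, hc,
    by positivity, by positivity, pow_le_one₀ hq.le hq1, lt_min (by positivity) hc, hm₀,
    fun m hm => ?_⟩
  have m1 : (1 : ℝ) ≤ m := by exact_mod_cast hm₀.trans hm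
  have m0 : (0 : ℝ) < m := by linarith
  obtain ⟨L, hL⟩ : ∃ L : ℝ, L = 2 * T * V * m := ⟨_, rfl⟩
  obtain ⟨U, hU⟩ : ∃ U : ℝ, U = 2 * T * ((2 * m + 1) * m : ℕ) := ⟨_, rfl⟩
  have L0 : 0 < L := by rw [hL]; positivity
  have U0 : 0 ≤ U := by rw [hU]; positivity
  have hρ : 0 < L⁻¹ := inv_pos.2 L0
  refine ⟨L⁻¹ ^ 2 * U, ⟨by positivity, ?_⟩, fun μ e hμ he hee => ?_⟩
  · rw [inv_pow, inv_mul_le_iff₀ (by positivity), mul_one, hL, hU]
    push_cast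
    have h1 := mul_le_mul_of_nonneg_right hTV (show 0 ≤ 4 * T * (m : ℝ) ^ 2 by positivity)
    have h2 := mul_le_mul_of_nonneg_left m1 (show 0 ≤ T * (m : ℝ) by positivity)
    nlinarith
  rw [le_div_iff₀ m0, le_min_iff, le_div_iff₀ hA] at hee
  have h1 : e ≤ c := (le_mul_of_one_le_right he.le m1).trans hee.2
  obtain ⟨E, hE, hp, hw⟩ := H m hm μ (e * L) hμ (mul_pos he L0)
    (le_trans (le_of_eq (by rw [hL]; ring)) hee.1)
  rw [← hU] at hE hw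
  rw [← hL] at hw
  refine ⟨{w | pf w 0 = 0} ∩ shs 0 L⁻¹ ⁻¹' E, ?_, ?_, fun w ⟨a1, a2⟩ => ⟨fun t ht => ?_, ?_⟩⟩
  · have h2 := DetS.shs (ρ := fun _ => L⁻¹) (Stp.const (T := 0) ⟨le_rfl, le_rfl⟩) ZigE_det
      (Det.const _ _) U0 hE
    simp only [zero_add] at h2
    exact h2
  · have := hμ.prob
    have h2 : μ {w | pf w 0 = 0} = 1 := (prob_compl_eq_zero_iff ZigE_det.meas).1 hμ.ae_zero
    rw [Measure.real, hμ.weak le_rfl hρ ZigE_det hE.meas, h2, one_mul, ← pow_mul]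
    refine le_trans (pow_le_pow_of_le_one hq.le hq1 ?_) hp
    nlinarith [hm₀.trans hm]
  · have h2 := (hw _ a2).2.1 (L ^ 2 * t) ⟨mul_nonneg (sq_nonneg _) ht.1, by
      have h3 := ht.2
      rwa [inv_pow, le_inv_mul_iff₀ (by positivity)] at h3⟩
    have e1 : 0 + L⁻¹ ^ 2 * (L ^ 2 * t) = t := by field_simp; ring
    rw [pf_shs _ _ _ (mul_nonneg (sq_nonneg _) ht.1), e1, show pf w 0 = 0 from a1, sub_zero,
      div_inv_eq_mul, abs_mul, abs_of_pos L0] at h2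
    exact le_of_mul_le_mul_right h2 L0
  · have h2 := ZigE_fat (continuous_pf w) (continuous_pf _) L0 hc a1 (shS_shs 0 L⁻¹ U w) h1
      (hw _ a2).2.2
    have e1 : L⁻¹ ^ 2 * (c' * (m : ℝ) ^ 2 * (e * L) ^ be κ) =
        c' * (2 * T * V) ^ be κ / (2 * T * V) ^ 2 * (m : ℝ) ^ be κ * e ^ be κ := by
      rw [Real.mul_rpow he.le L0.le, hL, Real.mul_rpow hA.le m0.le]
      field_simp
    rwa [e1] at h2

end Vale.Agent.P164
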