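import Vale.Agent.P164.StageA
import Vale.Agent.P164.ZigE
import Vale.Agent.P164.Markov

/-!
# P164 Stage

One stage. Notation: `σ = rho η z T r`, `σ' = rho η z T (r / 8)`, `T' = T + im z ^ 2`,
`τ = hit T (max (cc - r) (s - sn))`, `ξ = min τ (rho η z T (r / 2))`,
`St = B ∩ {r / 2 ≤ cc τ ≤ r, s ≤ sn τ, 4 η ≤ Y τ}` (determined at `τ`; on `St`, `τ ≤ rho (r / 2)` or `cc` never
goes below `r / 2`, so `ξ = τ`), `ρ w = s / 8 * 2 ^ Int.log 2 ‖ZZ τ‖` on `St` (and `im z / 8` elsewhere),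
`τ' = τ + ρ ^ 2 T₁`, `G = St ∩ {shs τ ρ ∈ E}`, `σ'' = rho η z T' (r / 8)`, `ξ' = min σ'' τ'`.
On `G`: `τ' ≤ σ''` (`zig_point`) and `Good` (`zig_good`). Put
`B' = B ∩ {cc σ' ≤ r / 8, 4 η ≤ Y σ'} \\ G`; on `{cc σ' ≤ r / 8}` we have `σ' = σ''`. `G` is determined at `ξ'` and
`G ∩ {cc σ' ≤ r / 8}` at `σ'`. `∫ (St \\ G) NN σ'' ≤ ∫ (St \\ G) NN ξ' ≤ ∫ St NN τ - 4 ^ (-α) μ E ∫ St NN τ`
(`Mart.os_le`, `IsW.strong_mul`); `B' \\ St ⊆ B ∩ {cc ξ ≤ r / 2} \\ St`, `no_start`. With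
`a = ∫ (B ∩ {cc ξ ≤ r / 2} \\ St) NN ξ ≤ n / 2`, `b = ∫ St NN ξ`, `a + b ≤ n`.
-/

open MeasureTheory ProbabilityTheory Set Filter Topology Complex Function
open scoped NNReal ENNReal ComplexConjugate

noncomputable section

namespace Vale.Agent.P164

theorem Stage_hit_mono {T : ℝ} {X X' : ℝ → Path → ℝ} {w : Path} (hT : 0 ≤ T)
    (h : ∀ t ∈ Icc 0 T, X t w ≤ 0 → X' t w ≤ 0) : hit T X' w ≤ hit T X w := by
  refine csInf_le_csInf ⟨0, ?_⟩ ⟨T, Or.inr rfl⟩ ?_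
  · rintro t (ht | ht)
    · exact ht.1.1
    · rw [ht]; exact hT
  · rintro t (ht | ht)
    · exact Or.inl ⟨ht.1, h t ht.1 ht.2⟩
    · exact Or.inr ht

theorem Stage_hit_lt {T : ℝ} {X : ℝ → Path → ℝ} {w : Path}
    (hc : ContinuousOn (fun t => X t w) (Icc 0 T)) (h : hit T X w < T) : X (hit T X w) w ≤ 0 := by
  by_cases he : ∃ t ∈ Icc 0 T, X t w ≤ 0
  · obtain ⟨t, ht, h1⟩ := he
    exact hit_spec hc ht h1
  · have e : {t ∈ Icc 0 T | X t w ≤ 0} = ∅ :=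
      Set.eq_empty_of_forall_notMem fun t ht => he ⟨t, ht.1, ht.2⟩
    rw [hit, e, Set.empty_union, csInf_singleton] at h
    exact absurd h (lt_irrefl _)

theorem Stage_le_rho {η T r t : ℝ} {z : ℂ} {w : Path} (hη : 0 < η) (hz : 0 < z.im) (ht : t ≤ T)
    (h : r < cc η (pf w) z t) : t ≤ rho η z T r w := by
  by_contra hlt
  rw [not_le] at hlt
  have h1 := Stage_hit_lt (X := fun t w => cc η (pf w) z t - r) (w := w) (T := T)
    ((cc_cont hη (continuous_pf w) z).sub continuous_const).continuousOn (hlt.trans_le ht)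
  have h2 := cc_anti hη (continuous_pf w) hz hlt.le
  have h3 : cc η (pf w) z (rho η z T r w) - r ≤ 0 := h1
  linarith

theorem Stage_rho_spec {η T r t : ℝ} {z : ℂ} {w : Path} (hη : 0 < η) (ht : t ∈ Icc 0 T)
    (h : cc η (pf w) z t ≤ r) : cc η (pf w) z (rho η z T r w) ≤ r := by
  have h1 := hit_spec (X := fun t w => cc η (pf w) z t - r) (w := w) (T := T)
    ((cc_cont hη (continuous_pf w) z).sub continuous_const).continuousOn ht (sub_nonpos.2 h)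
  exact sub_nonpos.1 h1

theorem Stage_rho_le {η T r t : ℝ} {z : ℂ} {w : Path} (ht : t ∈ Icc 0 T)
    (h : cc η (pf w) z t ≤ r) : rho η z T r w ≤ t :=
  hit_le (X := fun t w => cc η (pf w) z t - r) ht (sub_nonpos.2 h)

theorem Stage_inter {σ τ : Path → ℝ} {A C : Set Path} (hA : DetS τ A) (hC : DetS σ C)
    (h : ∀ w ∈ A ∩ C, τ w ≤ σ w) : DetS σ (A ∩ C) :=
  ⟨hA.meas.inter hC.meas, fun w w' ha hw =>
    ⟨hA.mem w w' (ha.mono (h w hw)) hw.1, hC.mem w w' ha hw.2⟩⟩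

theorem Stage_dyadic : ∃ φ : ℝ → ℝ, Measurable φ ∧ (range φ).Countable ∧ (∀ x, 0 < φ x) ∧
    ∀ x, 0 < x → φ x ≤ x ∧ x ≤ 2 * φ x := by
  refine ⟨fun x => (2 : ℝ) ^ ((⌊Real.log x / Real.log 2⌋ : ℤ) : ℝ), ?_, ?_, fun x => by positivity,
    fun x hx => ?_⟩
  · exact (measurable_of_countable fun k : ℤ => (2 : ℝ) ^ (k : ℝ)).comp
      (Real.measurable_log.div_const _).floor
  · exact (countable_range fun k : ℤ => (2 : ℝ) ^ (k : ℝ)).mono
      (by rintro _ ⟨x, rfl⟩; exact ⟨_, rfl⟩)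
  · have e : (2 : ℝ) ^ (Real.log x / Real.log 2) = x := Real.rpow_logb two_pos (by norm_num) hx
    constructor
    · conv_rhs => rw [← e]
      exact Real.rpow_le_rpow_of_exponent_le one_le_two (Int.floor_le _)
    · have h1 := Real.rpow_le_rpow_of_exponent_le one_le_two
        (Int.lt_floor_add_one (Real.log x / Real.log 2)).le
      rw [e, Real.rpow_add two_pos, Real.rpow_one] at h1
      linarith

theorem Stage_core {μ : Measure Path} [IsFiniteMeasure μ] {T k P q : ℝ} {N d : ℝ → Path → ℝ}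
    (hM : Mart μ T N d) (hd : ∀ t w, d t w ≤ 0) (hN : ∀ t w, 0 ≤ N t w)
    {σ σ' σ'' τ τ' ξ : Path → ℝ} (sσ : Stp T σ) (sσ' : Stp T σ') (sσ'' : Stp T σ'') (sτ : Stp T τ)
    (sτ' : Stp T τ') (sξ : Stp T ξ) {B St G D B' : Set Path} (hB : DetS σ B) (hD : DetS ξ D)
    (hSt : DetS τ St) (hG : DetS τ' G) (hB' : MeasurableSet B') (h1 : ∀ w, σ w ≤ ξ w)
    (h2 : ∀ w, ξ w ≤ σ' w) (hDB : D ⊆ B) (hSB : St ⊆ B) (hdis : Disjoint D St) (hGS : G ⊆ St)
    (h3 : ∀ w ∈ St, ξ w = τ w ∧ τ w ≤ σ'' w ∧ τ w ≤ τ' w)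
    (h4 : ∀ w ∈ G, τ' w ≤ σ'' w ∧ k * N (τ w) w ≤ N (τ' w) w)
    (h5 : ∫ w in G, N (τ w) w ∂μ = P * ∫ w in St, N (τ w) w ∂μ) (hq : q ≤ k * P) (hq0 : 0 ≤ q)
    (hq1 : q ≤ 1) (h6 : ∫ w in D, N (ξ w) w ∂μ ≤ 1 / 2 * ∫ w in B, N (σ w) w ∂μ)
    (h7 : ∀ w ∈ B', σ' w = σ'' w ∧ w ∉ G ∧ (w ∈ St ∨ w ∈ D)) :
    ∫ w in B', N (σ' w) w ∂μ ≤ (1 - q / 2) * ∫ w in B, N (σ w) w ∂μ := by
  have I : ∀ {υ : Path → ℝ}, Stp T υ → Integrable (fun w => N (υ w) w) μ := fun h =>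
    hM.integrable_at h.det.meas h.mem
  have mono : ∀ {υ : Path → ℝ}, Stp T υ → ∀ {A A' : Set Path}, A ⊆ A' →
      ∫ w in A, N (υ w) w ∂μ ≤ ∫ w in A', N (υ w) w ∂μ := fun h A A' hA =>
    setIntegral_mono_set (I h).integrableOn (ae_of_all _ fun w => hN _ w) hA.eventuallyLE
  have os : ∀ {υ υ' : Path → ℝ}, Stp T υ → Stp T υ' → ∀ {A : Set Path}, DetS υ A →
      (∀ w ∈ A, υ w ≤ υ' w) → ∫ w in A, N (υ' w) w ∂μ ≤ ∫ w in A, N (υ w) w ∂μ :=
    fun h h' A hA hle => hM.os_le h h' hA hle fun w _ u _ => hd u w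
  have sξ' := sσ''.min sτ'
  have dG : DetS (fun w => min (σ'' w) (τ' w)) G := hG.mono fun w hw => le_min (h4 w hw).1 le_rfl
  have dS : DetS (fun w => min (σ'' w) (τ' w)) St :=
    hSt.mono fun w hw => le_min (h3 w hw).2.1 (h3 w hw).2.2
  have e1 := integral_inter_add_sdiff (μ := μ) (s := B') hSt.meas (I sσ').integrableOn
  have e2 : ∫ w in B' ∩ St, N (σ' w) w ∂μ = ∫ w in B' ∩ St, N (σ'' w) w ∂μ :=
    setIntegral_congr_fun (hB'.inter hSt.meas) fun w hw => by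
      simp only [(h7 w hw.1).1]
  have e3 := mono sσ'' (A := B' ∩ St) (A' := St ∩ Gᶜ) fun w hw => ⟨hw.2, (h7 w hw.1).2.1⟩
  have e4 := os sξ' sσ'' (dS.inter (dG.compl sξ'.det)) fun w _ => min_le_left _ _
  have e5 := integral_inter_add_sdiff (μ := μ) (s := St) hG.meas (I sξ').integrableOn
  rw [Set.inter_eq_right.2 hGS, Set.sdiff_eq] at e5
  have e6 := os sτ sξ' hSt fun w hw => le_min (h3 w hw).2.1 (h3 w hw).2.2
  have e7 : ∫ w in G, k * N (τ w) w ∂μ ≤ ∫ w in G, N (min (σ'' w) (τ' w)) w ∂μ :=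
    setIntegral_mono_on ((I sτ).const_mul k).integrableOn (I sξ').integrableOn hG.meas
      fun w hw => by
        rw [min_eq_right (h4 w hw).1]
        exact (h4 w hw).2
  rw [integral_const_mul, h5] at e7
  have e8 := mono sσ' (A := B' \ St) (A' := D) fun w hw => (h7 w hw.1).2.2.resolve_left hw.2
  have e9 := os sξ sσ' hD fun w _ => h2 w
  have e10 : ∫ w in St, N (ξ w) w ∂μ = ∫ w in St, N (τ w) w ∂μ :=
    setIntegral_congr_fun hSt.meas fun w hw => by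
      simp only [(h3 w hw).1]
  have e11 := setIntegral_union hdis hSt.meas (I sξ).integrableOn (I sξ).integrableOn
  have e12 := mono sξ (Set.union_subset hDB hSB)
  have e13 := os sσ sξ hB fun w _ => h1 w
  have hb : 0 ≤ ∫ w in St, N (τ w) w ∂μ := integral_nonneg fun w => hN _ w
  have e14 := mul_le_mul_of_nonneg_right hq hb
  have e15 := mul_le_mul_of_nonneg_left h6 hq0
  have e16 : ∫ w in D, N (ξ w) w ∂μ + ∫ w in St, N (τ w) w ∂μ ≤ ∫ w in B, N (σ w) w ∂μ := by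
    linarith
  have e17 := mul_le_mul_of_nonneg_left e16 (sub_nonneg.2 hq1)
  nlinarith

theorem stage {κ : ℝ} (h0 : 0 < κ) (h8 : κ < 8) : ∃ K c p e₀ : ℝ, ∃ m₀ : ℕ, 1 ≤ K ∧ 0 < c ∧ 0 < p ∧
    p < 1 ∧ 0 < e₀ ∧ 1 ≤ m₀ ∧ ∀ m ≥ m₀, ∀ (μ : Measure Path) (η T r e : ℝ) (z : ℂ) (B : Set Path),
    IsW κ μ → 0 < η → 0 < T → 0 < r → r ≤ z.im → 0 < e → e ≤ e₀ * r / m →
    DetS (rho η z T r) B → (∀ w ∈ B, cc η (pf w) z (rho η z T r w) ≤ r) →
    ∃ B' : Set Path, DetS (rho η z T (r / 8)) B' ∧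
      (∀ w ∈ B', cc η (pf w) z (rho η z T (r / 8) w) ≤ r / 8 ∧
        4 * η ≤ (fl η (pf w) z (rho η z T (r / 8) w)).im) ∧
      ∫ w in B', NN κ η z (rho η z T (r / 8) w) w ∂μ
        ≤ (1 - p ^ (m ^ 2)) * ∫ w in B, NN κ η z (rho η z T r w) w ∂μ ∧
      ∀ w ∈ B, cc η (pf w) z (rho η z T (r / 8) w) ≤ r / 8 →
        4 * η ≤ (fl η (pf w) z (rho η z T (r / 8) w)).im →
        ¬ Good κ K c m e (pf w) (T + z.im ^ 2) z r → w ∈ B' := by
  obtain ⟨s, hs, -, hns⟩ := no_start h0 h8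
  obtain ⟨c, c', p, e₀, m₀, hc, hc', hp, hp1, he₀, hm₀, hzig⟩ := zig_event h0 h8
  obtain ⟨K, c'', Λ, e₁, hK, hc'', hΛ, he₁, hgood⟩ := zig_good h0 h8 hc hc' hs
  obtain ⟨φ, mφ, cφ, pφ, bφ⟩ := Stage_dyadic
  have hk0 : 0 < (4 : ℝ) ^ (-al κ) := by positivity
  have hk1 : (4 : ℝ) ^ (-al κ) ≤ 1 := Real.rpow_le_one_of_one_le_of_nonpos (by norm_num)
    (by linarith [be_pos h8, be_lt_al h0 h8])
  refine ⟨K, c'', p * ((4 : ℝ) ^ (-al κ) / 2), min e₁ (e₀ * Λ), m₀, hK, hc'', by positivity,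
    by nlinarith, by positivity, hm₀, fun m hm μ η T r e z B hμ hη hT hr hrz he hee hB hBr => ?_⟩
  have := hμ.prob
  have hz : 0 < z.im := hr.trans_le hrz
  have hm1 : (1 : ℝ) ≤ m := by exact_mod_cast hm₀.trans hm
  have he1 : e ≤ e₁ * r := by
    refine hee.trans ((div_le_self (by positivity) hm1).trans ?_)
    exact mul_le_mul_of_nonneg_right (min_le_left _ _) hr.le
  have he2 : e / (Λ * r) ≤ e₀ / m := by
    rw [div_le_iff₀ (by positivity)]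
    refine hee.trans ?_
    rw [show e₀ / m * (Λ * r) = e₀ * Λ * r / m by ring]
    gcongr
    exact min_le_right _ _
  obtain ⟨T₁, hT₁, hzig⟩ := hzig m hm
  obtain ⟨E, dE, pE, hE⟩ := hzig μ (e / (Λ * r)) hμ (by positivity) he2
  have hTT : T ≤ T + z.im ^ 2 := le_add_of_nonneg_right (sq_nonneg _)
  obtain ⟨d, hM, hd⟩ := mart_NN hμ h8 hη hz (hT.trans_le hTT)
  have sσ := stp_rho hη hT.le z r
  have sσ' := stp_rho hη hT.le z (r / 8)
  have sσ2 := stp_rho hη hT.le z (r / 2)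
  have sσ'' := stp_rho hη (hT.trans_le hTT).le z (r / 8)
  have aX : Adp T fun t w => max (cc η (pf w) z t - r) (s - sn η (pf w) z t) :=
    (adp_cc hη z T).comp₂ (adp_sn hη hz T) (φ := fun q => max (q.1 - r) (s - q.2)) (by fun_prop)
  have sτ := aX.stp_hit hT.le
  have στ : ∀ w, rho η z T r w ≤
      hit T (fun t w => max (cc η (pf w) z t - r) (s - sn η (pf w) z t)) w := fun w =>
    Stage_hit_mono hT.le fun t _ h => (le_max_left _ _).trans h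
  have τ1 : ∀ w u, 0 ≤ u →
      u < hit T (fun t w => max (cc η (pf w) z t - r) (s - sn η (pf w) z t)) w →
      0 < max (cc η (pf w) z u - r) (s - sn η (pf w) z u) := fun w u hu h =>
    pos_of_lt_hit (X := fun t w => max (cc η (pf w) z t - r) (s - sn η (pf w) z t)) hT.le hu h
  have τ2 := fun w => Stage_hit_lt (w := w) (T := T)
    (X := fun t w => max (cc η (pf w) z t - r) (s - sn η (pf w) z t)) (aX.cont w)
  generalize hit T (fun t w => max (cc η (pf w) z t - r) (s - sn η (pf w) z t)) = τ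
    at sτ στ τ1 τ2
  have σσ2 : ∀ w, rho η z T r w ≤ rho η z T (r / 2) w := fun w =>
    Stage_hit_mono hT.le fun t _ h => by linarith
  have σ2σ' : ∀ w, rho η z T (r / 2) w ≤ rho η z T (r / 8) w := fun w =>
    Stage_hit_mono hT.le fun t _ h => by linarith
  have sξ := sτ.min sσ2
  have σξ : ∀ w, rho η z T r w ≤ min (τ w) (rho η z T (r / 2) w) := fun w =>
    le_min (στ w) (σσ2 w)
  have hn := hns μ η T r z _ _ B hμ hη hT hr hz sσ sξ hB fun w hw => ⟨σξ w, ?_, fun u hu => ?_⟩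
  rotate_left
  · refine le_antisymm (hBr w hw) (sub_nonneg.1 ?_)
    refine nonneg_of_le_hit (X := fun t w => cc η (pf w) z t - r) (T := T)
      ((cc_cont hη (continuous_pf w) z).sub continuous_const).continuousOn ?_
      ⟨(sσ.mem w).1, le_rfl⟩
    rw [cc_zero]
    linarith
  · have h1 := τ1 w u ((sσ.mem w).1.trans hu.1) (hu.2.trans_le (min_le_left _ _))
    have h2 := (cc_anti hη (continuous_pf w) hz hu.1).trans (hBr w hw)
    rcases lt_max_iff.1 h1 with h | h <;> linarith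
  -- the starting set
  have dc := (adp_cc hη z T).det_at sτ
  have dS := (adp_sn hη hz T).det_at sτ
  have dY := (adp_im hη z T).det_at sτ
  have dr := (adp_r2 hη z T).det_at sτ
  obtain ⟨St, dSt, hSt⟩ : ∃ St : Set Path, DetS τ St ∧ ∀ w, w ∈ St ↔ w ∈ B ∧
      (r / 2 < cc η (pf w) z (τ w) ∧ cc η (pf w) z (τ w) ≤ r) ∧ s ≤ sn η (pf w) z (τ w) ∧
        4 * η ≤ (fl η (pf w) z (τ w)).im :=
    ⟨_, (hB.mono fun w _ => στ w).inter ((dc.preimage (measurableSet_Ioc (a := r / 2) (b := r))).inter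
      ((dS.preimage (measurableSet_Ici (a := s))).inter
        (dY.preimage (measurableSet_Ici (a := 4 * η))))), fun w => Iff.rfl⟩
  obtain ⟨ρ, dρ, pρ, cρ, bρ, hρ⟩ : ∃ ρ : Path → ℝ, Det τ ρ ∧ (∀ w, 0 < ρ w) ∧ (range ρ).Countable ∧
      (∀ w, ρ w ≤ z.im) ∧ ∀ w ∈ St, 8 * ρ w ≤ (fl η (pf w) z (τ w)).im ∧
        s * ‖ZZ η (pf w) z (τ w)‖ ≤ 16 * ρ w := by
    refine ⟨fun w => min (s / 8 * φ √(r2 η (pf w) z (τ w) (pf w (τ w)))) z.im,
      dr.comp (φ := fun x => min (s / 8 * φ √x) z.im)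
        (((mφ.comp Real.continuous_sqrt.measurable).const_mul _).min measurable_const),
      fun w => lt_min (mul_pos (by positivity) (pφ _)) hz, ?_, fun w => min_le_right _ _,
      fun w hw => ?_⟩
    · refine (cφ.image fun x => min (s / 8 * x) z.im).mono ?_
      rintro _ ⟨w, rfl⟩
      exact ⟨_, ⟨_, rfl⟩, rfl⟩
    · have h1 := Real.sqrt_pos.2 (r2_pos hη (continuous_pf w) hz (τ w) (pf w (τ w)))
      have h2 := ((hSt w).1 hw).2.2.1
      rw [sn, le_div_iff₀ h1] at h2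
      have h3 := bφ _ h1
      have h4 : (fl η (pf w) z (τ w)).im ≤ (fl η (pf w) z 0).im :=
        fl_im_anti hη (continuous_pf w) hz (sτ.mem w).1
      rw [fl_zero hη (continuous_pf w)] at h4
      have h5 := mul_le_mul_of_nonneg_left h3.1 hs.le
      have h6 := mul_le_mul_of_nonneg_left h3.2 hs.le
      have h7 : ‖ZZ η (pf w) z (τ w)‖ = √(r2 η (pf w) z (τ w) (pf w (τ w))) := by
        rw [r2_eq, Real.sqrt_sq (norm_nonneg _)]
      have h8 := fl_im_pos hη (continuous_pf w) hz (τ w)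
      dsimp only
      rw [min_eq_left (by linarith), h7]
      constructor <;> linarith
  have sτ' : Stp (T + z.im ^ 2) fun w => τ w + ρ w ^ 2 * T₁ :=
    sτ.add (dρ.comp (φ := fun x => x ^ 2 * T₁) (by fun_prop)) fun w =>
      ⟨mul_nonneg (sq_nonneg _) hT₁.1, (mul_le_of_le_one_right (sq_nonneg _) hT₁.2).trans
        (pow_le_pow_left₀ (pρ w).le (bρ w) 2)⟩
  have dG := DetS.shs sτ dSt dρ hT₁.1 dE
  have hmul := hμ.strong_mul sτ dSt dρ pρ cρ dE.meas ((adp_NN κ hη hz T).det_at sτ)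
  have hG : ∀ w ∈ St ∩ {w | shs (τ w) (ρ w) w ∈ E},
      r / 8 < cc η (pf w) z (τ w + ρ w ^ 2 * T₁) ∧
      (4 : ℝ) ^ (-al κ) * NN κ η z (τ w) w ≤ NN κ η z (τ w + ρ w ^ 2 * T₁) w ∧
      Good κ K c'' m e (pf w) (T + z.im ^ 2) z r := by
    intro w hw
    obtain ⟨-, ⟨h1, h2⟩, -, h4⟩ := (hSt w).1 hw.1
    obtain ⟨h5, h6⟩ := hρ w hw.1
    obtain ⟨h7, h9⟩ := hE _ hw.2
    have h10 := zig_point h0 h8 hη (pρ w) hT₁ (continuous_pf w) (continuous_pf _) hz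
      (shS_shs (τ w) (ρ w) T₁ w) h7 h5 h4
    refine ⟨by linarith [h10.1], h10.2, ?_⟩
    exact (hgood η (τ w) (ρ w) T₁ r e m (pf w) _ z hη (sτ.mem w).1 (pρ w) hr he he1
      (continuous_pf w) (continuous_pf _) hz (shS_shs (τ w) (ρ w) T₁ w) h5 (by linarith) h6 h1.le h2
      h9).mono (sτ'.mem w).2
  have hGS : St ∩ {w | shs (τ w) (ρ w) w ∈ E} ⊆ St := inter_subset_left
  generalize St ∩ {w | shs (τ w) (ρ w) w ∈ E} = G at dG hmul hG hGS
  obtain ⟨C, dC, hC⟩ : ∃ C : Set Path, DetS (rho η z T (r / 8)) C ∧ ∀ w, w ∈ C ↔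
      cc η (pf w) z (rho η z T (r / 8) w) ≤ r / 8 ∧
        4 * η ≤ (fl η (pf w) z (rho η z T (r / 8) w)).im :=
    ⟨_, (((adp_cc hη z T).det_at sσ').preimage (measurableSet_Iic (a := r / 8))).inter
      (((adp_im hη z T).det_at sσ').preimage (measurableSet_Ici (a := 4 * η))), fun w => Iff.rfl⟩
  have dGC : DetS (rho η z T (r / 8)) (G ∩ C) := by
    refine Stage_inter dG dC fun w hw => ?_
    by_contra hlt
    have h1 := cc_anti hη (continuous_pf w) hz (not_le.1 hlt).le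
    linarith [(hG w hw.1).1, ((hC w).1 hw.2).1]
  have dB' := ((hB.mono fun w _ => (σσ2 w).trans (σ2σ' w)).inter dC).inter (dGC.compl sσ'.det)
  have ξτ : ∀ w ∈ St, min (τ w) (rho η z T (r / 2) w) = τ w := fun w hw =>
    min_eq_left (Stage_le_rho hη hz (sτ.mem w).2 ((hSt w).1 hw).2.1.1)
  refine ⟨_, dB', fun w hw => (hC w).1 hw.1.2, ?_, fun w hw h1 h2 h3 =>
    ⟨⟨hw, (hC w).2 ⟨h1, h2⟩⟩, fun h => h3 (hG w h.1).2.2⟩⟩
  have hp2 : p ^ (m ^ 2) ≤ 1 := pow_le_one₀ hp.le hp1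
  have hp3 : 0 ≤ p ^ (m ^ 2) := by positivity
  have key := Stage_core (q := (4 : ℝ) ^ (-al κ) * p ^ (m ^ 2)) hM hd (NN_nonneg κ hη hz)
    (sσ.mono hTT) (sσ'.mono hTT) sσ'' (sτ.mono hTT) sτ' (sξ.mono hTT) hB
    ((hB.mono fun w _ => σξ w).inter
      (((adp_cc hη z T).det_at sξ).preimage (measurableSet_Iic (a := r / 2))))
    dSt dG dB'.meas σξ (fun w => (min_le_right _ _).trans (σ2σ' w)) inter_subset_left
    (fun w hw => ((hSt w).1 hw).1) ?_ hGS (fun w hw => ⟨ξτ w hw, ?_, ?_⟩)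
    (fun w hw => ⟨Stage_le_rho hη hz (sτ'.mem w).2 (hG w hw).1, (hG w hw).2.1⟩) hmul
    (mul_le_mul_of_nonneg_left pE hk0.le) (by positivity) (by nlinarith) hn fun w hw => ?_
  · refine key.trans (mul_le_mul_of_nonneg_right ?_ (integral_nonneg fun w =>
      NN_nonneg κ hη hz _ w))
    have h1 : ((4 : ℝ) ^ (-al κ) / 2) ^ (m ^ 2) ≤ (4 : ℝ) ^ (-al κ) / 2 :=
      pow_le_of_le_one (by positivity) (by linarith) (pow_ne_zero 2 (by omega))
    rw [mul_pow]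
    nlinarith
  · refine Set.disjoint_left.2 fun w hw hw' => ?_
    have h1 : cc η (pf w) z (min (τ w) (rho η z T (r / 2) w)) ≤ r / 2 := hw.2
    rw [ξτ w hw'] at h1
    linarith [((hSt w).1 hw').2.1.1]
  · exact Stage_le_rho hη hz ((sτ.mem w).2.trans hTT) (by linarith [((hSt w).1 hw).2.1.1])
  · exact le_add_of_nonneg_right (mul_nonneg (sq_nonneg _) hT₁.1)
  · obtain ⟨h1, h2⟩ := (hC w).1 hw.1.2
    have h3 := Stage_rho_le ((sσ'.mono hTT).mem w) h1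
    refine ⟨le_antisymm (Stage_rho_le ⟨(sσ''.mem w).1, h3.trans (sσ'.mem w).2⟩
      (Stage_rho_spec hη ((sσ'.mono hTT).mem w) h1)) h3, fun h => hw.2 ⟨h, hw.1.2⟩, ?_⟩
    rcases lt_or_ge (τ w) (rho η z T (r / 2) w) with h | h
    · have h4 := max_le_iff.1 (τ2 w (h.trans_le (sσ2.mem w).2))
      have h5 : 0 < cc η (pf w) z (τ w) - r / 2 :=
        pos_of_lt_hit (X := fun t w => cc η (pf w) z t - r / 2) hT.le (sτ.mem w).1 h
      have h6 : (fl η (pf w) z (rho η z T (r / 8) w)).im ≤ (fl η (pf w) z (τ w)).im :=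
        fl_im_anti hη (continuous_pf w) hz (h.le.trans (σ2σ' w))
      exact Or.inl ((hSt w).2 ⟨hw.1.1, ⟨by linarith, by linarith [h4.1]⟩, by linarith [h4.2],
        h2.trans h6⟩)
    · refine Or.inr ⟨hw.1.1, ?_⟩
      show cc η (pf w) z (min (τ w) (rho η z T (r / 2) w)) ≤ r / 2
      rw [min_eq_right h]
      exact Stage_rho_spec hη (sσ'.mem w) (by linarith)

end Vale.Agent.P164
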