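import Vale.Agent.P164.PathM
import Vale.Agent.P164.Dist

/-!
# P164 StageB

Ingredients of one stage.
-/

open MeasureTheory ProbabilityTheory Set Filter Topology Complex Function
open scoped NNReal ENNReal ComplexConjugate

noncomputable section

namespace Vale.Agent.P164

variable {κ : ℝ}

/-- the marked point during the zigzag: `fl_shs`, `cc_shs`, `fl_im_sq_ge`, `norm_fl_sub_le`, `cc_ge'`
for `ζ = ZZ / ρ`, `im ζ ≥ 8` -/
theorem zig_point (h0 : 0 < κ) (h8 : κ < 8) {η τ ρ T₁ : ℝ} {w w' : ℝ → ℝ} {z : ℂ} (hη : 0 < η)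
    (hρ : 0 < ρ) (hT : T₁ ∈ Icc (0 : ℝ) 1) (hw : Continuous w) (hw' : Continuous w')
    (hz : 0 < z.im) (h : ShS τ ρ T₁ w w') (h2 : ∀ t ∈ Icc 0 T₁, |w' t| ≤ 2)
    (h8' : 8 * ρ ≤ (fl η w z τ).im) (h4 : 4 * η ≤ (fl η w z τ).im) :
    cc η w z τ / 2 ≤ cc η w z (τ + ρ ^ 2 * T₁) ∧
    (4 : ℝ) ^ (-al κ) * (pv η w z (-be κ) (al κ) 0 τ * kil η w z τ)
      ≤ pv η w z (-be κ) (al κ) 0 (τ + ρ ^ 2 * T₁) * kil η w z (τ + ρ ^ 2 * T₁) := by
  have hT0 : 0 ≤ T₁ := hT.1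
  have hT1 : T₁ ≤ 1 := hT.2
  have hTT : T₁ ∈ Icc 0 T₁ := ⟨hT0, le_rfl⟩
  have hη' : 0 < η / ρ := div_pos hη hρ
  have hfl := fl_shs hη hρ hw hw' h z hTT
  have hcc := cc_shs hη hρ hw hw' h hz hTT
  have hY : 0 < (fl η w z τ).im := fl_im_pos hη hw hz τ
  set ζ : ℂ := (fl η w z τ - w τ) / ρ with hζ
  have hρc : (ρ : ℂ) ≠ 0 := by exact_mod_cast hρ.ne'
  have hZ : ZZ η w z τ = ρ * ζ := by
    rw [hζ, ZZ]
    field_simp
  have hζim : (fl η w z τ).im = ρ * ζ.im := by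
    rw [← ZZ_im, hZ]
    simp
  have hζ8 : 8 ≤ ζ.im := by
    rw [hζim] at h8'
    nlinarith
  have hζ0 : 0 < ζ.im := by linarith
  set g : ℂ := fl (η / ρ) w' ζ T₁ with hg
  have hg0 : 0 < g.im := fl_im_pos hη' hw' hζ0 T₁
  have hg2 : ζ.im ^ 2 - 4 * T₁ ≤ g.im ^ 2 := fl_im_sq_ge hη' hw' ζ hT0
  have hg3 : 7 / 8 * ζ.im ≤ g.im := by
    refine (pow_le_pow_iff_left₀ (by positivity) hg0.le two_ne_zero).1 ?_
    nlinarith
  have hg7 : 7 ≤ g.im := by linarith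
  have hgd : ‖g - ζ‖ ≤ 1 := by
    refine (norm_fl_sub_le hη' hw' hζ0 hT0).trans ?_
    rw [div_le_one hg0]
    linarith
  have hc' : ζ.im / 2 ≤ cc (η / ρ) w' ζ T₁ := by
    refine le_trans ?_ (cc_ge' hη' hw' hζ0 hT0)
    have e1 : -4 * T₁ / g.im ^ 2 + 1 ≤ Real.exp (-4 * T₁ / g.im ^ 2) := Real.add_one_le_exp _
    have e2 : -(1 / 2) ≤ -4 * T₁ / g.im ^ 2 := by
      rw [le_div_iff₀ (by positivity)]
      nlinarith
    nlinarith
  have hc0 : 0 < cc η w z τ := cc_pos hz η w τ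
  have hc1 : 0 < cc η w z (τ + ρ ^ 2 * T₁) := cc_pos hz η w _
  constructor
  · refine le_of_mul_le_mul_right ?_ hY
    rw [hcc, hζim]
    have : cc η w z τ * (ρ * (ζ.im / 2)) ≤ cc η w z τ * (ρ * cc (η / ρ) w' ζ T₁) := by gcongr
    linarith
  · have hβ := be_pos h8
    have hα : 0 < al κ := hβ.trans (be_lt_al h0 h8)
    have hZ' : ZZ η w z (τ + ρ ^ 2 * T₁) = ρ * (g - w' T₁) := by
      rw [ZZ, hfl, h T₁ hTT]
      push_cast
      field_simp
      ring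
    have hY' : (fl η w z (τ + ρ ^ 2 * T₁)).im = ρ * g.im := by
      rw [← ZZ_im, hZ']
      simp
    have hk : kil η w z (τ + ρ ^ 2 * T₁) = 1 := by
      refine stp_one ?_
      rw [le_div_iff₀ hη, hY']
      rw [hζim] at h4
      nlinarith
    have hk0 : kil η w z τ ≤ 1 := stp_le_one _
    have hn8 : 8 ≤ ‖ζ‖ := hζ8.trans ((le_abs_self _).trans (abs_im_le_norm ζ))
    have hs0 : sn η w z τ = ζ.im / ‖ζ‖ := by
      rw [sn_eq, sS, ZZ_im, hζim, hZ, norm_mul, norm_real, Real.norm_of_nonneg hρ.le,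
        mul_div_mul_left _ _ hρ.ne']
    have hs1 : sn η w z (τ + ρ ^ 2 * T₁) = g.im / ‖g - w' T₁‖ := by
      rw [sn_eq, sS, ZZ_im, hY', hZ', norm_mul, norm_real, Real.norm_of_nonneg hρ.le,
        mul_div_mul_left _ _ hρ.ne']
    have hn1 : ‖g - w' T₁‖ ≤ 2 * ‖ζ‖ := by
      have e1 : g - w' T₁ = (g - ζ) + ζ - w' T₁ := by ring
      have e2 : ‖(w' T₁ : ℂ)‖ ≤ 2 := by
        rw [norm_real]
        exact h2 T₁ hTT
      have e3 := norm_sub_le ((g - ζ) + ζ) (w' T₁ : ℂ)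
      have e4 := norm_add_le (g - ζ) ζ
      rw [e1]
      linarith
    have hn0 : 0 < ‖g - w' T₁‖ := by
      have : (g - w' T₁).im = g.im := by simp
      exact lt_of_lt_of_le hg0 (this ▸ (le_abs_self _).trans (abs_im_le_norm _))
    have hsn : sn η w z τ / 4 ≤ sn η w z (τ + ρ ^ 2 * T₁) := by
      rw [hs0, hs1, div_div, div_le_div_iff₀ (by positivity) hn0]
      have e1 : ζ.im * ‖g - w' T₁‖ ≤ ζ.im * (2 * ‖ζ‖) := by gcongr
      have e2 : 7 / 8 * ζ.im * (‖ζ‖ * 4) ≤ g.im * (‖ζ‖ * 4) := by gcongr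
      have e3 : 0 ≤ ζ.im * ‖ζ‖ := by positivity
      nlinarith
    have hsp := sn_pos hη hw hz τ
    have e1 : (4 : ℝ) ^ (-al κ) * sn η w z τ ^ al κ ≤ sn η w z (τ + ρ ^ 2 * T₁) ^ al κ := by
      have := Real.rpow_le_rpow (by positivity) hsn hα.le
      rwa [Real.div_rpow hsp.le (by norm_num), div_eq_inv_mul,
        ← Real.rpow_neg (by norm_num)] at this
    have e2 : cc η w z τ ^ (-be κ) ≤ cc η w z (τ + ρ ^ 2 * T₁) ^ (-be κ) := by
      refine Real.rpow_le_rpow_of_nonpos hc1 (cc_anti hη hw hz ?_) (by linarith)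
      have : 0 ≤ ρ ^ 2 * T₁ := by positivity
      linarith
    rw [pv_eq hη hw hz, pv_eq hη hw hz, hk, Real.rpow_zero, Real.rpow_zero, mul_one, mul_one,
      mul_one]
    have e3 : 0 ≤ cc η w z τ ^ (-be κ) * ((4 : ℝ) ^ (-al κ) * sn η w z τ ^ al κ) := by positivity
    calc (4 : ℝ) ^ (-al κ) * (cc η w z τ ^ (-be κ) * sn η w z τ ^ al κ * kil η w z τ)
        = cc η w z τ ^ (-be κ) * ((4 : ℝ) ^ (-al κ) * sn η w z τ ^ al κ) * kil η w z τ := by ring
      _ ≤ cc η w z τ ^ (-be κ) * ((4 : ℝ) ^ (-al κ) * sn η w z τ ^ al κ) :=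
          mul_le_of_le_one_right e3 hk0
      _ ≤ _ := mul_le_mul e2 e1 (by positivity) (by positivity)

/-- `fat_pull` with the distortion estimates for `bf w τ`: for `ξ ∈ box c` the points `w τ + ρ ξ` and
`fl η w z τ` have height `≥ min c 1 ρ` and distance `≤ (16 / s + 2) ρ`, and
`ρ |f'| = ρ cc / Y ∈ [r s / 32, r / 8]` at the second one -/
theorem zig_good (h0 : 0 < κ) (h8 : κ < 8) {c c' s : ℝ} (hc : 0 < c) (hc' : 0 < c') (hs : 0 < s) :
    ∃ K c'' Λ e₁ : ℝ, 1 ≤ K ∧ 0 < c'' ∧ 0 < Λ ∧ 0 < e₁ ∧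
    ∀ (η τ ρ T₁ r e : ℝ) (m : ℕ) (w w' : ℝ → ℝ) (z : ℂ), 0 < η → 0 ≤ τ → 0 < ρ → 0 < r → 0 < e →
    e ≤ e₁ * r → Continuous w → Continuous w' → 0 < z.im → ShS τ ρ T₁ w w' →
    8 * ρ ≤ (fl η w z τ).im → η ≤ (fl η w z τ).im → s * ‖ZZ η w z τ‖ ≤ 16 * ρ →
    r / 2 ≤ cc η w z τ → cc η w z τ ≤ r →
    Fat w' T₁ (e / (Λ * r)) (box c) (c' * (m : ℝ) ^ be κ * (e / (Λ * r)) ^ be κ) →
    Good κ K c'' m e w (τ + ρ ^ 2 * T₁) z r := by
  set D : ℝ := 16 / s + 2 with hD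
  have hD0 : 0 < D := by positivity
  set E : ℝ := Real.exp (4 * D / c) with hE
  have hE0 : 0 < E := Real.exp_pos _
  refine ⟨D * E / 8 + 1, (s / (32 * E)) ^ 2 * c' / (E / 8) ^ be κ, E / 8, s / (32 * E) * c,
    le_add_of_nonneg_left (by positivity), by positivity, by positivity, by positivity, ?_⟩
  intro η τ ρ T₁ r e m w w' z hη hτ hρ hr he he1 hw hw' hz hS h8ρ hηY hsZ hr1 hr2 hF
  obtain ⟨hb1, hb2⟩ := bf_fl hη hw hz hτ hηY
  have hU := bf_univ hw hτ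
  set Z : ℂ := fl η w z τ with hZ
  have hY : 0 < Z.im := by linarith
  set a : ℝ := ‖deriv (bf w τ) Z‖ with ha
  have ha0 : 0 ≤ a := norm_nonneg _
  have hca : Z.im * a = cc η w z τ := hb2
  have hZZ : ‖ZZ η w z τ‖ ≤ 16 / s * ρ := by
    rw [div_mul_eq_mul_div, le_div_iff₀ hs]
    linarith
  have hYZ : Z.im ≤ ‖ZZ η w z τ‖ := by
    rw [hZ, ← ZZ_im]
    exact (le_abs_self _).trans (abs_im_le_norm _)
  have hhi : ρ * a ≤ r / 8 := by nlinarith
  have hlo : r * s / 32 ≤ ρ * a := by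
    have e1 : s * Z.im ≤ 16 * ρ := le_trans (by gcongr) hsZ
    have e2 : s * Z.im * a ≤ 16 * ρ * a := by gcongr
    have e3 : s * (r / 2) ≤ s * (Z.im * a) := by
      rw [hca]
      gcongr
    nlinarith
  have hbox : MeasurableSet (box c) := by
    refine IsClosed.measurableSet ?_
    exact (isClosed_le continuous_re.abs continuous_const).inter
      ((isClosed_le continuous_const continuous_im).inter
        (isClosed_le continuous_im continuous_const))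
  have hee : E / 8 * r * (e / (E / 8 * r)) = e := by field_simp
  have key := fat_pull (lo := s / (32 * E) * r) (hi := E / 8 * r) (y := c)
    (D' := Metric.ball z ((D * E / 8 + 1) * r)) hw hw' hτ hρ hS
    ((measurableSet_ever' hw' T₁ _).inter hbox) (by positivity) ?_ ?_ hF
  · rw [hee] at key
    refine le_trans (le_of_eq ?_) (key.trans (measure_mono (inter_subset_inter_left _ diff_subset)))
    congr 1
    have e1 : r ^ dd κ = r ^ 2 / r ^ be κ := by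
      rw [eq_div_iff (by positivity), ← Real.rpow_add hr, dd_add_be, Real.rpow_two]
    rw [e1, Real.div_rpow he.le (by positivity), Real.mul_rpow (by positivity) hr.le]
    have : 0 < (E / 8) ^ be κ := by positivity
    have : 0 < r ^ be κ := by positivity
    field_simp
  · intro ξ hξ
    obtain ⟨x1, x2, x3⟩ := hξ
    have hc1 : c ≤ 1 := x2.trans x3
    have hξn : ‖ξ‖ ≤ 2 := by
      have := norm_le_abs_re_add_abs_im ξ
      rw [abs_of_nonneg (hc.le.trans x2)] at this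
      linarith
    have hy : 0 < ρ * c := by positivity
    have hP : ρ * c ≤ (w τ + ρ * ξ : ℂ).im := by
      have : (w τ + ρ * ξ : ℂ).im = ρ * ξ.im := by simp
      rw [this]
      gcongr
    have hZy : ρ * c ≤ Z.im := by nlinarith
    have hd : ‖(w τ + ρ * ξ : ℂ) - Z‖ ≤ D * ρ := by
      have e1 : (w τ + ρ * ξ : ℂ) - Z = ρ * ξ - ZZ η w z τ := by
        rw [ZZ]
        ring
      have e2 : ‖(ρ * ξ : ℂ)‖ ≤ ρ * 2 := by
        rw [norm_mul, norm_real, Real.norm_of_nonneg hρ.le]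
        gcongr
      have e3 := norm_sub_le (ρ * ξ : ℂ) (ZZ η w z τ)
      rw [e1, hD]
      linarith
    have hx : Real.exp (4 * ‖(w τ + ρ * ξ : ℂ) - Z‖ / (ρ * c)) ≤ E := by
      refine Real.exp_le_exp.2 ?_
      rw [div_le_div_iff₀ hy hc]
      nlinarith
    have d1 : ‖deriv (bf w τ) (w τ + ρ * ξ)‖ ≤ a * E :=
      (hU.deriv_le hy hZy hP).trans (by gcongr)
    have d2 : a ≤ ‖deriv (bf w τ) (w τ + ρ * ξ)‖ * E := by
      refine (hU.deriv_le hy hP hZy).trans ?_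
      rw [norm_sub_rev]
      gcongr
    have d3 : ‖bf w τ (w τ + ρ * ξ) - z‖ ≤ D * ρ * a * E := by
      have := hU.sub_le hy hZy hP
      rw [hb1] at this
      refine this.trans ?_
      gcongr
    refine ⟨x2, ?_, ?_, ?_⟩
    · have e1 : ρ * a ≤ ρ * (‖deriv (bf w τ) (w τ + ρ * ξ)‖ * E) := by gcongr
      have e2 : s / (32 * E) * r = r * s / 32 / E := by field_simp
      rw [e2, div_le_iff₀ hE0]
      linarith
    · have e1 : ρ * ‖deriv (bf w τ) (w τ + ρ * ξ)‖ ≤ ρ * (a * E) := by gcongr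
      have e2 : ρ * a * E ≤ r / 8 * E := by gcongr
      linarith
    · rw [mem_ball_iff_norm]
      have e2 : ρ * a * (D * E) ≤ r / 8 * (D * E) := by gcongr
      linarith
  · rw [hee]
    linarith

theorem Good.mono {K c : ℝ} {m : ℕ} {e : ℝ} {w : ℝ → ℝ} {T T' : ℝ} {x : ℂ} {r : ℝ}
    (h : Good κ K c m e w T x r) (hT : T ≤ T') : Good κ K c m e w T' x r := by
  refine le_trans h (measure_mono (inter_subset_inter_left _ (ever_mono hT le_rfl)))

end Vale.Agent.P164
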