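import Vale.Agent.P164.OP
import Vale.Agent.P164.Dist
import Vale.Agent.P164.StageB

/-!
# P164 StageA

Ingredients of one stage.
-/

open MeasureTheory ProbabilityTheory Set Filter Topology Complex Function
open scoped NNReal ENNReal ComplexConjugate

noncomputable section

namespace Vale.Agent.P164

variable {κ : ℝ}

theorem StageA_II (h0 : 0 < κ) (p S : ℝ) : II κ p (al κ + 2) 0 S = 8 + κ + S ^ 2 *
    (-4 * p + 4 * (al κ + 2) - κ / 2 * (al κ + 2) * (al κ + 2 + 2)) := by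
  unfold II
  congr 1
  unfold al
  field_simp
  ring

theorem StageA_pv {η : ℝ} {w : ℝ → ℝ} {z : ℂ} (hη : 0 < η) (hw : Continuous w) (hz : 0 < z.im)
    (p a t : ℝ) : pv η w z (p - 2) a 0 t = (cc η w z t ^ 2)⁻¹ * pv η w z p a 0 t ∧
      pv η w z p (a + 2) 0 t = pv η w z p a 0 t * sn η w z t ^ 2 ∧ 0 < pv η w z p a 0 t := by
  have hc := cc_pos hz η w t
  have hs := sn_pos hη hw hz t
  simp only [pv_eq hη hw hz, Real.rpow_zero, mul_one]
  refine ⟨?_, ?_, by positivity⟩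
  · rw [Real.rpow_sub hc, Real.rpow_two]
    field_simp
  · rw [Real.rpow_add hs, Real.rpow_two]
    ring

/-- the local supermartingale -/
def StageA_V (κ η s : ℝ) (z : ℂ) (t : ℝ) (w : Path) : ℝ :=
  2 * s ^ 2 * (pv η (pf w) z (-be κ - 2) (al κ) 0 t * kil η (pf w) z t * 1) +
    -1 * (pv η (pf w) z (-be κ - 2) (al κ + 2) 0 t * kil η (pf w) z t * 1)

/-- its drift -/
def StageA_d (κ η s : ℝ) (z : ℂ) (t : ℝ) (w : Path) : ℝ :=
  2 * s ^ 2 * drf κ η (pf w) z (-be κ - 2) (al κ) 0 (fun _ => 1) t +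
    -1 * drf κ η (pf w) z (-be κ - 2) (al κ + 2) 0 (fun _ => 1) t

theorem StageA_mart (h8 : κ < 8) {μ : Measure Path} (hμ : IsW κ μ) {η T : ℝ} {z : ℂ} (hη : 0 < η)
    (hz : 0 < z.im) (hT : 0 < T) (s : ℝ) : Mart μ T (StageA_V κ η s z) (StageA_d κ η s z) := by
  have := hμ.prob
  have ha : 0 ≤ al κ := ((be_pos h8).trans (be_lt_al hμ.pos h8)).le
  exact ((mart_pw hμ hη hz hT (-be κ - 2) ha 0 (θ := fun _ => 1) contDiff_const).smul
    (2 * s ^ 2)).add ((mart_pw hμ hη hz hT (-be κ - 2) (a := al κ + 2) (by linarith) 0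
      (θ := fun _ => 1) contDiff_const).smul (-1))

theorem StageA_V_eq {η s : ℝ} {z : ℂ} (hη : 0 < η) (hz : 0 < z.im) (t : ℝ) (w : Path) :
    StageA_V κ η s z t w =
      (cc η (pf w) z t ^ 2)⁻¹ * (2 * s ^ 2 - sn η (pf w) z t ^ 2) * NN κ η z t w := by
  unfold StageA_V NN
  rw [(StageA_pv hη (continuous_pf w) hz (-be κ - 2) (al κ) t).2.1,
    (StageA_pv hη (continuous_pf w) hz (-be κ) (al κ) t).1]
  ring

theorem StageA_d_le (h0 : 0 < κ) {η s : ℝ} {z : ℂ} (hη : 0 < η) (hz : 0 < z.im) {t : ℝ} {w : Path}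
    (hs : s ^ 2 * (16 + |-4 * (-be κ - 2) + 4 * (al κ + 2)
      - κ / 2 * (al κ + 2) * (al κ + 2 + 2)|) ≤ 8) (h : sn η (pf w) z t ≤ s) :
    StageA_d κ η s z t w ≤ 0 := by
  have hw := continuous_pf w
  obtain ⟨-, e1, hp⟩ := StageA_pv hη hw hz (-be κ - 2) (al κ) t
  have hS := sn_pos hη hw hz t
  have hr := r2_pos hη hw hz t (pf w t)
  have hk : 0 ≤ kil η (pf w) z t := stp_nonneg _
  have hD := kilD_nonneg hη (pf w) z t
  unfold StageA_d drf
  rw [e1, StageA_II h0, II_al h0]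
  simp only [deriv_const', mul_zero, zero_mul, sub_zero, mul_one]
  generalize pv η (pf w) z (-be κ - 2) (al κ) 0 t = P at hp
  generalize sn η (pf w) z t = S at hS h
  generalize r2 η (pf w) z t (pf w t) = R at hr
  generalize kil η (pf w) z t = k at hk
  generalize kilD η (pf w) z t = D at hD
  generalize -4 * (-be κ - 2) + 4 * (al κ + 2) - κ / 2 * (al κ + 2) * (al κ + 2 + 2) = J at hs
  have h1 : S ^ 2 ≤ s ^ 2 := pow_le_pow_left₀ hS.le h 2
  have h2 : -(S ^ 2 * J) ≤ s ^ 2 * |J| := by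
    have := neg_abs_le J
    have h3 := abs_nonneg J
    nlinarith [sq_nonneg S]
  have h3 : 0 ≤ 8 + κ + S ^ 2 * J - 16 * s ^ 2 := by nlinarith
  have e : 2 * s ^ 2 * (P * (k * (0 - 4 * S ^ 2 * (-be κ - 2 + be κ)) / R - D)) +
      -1 * (P * S ^ 2 * (k * (8 + κ + S ^ 2 * J) / R - D)) =
      -(P * (k * S ^ 2 * (8 + κ + S ^ 2 * J - 16 * s ^ 2) / R + D * (2 * s ^ 2 - S ^ 2))) := by
    ring
  rw [e, neg_nonpos]
  have h4 : 0 ≤ 2 * s ^ 2 - S ^ 2 := by nlinarith [sq_nonneg s]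
  positivity

/-- `V = (2 s ^ 2 pv (-β - 2) α 0 - pv (-β - 2) (α + 2) 0) kil` has nonpositive drift while `S ≤ s`:
`II κ (-β - 2) α 0 S = 8 S ^ 2`, `II κ (-β - 2) (α + 2) 0 S = 8 + κ + S ^ 2 I₁`. Use `Mart.os_le` on
`B' = B ∩ {S σ ≤ s}` between `σ` and `min ξ (first time S ≥ s after σ)`; by the hypotheses one can take
`ξ` itself: on `B'` we have `S ≤ s` on `[σ, ξ]`. On `B \\ B'` we have `ξ = σ`, `cc ξ = r > r / 2`. -/
theorem no_start (h0 : 0 < κ) (h8 : κ < 8) : ∃ s : ℝ, 0 < s ∧ s ≤ 1 ∧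
    ∀ (μ : Measure Path) (η T r : ℝ) (z : ℂ) (σ ξ : Path → ℝ) (B : Set Path), IsW κ μ → 0 < η →
    0 < T → 0 < r → 0 < z.im → Stp T σ → Stp T ξ → DetS σ B →
    (∀ w ∈ B, σ w ≤ ξ w ∧ cc η (pf w) z (σ w) = r ∧
      ∀ u ∈ Ico (σ w) (ξ w), sn η (pf w) z u ≤ s) →
    ∫ w in B ∩ {w | cc η (pf w) z (ξ w) ≤ r / 2}, NN κ η z (ξ w) w ∂μ
      ≤ 1 / 2 * ∫ w in B, NN κ η z (σ w) w ∂μ := by
  generalize hJ : 16 + |-4 * (-be κ - 2) + 4 * (al κ + 2)
      - κ / 2 * (al κ + 2) * (al κ + 2 + 2)| = J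
  have hJ0 : 16 ≤ J := by rw [← hJ]; exact le_add_of_nonneg_right (abs_nonneg _)
  have hJ1 : 0 < J := by linarith
  have hs0 : 0 < 8 / J := by positivity
  have hs1 : 8 / J ≤ 1 := by rw [div_le_one hJ1]; linarith
  have hs2 : (8 / J) ^ 2 * J ≤ 8 := by
    have e : (8 / J) ^ 2 * J = 8 / J * 8 := by field_simp
    rw [e]; linarith
  generalize 8 / J = s at hs0 hs1 hs2
  rw [← hJ] at hs2
  refine ⟨s, hs0, hs1, fun μ η T r z σ ξ B hμ hη hT hr hz hσ hξ hB h => ?_⟩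
  have := hμ.prob
  have hM := StageA_mart h8 hμ hη hz hT s
  obtain ⟨d, hN, -⟩ := mart_NN hμ h8 hη hz hT
  have iσ := hN.integrable_at hσ.det.meas hσ.mem
  have iξ := hN.integrable_at hξ.det.meas hξ.mem
  have jσ := hM.integrable_at hσ.det.meas hσ.mem
  have jξ := hM.integrable_at hξ.det.meas hξ.mem
  have hB' : DetS σ (B ∩ (fun w => sn η (pf w) z (σ w)) ⁻¹' Iic s) :=
    hB.inter (((adp_sn hη hz T).det_at hσ).preimage measurableSet_Iic)
  have hC : MeasurableSet {w | cc η (pf w) z (ξ w) ≤ r / 2} :=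
    measurableSet_le ((adp_cc hη z T).det_at hξ).meas measurable_const
  generalize hB'e : B ∩ (fun w => sn η (pf w) z (σ w)) ⁻¹' Iic s = B' at hB'
  have hsub : B' ⊆ B := hB'e ▸ inter_subset_left
  have hBσ : ∀ w ∈ B', sn η (pf w) z (σ w) ≤ s := fun w hw => by rw [← hB'e] at hw; exact hw.2
  have hBξ : ∀ w ∈ B', sn η (pf w) z (ξ w) ≤ s := fun w hw => by
    obtain ⟨h1, -, h3⟩ := h w (hsub hw)
    rcases h1.eq_or_lt with e | hlt
    · rw [← e]; exact hBσ w hw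
    · have hc := sn_cont hη (continuous_pf w) hz
      exact (isClosed_le hc continuous_const).closure_subset_iff.2 h3
        (by rw [closure_Ico hlt.ne]; exact right_mem_Icc.2 h1)
  have e : B ∩ {w | cc η (pf w) z (ξ w) ≤ r / 2} = B' ∩ {w | cc η (pf w) z (ξ w) ≤ r / 2} := by
    refine Subset.antisymm (fun w hw => ⟨?_, hw.2⟩) (inter_subset_inter_left _ hsub)
    obtain ⟨h1, h2, h3⟩ := h w hw.1
    rw [← hB'e]
    refine ⟨hw.1, h3 _ ⟨le_rfl, lt_of_le_of_ne h1 fun e => ?_⟩⟩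
    have h4 : cc η (pf w) z (ξ w) ≤ r / 2 := hw.2
    rw [← e, h2] at h4
    linarith
  have hos := hM.os_le hσ hξ hB' (fun w hw => (h w (hsub hw)).1) fun w hw u hu =>
    StageA_d_le h0 hη hz hs2 ((h w (hsub hw)).2.2 u (Ioo_subset_Ico_self hu))
  have hpos : 0 < s ^ 2 / r ^ 2 := by positivity
  have h1 : ∫ w in B', StageA_V κ η s z (σ w) w ∂μ ≤
      2 * (s ^ 2 / r ^ 2) * ∫ w in B, NN κ η z (σ w) w ∂μ := by
    rw [← integral_const_mul]
    refine le_trans (setIntegral_mono_on jσ.integrableOn (iσ.const_mul _).integrableOn hB'.meas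
      fun w hw => ?_) (setIntegral_mono_set (iσ.const_mul _).integrableOn
        (Eventually.of_forall fun w => mul_nonneg (by positivity) (NN_nonneg κ hη hz _ w))
        hsub.eventuallyLE)
    rw [StageA_V_eq hη hz, (h w (hsub hw)).2.1]
    refine mul_le_mul_of_nonneg_right ?_ (NN_nonneg κ hη hz _ w)
    have e2 : 2 * (s ^ 2 / r ^ 2) = (r ^ 2)⁻¹ * (2 * s ^ 2) := by ring
    rw [e2]
    exact mul_le_mul_of_nonneg_left (sub_le_self _ (sq_nonneg _)) (by positivity)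
  have hge : ∀ w ∈ B', s ^ 2 ≤ 2 * s ^ 2 - sn η (pf w) z (ξ w) ^ 2 := fun w hw => by
    have := pow_le_pow_left₀ (sn_pos hη (continuous_pf w) hz _).le (hBξ w hw) 2
    linarith
  have h2 : 4 * (s ^ 2 / r ^ 2) *
      ∫ w in B' ∩ {w | cc η (pf w) z (ξ w) ≤ r / 2}, NN κ η z (ξ w) w ∂μ ≤
      ∫ w in B', StageA_V κ η s z (ξ w) w ∂μ := by
    rw [← integral_const_mul]
    refine le_trans (setIntegral_mono_on (iξ.const_mul _).integrableOn jξ.integrableOn
      (hB'.meas.inter hC) fun w hw => ?_) (setIntegral_mono_set jξ.integrableOn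
        ((ae_restrict_iff' hB'.meas).2 (Eventually.of_forall fun w hw => ?_))
        inter_subset_left.eventuallyLE)
    · rw [StageA_V_eq hη hz]
      refine mul_le_mul_of_nonneg_right ?_ (NN_nonneg κ hη hz _ w)
      have hc := cc_pos hz η (pf w) (ξ w)
      have h4 : cc η (pf w) z (ξ w) ^ 2 ≤ (r / 2) ^ 2 := pow_le_pow_left₀ hc.le hw.2 2
      have e2 : 4 * (s ^ 2 / r ^ 2) = ((r / 2) ^ 2)⁻¹ * s ^ 2 := by field_simp; ring
      rw [e2]
      exact mul_le_mul (inv_anti₀ (by positivity) h4) (hge w hw.1) (sq_nonneg _) (by positivity)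
    · show 0 ≤ StageA_V κ η s z (ξ w) w
      rw [StageA_V_eq hη hz]
      exact mul_nonneg (mul_nonneg (by positivity) ((sq_nonneg s).trans (hge w hw)))
        (NN_nonneg κ hη hz _ w)
  rw [e]
  refine le_of_mul_le_mul_left ?_ (show 0 < 4 * (s ^ 2 / r ^ 2) by positivity)
  linarith

end Vale.Agent.P164
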