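import Vale.Agent.P164.PathM
import Vale.Agent.P164.Dist

/-!
# P164 TailA

Exponential moments with the one point factor, scaling, tails.
-/

open MeasureTheory ProbabilityTheory Set Filter Topology Complex Function
open scoped NNReal ENNReal ComplexConjugate

noncomputable section

namespace Vale.Agent.P164

variable {κ : ℝ}

theorem TailA_im {x z : ℂ} {r : ℝ} (hx : r ≤ x.im) (hz : z ∈ Metric.ball x r) : 0 < z.im := by
  have h1 := mem_ball_iff_norm.1 hz
  have h2 := (neg_abs_le _).trans' (neg_le_neg (Complex.abs_im_le_norm (z - x)))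
  rw [Complex.sub_im] at h2
  linarith

theorem mass_mem (h0 : 0 < κ) (h8 : κ < 8) {η e T r : ℝ} {w : ℝ → ℝ} {x : ℂ} (hη : 0 < η)
    (he : 0 < e) (hT : 0 ≤ T) (hw : Continuous w) (hr : 0 ≤ r) (hx : r ≤ x.im) :
    0 ≤ mass κ η e w T (Metric.ball x r) ∧
      mass κ η e w T (Metric.ball x r) ≤ Real.pi * r ^ 2 * e ^ (-be κ) := by
  have hpos : ∀ z ∈ Metric.ball x r, 0 < z.im := fun z hz => TailA_im hx hz
  refine ⟨setIntegral_nonneg Metric.isOpen_ball.measurableSet fun z hz =>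
    Pay_nonneg κ he hη hw (hpos z hz) hT, ?_⟩
  have h1 : ‖∫ z in Metric.ball x r, Pay κ η e w T z‖
      ≤ e ^ (-be κ) * (volume : Measure ℂ).real (Metric.ball x r) := by
    refine norm_setIntegral_le_of_norm_le_const measure_ball_lt_top fun z hz => ?_
    rw [Real.norm_of_nonneg (Pay_nonneg κ he hη hw (hpos z hz) hT)]
    exact Pay_le h0 h8 he hη hw (hpos z hz) hT
  have h2 : (volume : Measure ℂ).real (Metric.ball x r) = Real.pi * r ^ 2 := by
    rw [Measure.real, Complex.volume_ball, ENNReal.toReal_mul, ENNReal.toReal_pow,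
      ENNReal.toReal_ofReal hr, ENNReal.coe_toReal, NNReal.coe_real_pi, mul_comm]
  rw [h2] at h1
  calc mass κ η e w T (Metric.ball x r) ≤ ‖∫ z in Metric.ball x r, Pay κ η e w T z‖ :=
        Real.le_norm_self _
    _ ≤ e ^ (-be κ) * (Real.pi * r ^ 2) := h1
    _ = Real.pi * r ^ 2 * e ^ (-be κ) := mul_comm _ _

/-- `x₀` is alive for the truncation `η / 4`, so `bf_fl` and `Univ.ball_sub` apply -/
theorem ball_alive {η t R : ℝ} {w : ℝ → ℝ} {x₀ z : ℂ} (hη : 0 < η) (hw : Continuous w) (ht : 0 ≤ t)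
    (hx : 0 < x₀.im) (hR : 1 ≤ R) (hz : z ∈ Metric.ball x₀ R) (hz' : 0 < z.im)
    (hY : η / 4 ≤ (fl (η / 4) w x₀ t).im) (hc : 200 * R ≤ cc (η / 4) w x₀ t)
    (h : η ≤ (fl η w z t).im) :
    2 ≤ cc η w z t ∧ (fl η w z t).im ≤ 17 / 16 * (fl (η / 4) w x₀ t).im := by
  have hη4 : 0 < η / 4 := by positivity
  obtain ⟨hx1, hx2⟩ := bf_fl hη4 hw hx ht hY
  obtain ⟨hz1, hz2⟩ := bf_fl hη hw hz' ht h
  have hU := bf_univ hw ht
  have hZ : 0 < (fl (η / 4) w x₀ t).im := lt_of_lt_of_le hη4 hY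
  have hsc : sc (bf w t) (fl (η / 4) w x₀ t) = cc (η / 4) w x₀ t := hx2
  have hlt : ‖z - bf w t (fl (η / 4) w x₀ t)‖ < sc (bf w t) (fl (η / 4) w x₀ t) / 100 := by
    rw [hx1, hsc]
    have := mem_ball_iff_norm.1 hz
    linarith
  obtain ⟨ζ, hζ1, hζ2, hζ3, hζ4⟩ := hU.ball_sub hZ hlt
  have hZ' : 0 < (fl η w z t).im := lt_of_lt_of_le hη h
  have heq : ζ = fl η w z t := hU.inj hζ3 hZ' (hζ1.trans hz1.symm)
  subst heq
  have hsc' : sc (bf w t) (fl η w z t) = cc η w z t := hz2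
  refine ⟨?_, ?_⟩
  · rw [hsc, hsc'] at hζ4
    linarith
  · have h1 := (le_abs_self _).trans (Complex.abs_im_le_norm (fl η w z t - fl (η / 4) w x₀ t))
    rw [Complex.sub_im] at h1
    linarith

/-- if `pay ≠ 0` at `(z, t)`: either the height of `x₀` at `t` is at least `η / 2`, or it equals `η / 2`
at an earlier time (intermediate value theorem); use `ball_alive` -/
theorem reach_of_mass {η e T R : ℝ} {w : ℝ → ℝ} {x₀ : ℂ} (hη : 0 < η) (hη1 : η ≤ 1) (he : 0 < e)
    (he1 : e ≤ 1) (hT : 0 ≤ T) (hw : Continuous w) (hR : 1 ≤ R) (hx : 400 * R ≤ x₀.im)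
    (h : mass κ η e w T (Metric.ball x₀ R) ≠ 0) : Reach (η / 4) w x₀ T (200 * R) := by
  have hη4 : 0 < η / 4 := by positivity
  have hx0 : 0 < x₀.im := by linarith
  have hRx : R ≤ x₀.im := by linarith
  obtain ⟨z, hz, hP⟩ : ∃ z ∈ Metric.ball x₀ R, Pay κ η e w T z ≠ 0 := by
    by_contra hcon
    push Not at hcon
    exact h (setIntegral_eq_zero_of_forall_eq_zero hcon)
  obtain ⟨t, ht, hp⟩ : ∃ t ∈ Icc 0 T, pay κ η e w z t ≠ 0 := by
    by_contra hcon
    push Not at hcon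
    apply hP
    unfold Pay
    rw [intervalIntegral.integral_congr (g := fun _ => (0 : ℝ))]
    · simp
    · intro s hs
      rw [uIcc_of_le hT] at hs
      exact hcon s hs
  have hz' : 0 < z.im := TailA_im hRx hz
  obtain ⟨hp1, -, hp3⟩ := pay_ne he hη hp
  by_contra hcon
  have key : ∀ s ∈ Icc 0 T, η / 2 ≤ (fl (η / 4) w x₀ s).im → 200 * R ≤ cc (η / 4) w x₀ s := by
    intro s hs hY
    by_contra hlt
    exact hcon ⟨s, hs, by linarith, (not_le.1 hlt).le⟩
  by_cases hY : η / 2 ≤ (fl (η / 4) w x₀ t).im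
  · have := (ball_alive hη hw ht.1 hx0 hR hz hz' (by linarith) (key t ht hY) hp1.le).1
    linarith
  · have hc : ContinuousOn (fun s => (fl (η / 4) w x₀ s).im) (Icc 0 t) :=
      (Complex.continuous_im.comp (fl_cont hη4 hw x₀)).continuousOn
    have hmem : η / 2 ∈ Icc (fl (η / 4) w x₀ t).im (fl (η / 4) w x₀ 0).im := by
      refine ⟨(not_le.1 hY).le, ?_⟩
      rw [fl_zero hη4 hw]
      linarith
    obtain ⟨s, hs, hs'⟩ := intermediate_value_Icc' ht.1 hc hmem
    have hs'' : (fl (η / 4) w x₀ s).im = η / 2 := hs'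
    have hsT : s ∈ Icc 0 T := ⟨hs.1, hs.2.trans ht.2⟩
    have hzs : (fl η w z t).im ≤ (fl η w z s).im := fl_im_anti hη hw hz' hs.2
    have := (ball_alive hη hw hs.1 hx0 hR hz hz' (by linarith) (key s hsT hs''.ge)
      (by linarith)).2
    linarith

end Vale.Agent.P164
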