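import Vale.Agent.P164.Exp
import Vale.Agent.P164.OP
import Vale.Agent.P164.TailA

/-!
# P164 Tail

Exponential moments with the one point factor, scaling, tails.
-/

open MeasureTheory ProbabilityTheory Set Filter Topology Complex Function
open scoped NNReal ENNReal ComplexConjugate

noncomputable section

namespace Vale.Agent.P164

variable {κ : ℝ}

theorem Tail_meas (κ η e T : ℝ) (x : ℂ) (r : ℝ) :
    Measurable fun w : Path => mass κ η e (pf w) T (Metric.ball x r) :=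
  measurable_mass κ η e T measurable_id (measurable_const (a := x)) r

theorem Tail_int (h0 : 0 < κ) (h8 : κ < 8) {μ : Measure Path} (hμ : IsW κ μ) {η e T r : ℝ} {x : ℂ}
    (hη : 0 < η) (he : 0 < e) (hT : 0 ≤ T) (hr : 0 ≤ r) (hx : r ≤ x.im) {φ : ℝ → ℝ}
    (hφ : Continuous φ) : Integrable (fun w => φ (mass κ η e (pf w) T (Metric.ball x r))) μ := by
  have := hμ.prob
  obtain ⟨M, hM⟩ := (isCompact_Icc (a := (0 : ℝ))
    (b := Real.pi * r ^ 2 * e ^ (-be κ))).exists_bound_of_continuousOn hφ.continuousOn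
  exact Integrable.of_bound (hφ.measurable.comp (Tail_meas κ η e T x r)).aestronglyMeasurable M
    (ae_of_all _ fun w => hM _ (mass_mem h0 h8 hη he hT (continuous_pf w) hr hx))

theorem Tail_pt {X L : ℝ} (hL : 1 ≤ L) (h : L ≤ X) :
    X ≤ 4 * Real.exp (-(L / 2)) * (Real.exp X - 1) := by
  have h1 := Real.add_one_le_exp (X / 2)
  have h2 := Real.add_one_le_exp X
  have h3 : Real.exp (X / 2) ≤ Real.exp (-(L / 2)) * Real.exp X := by
    rw [← Real.exp_add]
    exact Real.exp_le_exp.2 (by linarith)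
  have h4 := mul_le_mul_of_nonneg_left (show Real.exp X ≤ 2 * (Real.exp X - 1) by linarith)
    (Real.exp_pos (-(L / 2))).le
  linarith

/-- `τ = rho (η / 4) x₀ T (200 R)`, `A = {η / 2 ≤ Y τ, cc τ ≤ 200 R}` is the `Reach` event;
`exp_super`, `op_reach0` -/
theorem exp_hit (h0 : 0 < κ) (h8 : κ < 8) : ∃ θ C : ℝ, 0 < θ ∧ 0 < C ∧
    ∀ (μ : Measure Path) (η e T R : ℝ) (x₀ : ℂ), IsW κ μ → 0 < η → η ≤ 1 → 0 < e → e ≤ 1 → 0 < T →
    1 ≤ R → 400 * R ≤ x₀.im →
    ∫ w, (Real.exp (θ * mass κ η e (pf w) T (Metric.ball x₀ R)) - 1) ∂μ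
      ≤ Real.exp (C * R ^ 2) * (C * (R / x₀.im) ^ be κ) := by
  obtain ⟨θ, C₁, hθ, hC₁, H₁⟩ := exp_super h0 h8
  obtain ⟨C₂, hC₂, H₂⟩ := op_reach0 h0 h8
  refine ⟨θ, C₁ + 200 * C₂, hθ, by positivity, fun μ η e T R x₀ hμ hη hη1 he he1 hT hR hx => ?_⟩
  have := hμ.prob
  have hη4 : 0 < η / 4 := by positivity
  have hx0 : 0 < x₀.im := by linarith
  have hτ := stp_rho hη4 hT.le x₀ (200 * R)
  have hA := (((adp_im hη4 x₀ T).det_at hτ).prodMk ((adp_cc hη4 x₀ T).det_at hτ)).preimage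
    (S := Ici (2 * (η / 4)) ×ˢ Iic (200 * R)) (measurableSet_Ici.prod measurableSet_Iic)
  have hc : ∀ w : Path, ContinuousOn (fun t => cc (η / 4) (pf w) x₀ t - 200 * R) (Icc 0 T) :=
    fun w => ((cc_cont hη4 (continuous_pf w) x₀).sub continuous_const).continuousOn
  have h1 := H₁ μ η e T R x₀ _ _ hμ hη he he1 hT hR (by linarith) hτ hA fun w hw z hz s hs hY => by
    have h2 := (abs_le.1 (Complex.abs_im_le_norm (z - x₀))).1
    have h3 := mem_ball_iff_norm.1 hz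
    have h4 := fl_im_anti hη4 (continuous_pf w) hx0 hs.2
    have h5 := nonneg_of_le_hit (X := fun t w => cc (η / 4) (pf w) x₀ t - 200 * R) (hc w)
      (by rw [cc_zero]; linarith) hs
    have h6 : 2 * (η / 4) ≤ _ := hw.1
    rw [Complex.sub_im] at h2
    exact (ball_alive hη (continuous_pf w) hs.1 hx0 hR hz (by linarith)
      (le_trans (by linarith) (h6.trans h4)) (by linarith) hY.le).1
  have hi := fun φ hφ => Tail_int h0 h8 hμ hη he hT.le (by linarith : 0 ≤ R)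
    (by linarith : R ≤ x₀.im) (φ := φ) hφ
  rw [← setIntegral_eq_integral_of_forall_compl_eq_zero (s := _) fun w hw => by
    by_contra h2
    obtain ⟨t, ht, h3, h4⟩ := reach_of_mass (κ := κ) hη hη1 he he1 hT.le (continuous_pf w) hR hx
      fun h3 => h2 (by rw [h3, mul_zero, Real.exp_zero, sub_self])
    exact hw (show w ∈ (fun w => ((fl (η / 4) (pf w) x₀ (rho (η / 4) x₀ T (200 * R) w)).im,
      cc (η / 4) (pf w) x₀ (rho (η / 4) x₀ T (200 * R) w))) ⁻¹' Ici (2 * (η / 4)) ×ˢ Iic (200 * R)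
      from ⟨h3.trans (fl_im_anti hη4 (continuous_pf w) hx0 (hit_le ht (sub_nonpos.2 h4))),
        mem_Iic.2 (sub_nonpos.1 (hit_spec (X := fun t w => cc (η / 4) (pf w) x₀ t - 200 * R)
          (hc w) ht (sub_nonpos.2 h4)))⟩)]
  refine (integral_mono (hi (fun m => Real.exp (θ * m) - 1) (by fun_prop)).integrableOn
    (hi (fun m => Real.exp (θ * m)) (by fun_prop)).integrableOn
    fun w => sub_le_self _ zero_le_one).trans (h1.trans ?_)
  refine mul_le_mul (Real.exp_le_exp.2 (mul_le_mul_of_nonneg_right (by linarith) (sq_nonneg _)))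
    ((measureReal_mono fun w hw => ?_).trans
      ((H₂ μ _ (200 * R) T x₀ hμ hη4 (by linarith) hT hx0).trans ?_))
    measureReal_nonneg (Real.exp_pos _).le
  · exact ⟨_, hτ.mem w, hw.1, hw.2⟩
  · have h2 : 0 ≤ R / x₀.im := by positivity
    rw [mul_div_assoc, Real.mul_rpow (by norm_num) h2, ← mul_assoc]
    refine mul_le_mul_of_nonneg_right ?_ (Real.rpow_nonneg h2 _)
    have h3 := mul_le_mul_of_nonneg_left (Real.rpow_le_self_of_one_le
      (show (1 : ℝ) ≤ 200 by norm_num) (be_lt_one h0).le) hC₂.le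
    linarith

/-- `mass_scale` with `δ = r / R`, `IsW.map_shs`, `IsW.ae_zero` -/
theorem exp_scaled (h0 : 0 < κ) (h8 : κ < 8) : ∃ θ C : ℝ, 0 < θ ∧ 0 < C ∧
    ∀ (μ : Measure Path) (η e T r R : ℝ) (x : ℂ), IsW κ μ → 0 < η → η ≤ r / R → 0 < e → e ≤ r / R →
    0 < T → 1 ≤ R → 400 * r ≤ x.im →
    ∫ w, (Real.exp (θ * (r / R) ^ (-dd κ) * mass κ η e (pf w) T (Metric.ball x r)) - 1) ∂μ
      ≤ Real.exp (C * R ^ 2) * (C * (r / x.im) ^ be κ) := by
  obtain ⟨θ, C, hθ, hC, H⟩ := exp_hit h0 h8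
  refine ⟨θ, C, hθ, hC, fun μ η e T r R x hμ hη hη1 he he1 hT hR hx => ?_⟩
  obtain ⟨δ, hδ⟩ : ∃ δ, δ = r / R := ⟨_, rfl⟩
  have hr : r = δ * R := by rw [hδ, div_mul_cancel₀ _ (by linarith)]
  rw [← hδ] at hη1 he1 ⊢
  have hd : 0 < δ := hη.trans_le hη1
  obtain ⟨y, rfl⟩ : ∃ y : ℂ, x = δ * y :=
    ⟨x / δ, (mul_div_cancel₀ _ (Complex.ofReal_ne_zero.2 hd.ne')).symm⟩
  obtain ⟨T', rfl⟩ : ∃ T', T = δ ^ 2 * T' := ⟨T / δ ^ 2, (mul_div_cancel₀ _ (by positivity)).symm⟩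
  have hT' : 0 < T' := (mul_pos_iff_of_pos_left (pow_pos hd 2)).1 hT
  subst hr
  rw [Complex.im_ofReal_mul] at hx ⊢
  have hy : 400 * R ≤ y.im := le_of_mul_le_mul_left (by linarith) hd
  have h1 := H μ (η / δ) (e / δ) T' R y hμ (by positivity) ((div_le_one hd).2 hη1) (by positivity)
    ((div_le_one hd).2 he1) hT' hR hy
  have h2 : Measurable (shs 0 δ) := measurable_shs measurable_const measurable_const measurable_id
  rw [← hμ.map_shs le_rfl hd, integral_map h2.aemeasurable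
    ((((Tail_meas κ _ _ T' y R).const_mul θ).exp.sub_const 1).aestronglyMeasurable)] at h1
  rw [mul_div_mul_left _ _ hd.ne']
  refine (integral_congr_ae ?_).trans_le h1
  filter_upwards [hμ.ae_zero] with w hw
  rw [mass_scale he hη hd (continuous_pf w) (continuous_pf _) hT'.le hw (shS_shs 0 δ T' w)
    (by linarith), mul_assoc, ← mul_assoc (δ ^ _), ← Real.rpow_add hd, neg_add_cancel,
    Real.rpow_zero, one_mul]

/-- with `X = θ δ ^ (-d) mass`: `X 1 {X > Λ} ≤ 4 (exp X - 1) exp (-Λ / 2)` for `Λ ≥ 1`,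
`Λ = (2 C + 4) R ^ 2` -/
theorem mass_tail (h0 : 0 < κ) (h8 : κ < 8) : ∃ C₁ C₂ : ℝ, 0 < C₁ ∧ 0 < C₂ ∧
    ∀ (μ : Measure Path) (η e T r R : ℝ) (x : ℂ), IsW κ μ → 0 < η → η ≤ r / R → 0 < e → e ≤ r / R →
    0 < T → 1 ≤ R → 400 * r ≤ x.im →
    ∫ w in {w | C₁ * r ^ dd κ * R ^ be κ < mass κ η e (pf w) T (Metric.ball x r)},
      mass κ η e (pf w) T (Metric.ball x r) ∂μ
      ≤ C₂ * r ^ 2 * x.im ^ (-be κ) * Real.exp (-2 * R ^ 2) := by
  obtain ⟨θ, C, hθ, hC, H⟩ := exp_scaled h0 h8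
  refine ⟨(2 * C + 4) / θ, 4 * C / θ, by positivity, by positivity,
    fun μ η e T r R x hμ hη hη1 he he1 hT hR hx => ?_⟩
  have h1 := H μ η e T r R x hμ hη hη1 he he1 hT hR hx
  have hR0 : 0 < R := by linarith
  have hd : 0 < r / R := hη.trans_le hη1
  have hr : 0 < r := (div_pos_iff_of_pos_right hR0).1 hd
  have hx0 : 0 < x.im := by linarith
  have hi := fun φ hφ => Tail_int h0 h8 hμ hη he hT.le hr.le (by linarith : r ≤ x.im) (φ := φ) hφ
  obtain ⟨a, ha⟩ : ∃ a, a = θ * (r / R) ^ (-dd κ) := ⟨_, rfl⟩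
  have ha0 : 0 < a := ha ▸ by positivity
  have e1 : ∀ y : ℝ, 0 < y → y ^ dd κ * y ^ be κ = y ^ 2 := fun y hy => by
    rw [← Real.rpow_add hy, dd_add_be, Real.rpow_two]
  have e2 : a * r ^ dd κ = θ * R ^ dd κ := by
    rw [ha, Real.rpow_neg hd.le, Real.div_rpow hr.le hR0.le]
    field_simp
  have e3 : a * ((2 * C + 4) / θ * r ^ dd κ * R ^ be κ) = (2 * C + 4) * R ^ 2 := by
    rw [← e1 R hR0, mul_assoc, mul_left_comm, ← mul_assoc a, e2]
    field_simp
  have hL : 1 ≤ (2 * C + 4) * R ^ 2 :=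
    one_le_mul_of_one_le_of_one_le (by linarith) (one_le_pow₀ hR)
  rw [← ha] at h1
  have i2 := hi (fun m => a⁻¹ * (4 * Real.exp (-((2 * C + 4) * R ^ 2 / 2))) * (Real.exp (a * m) - 1))
    (by fun_prop)
  refine (setIntegral_mono_on (hi id continuous_id).integrableOn i2.integrableOn
    (measurableSet_lt measurable_const (Tail_meas κ η e T x r)) fun w hw => ?_).trans
    ((setIntegral_le_integral i2 (ae_of_all _ fun w => ?_)).trans ?_)
  · rw [mul_assoc, le_inv_mul_iff₀ ha0]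
    exact Tail_pt hL (e3 ▸ mul_le_mul_of_nonneg_left (le_of_lt hw) ha0.le)
  · exact mul_nonneg (by positivity) (sub_nonneg.2 (Real.one_le_exp (mul_nonneg ha0.le
      (mass_mem h0 h8 hη he hT.le (continuous_pf w) hr.le (by linarith)).1)))
  · rw [integral_const_mul]
    refine (mul_le_mul_of_nonneg_left h1 (by positivity)).trans ?_
    have e4 : Real.exp (-2 * R ^ 2) =
        Real.exp (-((2 * C + 4) * R ^ 2 / 2)) * Real.exp (C * R ^ 2) := by
      rw [← Real.exp_add]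
      congr 1
      ring
    have e5 : a⁻¹ ≤ r ^ dd κ / θ := by
      rw [inv_le_iff_one_le_mul₀' ha0, ← mul_div_assoc, e2, mul_div_cancel_left₀ _ hθ.ne']
      exact Real.one_le_rpow hR (by unfold dd; linarith)
    rw [e4, ← e1 r hr, Real.div_rpow hr.le hx0.le, Real.rpow_neg hx0.le, mul_assoc a⁻¹]
    refine (mul_le_mul_of_nonneg_right e5 (by positivity)).trans_eq ?_
    ring

theorem mass_sq (h0 : 0 < κ) (h8 : κ < 8) : ∃ C : ℝ, 0 < C ∧ ∀ (μ : Measure Path) (η e T : ℝ),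
    IsW κ μ → 0 < η → η ≤ 1 / 400 → 0 < e → e ≤ 1 / 400 → 0 < T →
    ∫ w, mass κ η e (pf w) T (Metric.ball I (1 / 400)) ^ 2 ∂μ ≤ C := by
  obtain ⟨θ, C, hθ, hC, H⟩ := exp_scaled h0 h8
  obtain ⟨a, ha⟩ : ∃ a, a = θ * (1 / 400 / 1 : ℝ) ^ (-dd κ) := ⟨_, rfl⟩
  have ha0 : 0 < a := ha ▸ by positivity
  refine ⟨2 / a ^ 2 * (Real.exp (C * 1 ^ 2) * (C * (1 / 400 / I.im) ^ be κ)), ?_,
    fun μ η e T hμ hη hη1 he he1 hT => ?_⟩
  · rw [I_im]
    positivity
  have h1 := H μ η e T (1 / 400) 1 I hμ hη (by linarith) he (by linarith) hT le_rfl (by simp)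
  have hx : (1 / 400 : ℝ) ≤ I.im := by rw [I_im]; norm_num
  have hi := fun φ hφ => Tail_int h0 h8 hμ hη he hT.le (by norm_num) hx (φ := φ) hφ
  rw [← ha] at h1
  refine le_trans ?_ (mul_le_mul_of_nonneg_left h1 (by positivity))
  rw [← integral_const_mul]
  refine integral_mono (hi (· ^ 2) (by fun_prop))
    (hi (fun m => 2 / a ^ 2 * (Real.exp (a * m) - 1)) (by fun_prop)) fun w => ?_
  have h2 := mul_nonneg ha0.le (mass_mem h0 h8 hη he hT.le (continuous_pf w) (by norm_num) hx).1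
  have h3 := Real.quadratic_le_exp_of_nonneg h2
  simp only
  rw [div_mul_eq_mul_div, le_div_iff₀ (by positivity)]
  linarith

end Vale.Agent.P164
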