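import Vale.Agent.P164.Stage

/-!
# P164 UMain

Iteration of `stage` (`B 0 = {cc σ ≤ r, 4 η ≤ Y σ}`, `∫ B 0 NN σ ≤ NN 0 ≤ im z ^ (-β)`), then `op_reach` at
`σ = rho η z T (r / 8 ^ J)` with `e / 2` (on `B J`, `cc σ = r / 8 ^ J`), `μ (B J) ≤ op_reach0`, and `η → 0`
with `eventually_of_ever`.
-/

open MeasureTheory ProbabilityTheory Set Filter Topology Complex Function
open scoped NNReal ENNReal ComplexConjugate

noncomputable section

namespace Vale.Agent.P164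

variable {κ : ℝ}

theorem umx_al (h0 : 0 < κ) (h8 : κ < 8) : 0 ≤ al κ := by
  unfold al
  have : 1 ≤ 8 / κ := by rw [le_div_iff₀ h0]; linarith
  linarith

theorem umx_NN_zero (h0 : 0 < κ) (h8 : κ < 8) {η : ℝ} {z : ℂ} (hη : 0 < η) (hz : 0 < z.im)
    (w : Path) : NN κ η z 0 w ≤ z.im ^ (-be κ) := by
  have h1 := pw_le hη (continuous_pf w) hz (-be κ) (umx_al h0 h8) 0 0 (pf w 0)
  have h2 := pw_pos hη (continuous_pf w) hz (-be κ) (al κ) 0 0 (pf w 0)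
  rw [cc_zero, Real.rpow_zero, mul_one] at h1
  unfold NN pv kil
  calc _ ≤ pw η (pf w) z (-be κ) (al κ) 0 0 (pf w 0) * 1 :=
        mul_le_mul_of_nonneg_left (stp_le_one _) h2.le
    _ ≤ _ := by rw [mul_one]; exact h1

theorem umx_int_NN (h0 : 0 < κ) (h8 : κ < 8) {μ : Measure Path} (hμ : IsW κ μ) {η T : ℝ} {z : ℂ}
    (hη : 0 < η) (hz : 0 < z.im) (hT : 0 < T) {σ : Path → ℝ} (hσ : Stp T σ) :
    Integrable (fun w => NN κ η z (σ w) w) μ ∧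
      ∀ A : Set Path, ∫ w in A, NN κ η z (σ w) w ∂μ ≤ z.im ^ (-be κ) := by
  have := hμ.prob
  obtain ⟨d, hM, hd⟩ := mart_NN hμ h8 hη hz hT
  have hI := hM.integrable_at hσ.det.meas hσ.mem
  refine ⟨hI, fun A => ?_⟩
  have h00 : (0 : ℝ) ∈ Icc 0 T := ⟨le_rfl, hT.le⟩
  have hz0 : Stp T fun _ => (0 : ℝ) := Stp.const h00
  have h1 := hM.os_le hz0 hσ (DetS.univ _) (fun w _ => (hσ.mem w).1) fun w _ u _ => hd u w
  rw [Measure.restrict_univ] at h1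
  have hI0 := hM.integrable_at hz0.det.meas hz0.mem
  have h2 : ∫ w, NN κ η z 0 w ∂μ ≤ ∫ _w, z.im ^ (-be κ) ∂μ :=
    integral_mono hI0 (integrable_const _) fun w => umx_NN_zero h0 h8 hη hz w
  rw [integral_const, probReal_univ, one_smul] at h2
  have h3 : ∫ w in A, NN κ η z (σ w) w ∂μ ≤ ∫ w, NN κ η z (σ w) w ∂μ :=
    setIntegral_le_integral hI (Eventually.of_forall fun w => NN_nonneg κ hη hz _ w)
  exact h3.trans (h1.trans h2)

theorem umx_rho {η T r t : ℝ} {z : ℂ} {w : Path} (hη : 0 < η) (hz : 0 < z.im) (ht : t ∈ Icc 0 T)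
    (h4 : 4 * η ≤ (fl η (pf w) z t).im) (hc : cc η (pf w) z t ≤ r) :
    cc η (pf w) z (rho η z T r w) ≤ r ∧ 4 * η ≤ (fl η (pf w) z (rho η z T r w)).im := by
  have hcont : ContinuousOn (fun t => cc η (pf w) z t - r) (Icc 0 T) :=
    ((cc_cont hη (continuous_pf w) z).sub continuous_const).continuousOn
  have h1 : cc η (pf w) z t - r ≤ 0 := by linarith
  have h2 := hit_spec (X := fun t w => cc η (pf w) z t - r) hcont ht h1
  have h3 := hit_le (X := fun t w => cc η (pf w) z t - r) ht h1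
  refine ⟨?_, h4.trans (fl_im_anti hη (continuous_pf w) hz h3)⟩
  have h5 : cc η (pf w) z (rho η z T r w) - r ≤ 0 := h2
  linarith

theorem umx_rho_ge {η T r : ℝ} {z : ℂ} (w : Path) (hη : 0 < η) (hT : 0 ≤ T) (hr : r ≤ z.im) :
    r ≤ cc η (pf w) z (rho η z T r w) := by
  have hcont : ContinuousOn (fun t => cc η (pf w) z t - r) (Icc 0 T) :=
    ((cc_cont hη (continuous_pf w) z).sub continuous_const).continuousOn
  have h0 : 0 ≤ cc η (pf w) z 0 - r := by rw [cc_zero]; linarith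
  have h1 := nonneg_of_le_hit (X := fun t w => cc η (pf w) z t - r) hcont h0
    ⟨(hit_mem hT (fun t w => cc η (pf w) z t - r) w).1, le_rfl⟩
  have h5 : 0 ≤ cc η (pf w) z (rho η z T r w) - r := h1
  linarith

theorem umx_iter (h0 : 0 < κ) (h8 : κ < 8) : ∃ K c p e₀ : ℝ, ∃ m₀ : ℕ, 1 ≤ K ∧ 0 < c ∧ 0 < p ∧
    p < 1 ∧ 0 < e₀ ∧ 1 ≤ m₀ ∧ ∀ m ≥ m₀, ∀ (μ : Measure Path) (η T r e : ℝ) (z : ℂ),
    IsW κ μ → 0 < η → 0 < T → 0 < r → r ≤ z.im → 0 < e → ∀ J : ℕ, e ≤ e₀ * (r / 8 ^ J) / m →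
    ∃ B : Set Path, DetS (rho η z T (r / 8 ^ J)) B ∧
      (∀ w ∈ B, cc η (pf w) z (rho η z T (r / 8 ^ J) w) ≤ r / 8 ^ J ∧
        4 * η ≤ (fl η (pf w) z (rho η z T (r / 8 ^ J) w)).im) ∧
      ∫ w in B, NN κ η z (rho η z T (r / 8 ^ J) w) w ∂μ
        ≤ (1 - p ^ (m ^ 2)) ^ J * z.im ^ (-be κ) ∧
      ∀ w, (∃ t ∈ Icc 0 T, 4 * η ≤ (fl η (pf w) z t).im ∧ cc η (pf w) z t ≤ r / 8 ^ J) →
        (∀ j < J, ¬ Good κ K c m e (pf w) (T + z.im ^ 2) z (r / 8 ^ j)) → w ∈ B := by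
  obtain ⟨K, c, p, e₀, m₀, hK, hc, hp, hp1, he₀, hm₀, H⟩ := stage h0 h8
  refine ⟨K, c, p, e₀, m₀, hK, hc, hp, hp1, he₀, hm₀, ?_⟩
  intro m hm μ η T r e z hμ hη hT hr hrz he J
  have hz : 0 < z.im := hr.trans_le hrz
  have hq : 0 ≤ 1 - p ^ (m ^ 2) := by
    have : p ^ (m ^ 2) ≤ 1 := pow_le_one₀ hp.le hp1.le
    linarith
  induction J with
  | zero =>
    intro _
    have hσ := stp_rho hη hT.le z (r / 8 ^ 0)
    have d1 := ((adp_cc hη z T).det_at hσ).preimage (measurableSet_Iic (a := r / 8 ^ 0))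
    have d2 := ((adp_im hη z T).det_at hσ).preimage (measurableSet_Ici (a := 4 * η))
    refine ⟨_, d1.inter d2, fun w hw => hw, ?_, ?_⟩
    · rw [pow_zero (1 - p ^ (m ^ 2)), one_mul]
      exact (umx_int_NN h0 h8 hμ hη hz hT hσ).2 _
    · rintro w ⟨t, ht, h4, hcc⟩ _
      exact umx_rho hη hz ht h4 hcc
  | succ J ih =>
    intro hle
    have hρ : 0 < r / 8 ^ J := by positivity
    have hs : r / 8 ^ (J + 1) = r / 8 ^ J / 8 := by rw [pow_succ, div_div]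
    have hle1 : r / 8 ^ (J + 1) ≤ r / 8 ^ J := by rw [hs]; linarith
    have hρz : r / 8 ^ J ≤ z.im :=
      (div_le_self hr.le (one_le_pow₀ (by norm_num))).trans hrz
    have hle' : e ≤ e₀ * (r / 8 ^ J) / m :=
      hle.trans (div_le_div_of_nonneg_right (mul_le_mul_of_nonneg_left hle1 he₀.le)
        (Nat.cast_nonneg m))
    obtain ⟨B, hB, hB1, hB2, hB3⟩ := ih hle'
    obtain ⟨B', hB', hB1', hB2', hB3'⟩ := H m hm μ η T (r / 8 ^ J) e z B hμ hη hT hρ hρz he hle' hB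
      fun w hw => (hB1 w hw).1
    rw [hs]
    refine ⟨B', hB', hB1', ?_, ?_⟩
    · refine hB2'.trans ?_
      rw [pow_succ' (1 - p ^ (m ^ 2)), mul_assoc]
      exact mul_le_mul_of_nonneg_left hB2 hq
    · rintro w ⟨t, ht, h4, hcc⟩ hG
      have hw : w ∈ B := hB3 w ⟨t, ht, h4, by linarith⟩ fun j hj => hG j (by omega)
      have h5 := umx_rho hη hz ht h4 hcc
      exact hB3' w hw h5.1 h5.2 (hG J (by omega))

theorem umx_alg {e ρ y : ℝ} (he : 0 < e) (hρ : 0 < ρ) (hy : 0 < y) :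
    (e / ρ) ^ 2 * (ρ / y) ^ be κ = (e / y) ^ be κ * (e / ρ) ^ dd κ ∧
      e ^ be κ * y ^ (-be κ) = (e / y) ^ be κ := by
  have h1 : 0 < e / ρ := by positivity
  have h2 : 0 < ρ / y := by positivity
  constructor
  · have h3 : (e / ρ) ^ 2 = (e / ρ) ^ dd κ * (e / ρ) ^ be κ := by
      rw [← Real.rpow_add h1, ← Real.rpow_two]
      congr 1
      unfold dd be
      ring
    have h4 : e / y = e / ρ * (ρ / y) := by field_simp
    rw [h3, h4, Real.mul_rpow h1.le h2.le]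
    ring
  · rw [Real.div_rpow he.le hy.le, Real.rpow_neg hy.le, div_eq_mul_inv]

theorem umain_eta (h0 : 0 < κ) (h8 : κ < 8) : ∃ K c p e₀ C : ℝ, ∃ m₀ : ℕ, 1 ≤ K ∧ 0 < c ∧ 0 < p ∧
    p < 1 ∧ 0 < e₀ ∧ 0 < C ∧ 1 ≤ m₀ ∧ ∀ m ≥ m₀, ∀ (μ : Measure Path) (η T r e : ℝ) (z : ℂ) (J : ℕ),
    IsW κ μ → 0 < η → 0 < T → 0 < r → r ≤ z.im → 0 < e → e ≤ e₀ * (r / 8 ^ J) / m →
    μ.real {w | (∃ t ∈ Icc 0 T, 4 * η ≤ (fl η (pf w) z t).im ∧ cc η (pf w) z t < e) ∧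
        ∀ j < J, ¬ Good κ K c m e (pf w) (T + z.im ^ 2) z (r / 8 ^ j)}
      ≤ C * (e / z.im) ^ be κ * ((1 - p ^ (m ^ 2)) ^ J + (e / (r / 8 ^ J)) ^ dd κ) := by
  obtain ⟨K, c, p, e₀, m₀, hK, hc, hp, hp1, he₀, hm₀, H⟩ := umx_iter h0 h8
  obtain ⟨C₁, hC₁, H1⟩ := op_reach h0 h8
  obtain ⟨C₀, hC₀, H0⟩ := op_reach0 h0 h8
  refine ⟨K, c, p, min e₀ (1 / 2), C₁ * (C₀ + 1), m₀, hK, hc, hp, hp1, by positivity, by positivity,
    hm₀, ?_⟩
  intro m hm μ η T r e z J hμ hη hT hr hrz he hle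
  have := hμ.prob
  have hz : 0 < z.im := hr.trans_le hrz
  have hβ : 0 ≤ be κ := by unfold be; linarith
  have hq : 0 ≤ 1 - p ^ (m ^ 2) := by
    have : p ^ (m ^ 2) ≤ 1 := pow_le_one₀ hp.le hp1.le
    linarith
  have hρ : 0 < r / 8 ^ J := by positivity
  have hρz : r / 8 ^ J ≤ z.im := (div_le_self hr.le (one_le_pow₀ (by norm_num))).trans hrz
  have hm1 : (1 : ℝ) ≤ m := by exact_mod_cast hm₀.trans hm
  have hle1 : e ≤ e₀ * (r / 8 ^ J) / m :=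
    hle.trans (div_le_div_of_nonneg_right (mul_le_mul_of_nonneg_right (min_le_left _ _) hρ.le)
      (Nat.cast_nonneg m))
  have hle2 : 2 * e ≤ r / 8 ^ J := by
    have h1 : min e₀ (1 / 2) * (r / 8 ^ J) / m ≤ min e₀ (1 / 2) * (r / 8 ^ J) :=
      div_le_self (by positivity) hm1
    have h2 : min e₀ (1 / 2) * (r / 8 ^ J) ≤ 1 / 2 * (r / 8 ^ J) :=
      mul_le_mul_of_nonneg_right (min_le_right _ _) hρ.le
    linarith
  obtain ⟨B, hB, hB1, hB2, hB3⟩ := H m hm μ η T r e z hμ hη hT hr hrz he J hle1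
  generalize hρ' : r / 8 ^ J = ρ at *
  have hσ := stp_rho hη hT.le z ρ
  have hge : ∀ w, ρ ≤ cc η (pf w) z (rho η z T ρ w) := fun w => umx_rho_ge w hη hT.le hρz
  have k1 := H1 μ η (e / 2) T z _ B hμ hη (by positivity) hT hz hσ hB fun w _ => by
    have := hge w
    linarith
  have k0 := H0 μ η ρ T z hμ hη hρ hT hz
  have kB : μ.real B ≤ C₀ * (ρ / z.im) ^ be κ := by
    refine le_trans (measureReal_mono ?_) k0
    intro w hw
    exact ⟨_, hσ.mem w, by linarith [(hB1 w hw).2], (hB1 w hw).1⟩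
  have hI := (umx_int_NN h0 h8 hμ hη hz hT hσ).1
  have k2 : ∫ w in B, ((e / 2 / cc η (pf w) z (rho η z T ρ w)) ^ 2
        + (e / 2) ^ be κ * NN κ η z (rho η z T ρ w) w) ∂μ
      ≤ ∫ w in B, ((e / ρ) ^ 2 + e ^ be κ * NN κ η z (rho η z T ρ w) w) ∂μ := by
    refine integral_mono_of_nonneg (Eventually.of_forall fun w => ?_)
      ((integrable_const _).add (hI.const_mul _).integrableOn) (Eventually.of_forall fun w => ?_)
    · have := NN_nonneg κ hη hz (rho η z T ρ w) w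
      positivity
    · have h1 := NN_nonneg κ hη hz (rho η z T ρ w) w
      have h2 := hge w
      have h3 : (e / 2) ^ be κ ≤ e ^ be κ := Real.rpow_le_rpow (by positivity) (by linarith) hβ
      have h4 : e / 2 / cc η (pf w) z (rho η z T ρ w) ≤ e / ρ :=
        div_le_div₀ he.le (by linarith) hρ h2
      have h5 : 0 ≤ e / 2 / cc η (pf w) z (rho η z T ρ w) := div_nonneg (by positivity) (by linarith)
      exact add_le_add (pow_le_pow_left₀ h5 h4 2) (mul_le_mul_of_nonneg_right h3 h1)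
  rw [integral_add (integrable_const _) (hI.const_mul _).integrableOn, integral_const_mul,
    setIntegral_const, smul_eq_mul] at k2
  obtain ⟨a1, a2⟩ := umx_alg (κ := κ) he hρ hz
  have k3 : μ.real B * (e / ρ) ^ 2 ≤ C₀ * ((e / z.im) ^ be κ * (e / ρ) ^ dd κ) := by
    rw [← a1]
    calc _ ≤ C₀ * (ρ / z.im) ^ be κ * (e / ρ) ^ 2 := mul_le_mul_of_nonneg_right kB (by positivity)
      _ = _ := by ring
  have k4 : e ^ be κ * ∫ w in B, NN κ η z (rho η z T ρ w) w ∂μ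
      ≤ (e / z.im) ^ be κ * (1 - p ^ (m ^ 2)) ^ J := by
    rw [← a2]
    calc _ ≤ e ^ be κ * ((1 - p ^ (m ^ 2)) ^ J * z.im ^ (-be κ)) :=
          mul_le_mul_of_nonneg_left hB2 (by positivity)
      _ = _ := by ring
  have hsub : {w | (∃ t ∈ Icc 0 T, 4 * η ≤ (fl η (pf w) z t).im ∧ cc η (pf w) z t < e) ∧
        ∀ j < J, ¬ Good κ K c m e (pf w) (T + z.im ^ 2) z (r / 8 ^ j)}
      ⊆ B ∩ {w | Reach η (pf w) z T (2 * (e / 2))} := by
    rintro w ⟨⟨t, ht, h4, hcc⟩, hG⟩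
    exact ⟨hB3 w ⟨t, ht, h4, by linarith⟩ hG, t, ht, by linarith, by linarith⟩
  refine (measureReal_mono hsub).trans (k1.trans ?_)
  have p1 : 0 ≤ (e / z.im) ^ be κ * (e / ρ) ^ dd κ := by positivity
  have p2 : 0 ≤ C₀ * ((e / z.im) ^ be κ * (1 - p ^ (m ^ 2)) ^ J) := by positivity
  rw [mul_assoc, mul_assoc]
  refine mul_le_mul_of_nonneg_left (k2.trans ?_) hC₁.le
  nlinarith

theorem umain (h0 : 0 < κ) (h8 : κ < 8) : ∃ K c p e₀ C : ℝ, ∃ m₀ : ℕ, 1 ≤ K ∧ 0 < c ∧ 0 < p ∧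
    p < 1 ∧ 0 < e₀ ∧ 0 < C ∧ 1 ≤ m₀ ∧ ∀ m ≥ m₀, ∀ (μ : Measure Path) (T T' r e : ℝ) (z : ℂ) (J : ℕ),
    IsW κ μ → 0 < T → T + z.im ^ 2 ≤ T' → 0 < r → r ≤ z.im → 0 < e → e ≤ e₀ * (r / 8 ^ J) / m →
    μ.real {w | z ∈ Ever (pf w) T e ∧ ∀ j < J, ¬ Good κ K c m e (pf w) T' z (r / 8 ^ j)}
      ≤ C * (e / z.im) ^ be κ * ((1 - p ^ (m ^ 2)) ^ J + (e / (r / 8 ^ J)) ^ dd κ) := by
  obtain ⟨K, c, p, e₀, C, m₀, hK, hc, hp, hp1, he₀, hC, hm₀, H⟩ := umain_eta h0 h8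
  refine ⟨K, c, p, e₀, C, m₀, hK, hc, hp, hp1, he₀, hC, hm₀, ?_⟩
  intro m hm μ T T' r e z J hμ hT hT' hr hrz he hle
  have := hμ.prob
  have hz : 0 < z.im := hr.trans_le hrz
  have hq : 0 ≤ 1 - p ^ (m ^ 2) := by
    have : p ^ (m ^ 2) ≤ 1 := pow_le_one₀ hp.le hp1.le
    linarith
  set E : ℕ → Set Path := fun n => {w | (∃ t ∈ Icc 0 T,
    4 * (1 / (n + 1 : ℝ)) ≤ (fl (1 / (n + 1 : ℝ)) (pf w) z t).im ∧
      cc (1 / (n + 1 : ℝ)) (pf w) z t < e) ∧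
        ∀ j < J, ¬ Good κ K c m e (pf w) (T + z.im ^ 2) z (r / 8 ^ j)} with hE
  have hb : ∀ n, μ (E n) ≤ ENNReal.ofReal
      (C * (e / z.im) ^ be κ * ((1 - p ^ (m ^ 2)) ^ J + (e / (r / 8 ^ J)) ^ dd κ)) := by
    intro n
    have h1 := H m hm μ (1 / (n + 1 : ℝ)) T r e z J hμ (by positivity) hT hr hrz he hle
    rw [← ofReal_measureReal (measure_ne_top μ (E n))]
    exact ENNReal.ofReal_le_ofReal h1
  have hmono : Monotone fun N : ℕ => ⋂ n ≥ N, E n := by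
    intro N N' hN w hw
    simp only [mem_iInter] at hw ⊢
    exact fun n hn => hw n (hN.trans hn)
  have hsub : {w | z ∈ Ever (pf w) T e ∧ ∀ j < J, ¬ Good κ K c m e (pf w) T' z (r / 8 ^ j)}
      ⊆ ⋃ N : ℕ, ⋂ n ≥ N, E n := by
    rintro w ⟨h1, h2⟩
    obtain ⟨N, hN⟩ := eventually_atTop.1 (eventually_of_ever (continuous_pf w) h1)
    simp only [mem_iUnion, mem_iInter]
    exact ⟨N, fun n hn => ⟨hN n hn, fun j hj hG => h2 j hj (hG.mono hT')⟩⟩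
  refine ENNReal.toReal_le_of_le_ofReal (by positivity) ((measure_mono hsub).trans ?_)
  rw [hmono.measure_iUnion]
  refine iSup_le fun N => le_trans (measure_mono ?_) (hb N)
  exact biInter_subset_of_mem (s := {n | n ≥ N}) (le_refl N)

end Vale.Agent.P164
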