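import Vale.Agent.P164.UpperP
import Vale.Agent.P164.UpperD
import Vale.Agent.P164.Curve

/-!
# P164 Upper

Finiteness. For `δ > 0` take `ε` small as in `upper_prob` and
`ν = C₁ (gaugeFn ε / ε ^ 2) vol|Bad + C₂ ε ^ (-β) vol|(Ever ∩ ball)`. For `p = γ t` (`t ≤ T`, `‖p‖ < R`):
either `closedBall p ε ⊆ Bad` (mass `≥ C₁ π gaugeFn ε ≥ h (10 ε)`), or some `x ∈ closedBall p ε` is not bad;
then `im x > 2 ε` (as `im p ≥ 0`), `x ∈ Ever` by `Generates.ever`, and `closedBall x (K r)` works: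
`h (10 K r) ≤ C gaugeFn r ≤ C r ^ d ℓ ^ (β / 2)` since `ε ≤ r`.
-/

open MeasureTheory ProbabilityTheory Set Filter Topology Complex Function
open scoped NNReal ENNReal ComplexConjugate

noncomputable section

namespace Vale.Agent.P164

theorem Upper_scale {κ : ℝ} (h8 : κ < 8) {h : ℝ → ℝ} {C : ℝ}
    (hC : ∀ᶠ r in 𝓝[>] (0 : ℝ), h r ≤ C * gaugeFn κ r) {L : ℝ} (hL : 0 < L) :
    ∃ C' : ℝ, 0 < C' ∧ ∀ᶠ r in 𝓝[>] (0 : ℝ), h (L * r) ≤ C' * gaugeFn κ r := by
  obtain ⟨D, hD, hm⟩ := gaugeFn_mul h8 hL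
  have ht : Tendsto (fun r : ℝ => L * r) (𝓝[>] 0) (𝓝[>] 0) := by
    refine tendsto_nhdsWithin_iff.2 ⟨?_, ?_⟩
    · have : Tendsto (fun r : ℝ => L * r) (𝓝 0) (𝓝 (L * 0)) :=
        (continuous_const.mul continuous_id).tendsto 0
      rw [mul_zero] at this
      exact this.mono_left nhdsWithin_le_nhds
    · filter_upwards [self_mem_nhdsWithin] with r hr
      exact mul_pos hL hr
  refine ⟨(|C| + 1) * D, by positivity, ?_⟩
  filter_upwards [hm, ht.eventually hC, ht.eventually (gaugeFn_pos κ)] with r h1 h2 h3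
  have h4 : C * gaugeFn κ (L * r) ≤ (|C| + 1) * gaugeFn κ (L * r) :=
    mul_le_mul_of_nonneg_right (by linarith [le_abs_self C]) h3.le
  have h5 : (|C| + 1) * gaugeFn κ (L * r) ≤ (|C| + 1) * (D * gaugeFn κ r) :=
    mul_le_mul_of_nonneg_left h1 (by positivity)
  linarith

theorem Upper_range {P : ℝ → Prop} (hP : ∀ᶠ r in 𝓝[>] (0 : ℝ), P r) :
    ∀ᶠ ε in 𝓝[>] (0 : ℝ), ∀ r, 0 < r → r ≤ ε ^ (1 / 4 : ℝ) → P r := by
  obtain ⟨r₀, hr₀, hs⟩ := (nhdsGT_basis (0 : ℝ)).eventually_iff.1 hP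
  have ht : Tendsto (fun ε : ℝ => ε ^ (1 / 4 : ℝ)) (𝓝 0) (𝓝 0) := by
    have := (Real.continuousAt_rpow_const 0 (1 / 4 : ℝ) (Or.inr (by norm_num))).tendsto
    rwa [Real.zero_rpow (by norm_num)] at this
  filter_upwards [(ht.mono_left nhdsWithin_le_nhds).eventually (gt_mem_nhds hr₀)] with ε hε r h1 h2
  exact hs ⟨h1, h2.trans_lt hε⟩

theorem Upper_gauge {κ : ℝ} (h8 : κ < 8) {ε r : ℝ} (hε : 0 < ε) (h1 : ε ≤ r)
    (h2 : r ≤ Real.exp (-1)) :
    gaugeFn κ r ≤ r ^ dd κ * Real.log (Real.log (1 / ε)) ^ (be κ / 2) := by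
  have hr : 0 < r := hε.trans_le h1
  have h3 : 1 ≤ Real.log (1 / r) := by
    rw [one_div, Real.log_inv, le_neg]
    exact (Real.log_le_iff_le_exp hr).2 h2
  have h4 : Real.log (1 / r) ≤ Real.log (1 / ε) :=
    Real.log_le_log (by positivity) (one_div_le_one_div_of_le hε h1)
  rw [gaugeFn_eq]
  refine mul_le_mul_of_nonneg_left ?_ (Real.rpow_nonneg hr.le _)
  refine Real.rpow_le_rpow (Real.log_nonneg h3) (Real.log_le_log (by linarith) h4) ?_
  unfold be
  linarith

theorem upper_ae {κ : ℝ} (h0 : 0 < κ) (h8 : κ < 8) {μ : Measure Path} (hμ : IsW κ μ) {h : ℝ → ℝ}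
    (hh : IsGauge h) {C : ℝ} (hC : ∀ᶠ r in 𝓝[>] (0 : ℝ), h r ≤ C * gaugeFn κ r) :
    ∀ᵐ w ∂μ, ∀ γ : ℝ≥0 → ℂ, Generates γ w.1 → ∀ t : ℝ≥0, hausH h (γ '' Iic t) < ⊤ := by
  obtain ⟨K, c, hK, hc, H⟩ := upper_prob h0 h8
  obtain ⟨C₁, hC₁, g1⟩ := Upper_scale h8 hC (L := 10) (by norm_num)
  obtain ⟨C₂, hC₂, g2⟩ := Upper_scale h8 hC (L := 10 * K) (by linarith)
  filter_upwards [ae_all_iff.2 fun n : ℕ =>
    H μ (n + 1) (n + 1) hμ (Nat.cast_add_one_pos n) (Nat.cast_add_one_pos n)] with w hw γ hγ t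
  obtain ⟨n, hn1, hn2⟩ : ∃ n : ℕ, (t : ℝ) ≤ n + 1 ∧ ∀ u ≤ t, ‖γ u‖ < n + 1 := by
    have hc : IsCompact (γ '' Icc 0 t) := isCompact_Icc.image hγ.1
    obtain ⟨B, hB⟩ := hc.isBounded.exists_norm_le
    obtain ⟨n, hn⟩ := exists_nat_ge (max B t)
    refine ⟨n, by linarith [le_max_right B t], fun u hu => ?_⟩
    have := hB (γ u) ⟨u, ⟨zero_le, hu⟩, rfl⟩
    linarith [le_max_left B t]
  obtain ⟨M, hM⟩ := hw n
  set R : ℝ := n + 1 with hR
  rw [hausH_eq]
  refine lt_of_le_of_lt (b := ENNReal.ofReal C₁ * ENNReal.ofReal M +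
    ENNReal.ofReal (C₂ / c) * ENNReal.ofReal M) (iSup₂_le fun δ hδ => ?_) (by finiteness)
  have e1 : ∀ᶠ r in 𝓝[>] (0 : ℝ), r < min (δ / (10 * K)) (Real.exp (-1)) :=
    nhdsWithin_le_nhds (gt_mem_nhds (lt_min (by positivity) (Real.exp_pos _)))
  obtain ⟨ε, ⟨Bad, -, b1, b2, b3⟩, ⟨hε, hε1⟩, ⟨hg1, hgp⟩, hg2, hg3⟩ :=
    (hM.and_eventually ((eventually_mem_nhdsWithin.and e1).and ((g1.and (gaugeFn_pos κ)).and
      ((Upper_range g2).and (Upper_range e1))))).exists
  have hε : 0 < ε := hε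
  have hexp : Real.exp (-1) < 1 := Real.exp_lt_one_iff.2 (by norm_num)
  have hε2 : ε < 1 := (hε1.trans_le (min_le_right _ _)).trans hexp
  have hδ' : ∀ r, r < min (δ / (10 * K)) (Real.exp (-1)) → 10 * (K * r) ≤ δ := fun r hr => by
    have := (lt_div_iff₀ (by linarith)).1 (hr.trans_le (min_le_left _ _))
    linarith
  set E := Ever (pf w) (R + (R + 1) ^ 2) (400 * ε) with hE
  refine (hausD_le hh hδ ((ENNReal.ofReal C₁ * ENNReal.ofReal (gaugeFn κ ε / ε ^ 2)) •
    volume.restrict Bad + (ENNReal.ofReal (C₂ / c) * ENNReal.ofReal (ε ^ (-be κ))) •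
      volume.restrict (E ∩ Metric.ball 0 (R + 1 + K))) ?_).trans ?_
  · rintro p ⟨u, hu, rfl⟩
    by_cases hb : Metric.closedBall (γ u) ε ⊆ Bad
    · refine ⟨γ u, ε, hε, ?_, Metric.mem_closedBall_self hε.le, ?_⟩
      · have := hδ' ε hε1
        nlinarith
      · rw [Measure.add_apply, Measure.smul_apply, smul_eq_mul,
          Measure.restrict_apply measurableSet_closedBall, inter_eq_left.2 hb,
          Complex.volume_closedBall]
        refine le_trans ?_ le_self_add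
        rw [← ENNReal.ofReal_pow hε.le, ← ENNReal.ofReal_coe_nnreal, NNReal.coe_real_pi,
          ← ENNReal.ofReal_mul hC₁.le, ← ENNReal.ofReal_mul (sq_nonneg ε),
          ← ENNReal.ofReal_mul (by positivity)]
        refine ENNReal.ofReal_le_ofReal (hg1.trans ?_)
        have e : C₁ * (gaugeFn κ ε / ε ^ 2) * (ε ^ 2 * Real.pi) = C₁ * gaugeFn κ ε * Real.pi := by
          field_simp
        rw [e]
        exact le_mul_of_one_le_right (by positivity) (by linarith [Real.pi_gt_three])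
    · obtain ⟨x, hx, hxb⟩ := not_subset.1 hb
      have hx' : ‖x - γ u‖ ≤ ε := by rwa [Metric.mem_closedBall, dist_eq_norm] at hx
      have hxR : x ∈ Metric.ball (0 : ℂ) (R + 1) := by
        rw [mem_ball_zero_iff]
        have h1 := norm_le_norm_add_norm_sub' x (γ u)
        have h2 := hn2 u hu
        linarith
      obtain ⟨c1, c2⟩ := b3 x hxR
      have him : 2 * ε < x.im := by
        have h1 : 2 * ε < |x.im| := not_le.1 fun h' => hxb (c1 h')
        have h2 := (abs_im_le_norm (x - γ u)).trans hx'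
        rw [sub_im] at h2
        have h3 := hγ.2.2.1 u
        have h4 := (abs_le.1 h2).1
        rcases lt_abs.1 h1 with h5 | h5 <;> linarith
      have hu' : (u : ℝ) ≤ R := (NNReal.coe_le_coe.2 hu).trans hn1
      obtain ⟨r, ⟨hr1, hr2⟩, hF⟩ :=
        (c2 (ever_mono hu' le_rfl (hγ.ever w.2 u hε hx' him))).resolve_left hxb
      have hεr : ε ≤ r := le_trans (Real.le_sqrt_of_sq_le (by nlinarith)) hr1
      have hr : 0 < r := hε.trans_le hεr
      have hr3 := hg3 r hr hr2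
      have hr4 : r ≤ Real.exp (-1) := (hr3.trans_le (min_le_right _ _)).le
      refine ⟨x, K * r, by positivity, hδ' r hr3, ?_, ?_⟩
      · rw [Metric.mem_closedBall, dist_comm, dist_eq_norm]
        nlinarith
      · rw [Measure.add_apply]
        refine le_trans ?_ le_add_self
        rw [Measure.smul_apply, smul_eq_mul, Measure.restrict_apply measurableSet_closedBall]
        have hsub : E ∩ Metric.ball x (K * r) ⊆
            Metric.closedBall x (K * r) ∩ (E ∩ Metric.ball 0 (R + 1 + K)) := by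
          rintro z ⟨hz1, hz2⟩
          refine ⟨Metric.ball_subset_closedBall hz2, hz1, ?_⟩
          rw [Metric.mem_ball] at hz2 hxR ⊢
          have h1 := dist_triangle z x 0
          have h2 : K * r ≤ K := mul_le_of_le_one_right (by linarith) (by linarith)
          linarith
        refine le_trans ?_ (mul_le_mul_right (le_trans hF (measure_mono hsub)) _)
        rw [← ENNReal.ofReal_mul (by positivity), ← ENNReal.ofReal_mul (by positivity)]
        refine ENNReal.ofReal_le_ofReal ?_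
        have h1 := hg2 r hr hr2
        have h2 := mul_le_mul_of_nonneg_left (Upper_gauge h8 hε hεr hr4) hC₂.le
        have h3 : ε ^ be κ ≠ 0 := (Real.rpow_pos_of_pos hε _).ne'
        rw [Real.rpow_neg hε.le, ← mul_assoc 10]
        refine (h1.trans h2).trans (le_of_eq ?_)
        field_simp
  · rw [Measure.add_apply, Measure.smul_apply, Measure.smul_apply, smul_eq_mul, smul_eq_mul,
      Measure.restrict_apply_univ, Measure.restrict_apply_univ, mul_assoc, mul_assoc]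
    exact add_le_add (mul_le_mul_right b1 _) (mul_le_mul_right b2 _)

end Vale.Agent.P164
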