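import Vale.Agent.P164.UMain
import Vale.Agent.P164.Gauge
import Vale.Agent.P164.UpperA
import Vale.Agent.P164.UpperB

/-!
# P164 UpperC

The probabilistic part of the upper bound. For small `ε`: `e = 400 ε`, `r = ε ^ (1 / 4)`,
`J = ⌊log (1 / ε) / (4 log 8)⌋`, so that `r / 8 ^ J ≥ ε ^ (1 / 2)`, `ℓ = log (log (1 / ε))`,
`m = ⌊√(ℓ / (2 log (1 / p)))⌋`, so that `p ^ (m ^ 2) ≥ log (1 / ε) ^ (-1 / 2)`.
`Bad` is the set of `x ∈ ball 0 (R + 1)` with `|im x| ≤ 2 ε`, or in `Ever` with `im x < r`, or in `Ever` with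
`r ≤ im x` and no good scale. Tonelli, `op_ever`, `umain`, Fatou.
-/

open MeasureTheory ProbabilityTheory Set Filter Topology Complex Function
open scoped NNReal ENNReal ComplexConjugate

noncomputable section

namespace Vale.Agent.P164

variable {κ : ℝ}

theorem UpperC_tonelli (μ : Measure Path) [IsProbabilityMeasure μ] {Bad : Set (Path × ℂ)}
    (hB : MeasurableSet Bad) (a : ℝ≥0∞) :
    ∫⁻ w, a * volume (Prod.mk w ⁻¹' Bad) ∂μ = a * ∫⁻ x, μ ((fun w => (w, x)) ⁻¹' Bad) := by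
  rw [lintegral_const_mul _ (measurable_measure_prodMk_left hB), ← Measure.prod_apply hB,
    Measure.prod_apply_symm hB]

theorem UpperC_strip {R : ℝ} (a : ℝ) (hR : 0 < R) :
    volume (Metric.ball (0 : ℂ) R ∩ {x | |x.im| ≤ a}) ≤ ENNReal.ofReal (4 * R * a) := by
  have h1 : Metric.ball (0 : ℂ) R ∩ {x | |x.im| ≤ a} ⊆
      measurableEquivRealProd ⁻¹' (Icc (-R) R ×ˢ Icc (-a) a) := by
    rintro x ⟨h1, h2⟩
    rw [mem_ball_zero_iff] at h1
    have h3 := (abs_re_le_norm x).trans h1.le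
    exact ⟨abs_le.1 h3, abs_le.1 h2⟩
  refine (measure_mono h1).trans ?_
  rw [volume_preserving_equiv_real_prod.measure_preimage_equiv, Measure.volume_eq_prod,
    Measure.prod_prod, Real.volume_Icc, Real.volume_Icc, ← ENNReal.ofReal_mul (by linarith)]
  exact le_of_eq (by congr 1; ring)

theorem UpperC_meas (R r : ℝ) :
    MeasurableSet (Metric.ball (0 : ℂ) R ∩ {x | 0 < x.im ∧ x.im < r}) :=
  Metric.isOpen_ball.measurableSet.inter
    ((measurableSet_lt measurable_const measurable_im).inter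
      (measurableSet_lt measurable_im measurable_const))

theorem UpperC_int (h0 : 0 < κ) (h8 : κ < 8) {R r a A₂ A₃ : ℝ} (hR : 0 < R) (hr : 0 < r)
    (ha : 0 < a) (h2 : 0 ≤ A₂) (h3 : 0 ≤ A₃) {F : ℂ → ℝ≥0∞}
    (hF : ∀ x, F x ≤ (Metric.ball (0 : ℂ) R ∩ {x | |x.im| ≤ a}).indicator 1 x +
      (Metric.ball (0 : ℂ) R ∩ {x | 0 < x.im ∧ x.im < r}).indicator
        (fun x => ENNReal.ofReal A₂ * ENNReal.ofReal (x.im ^ (-be κ))) x +
      (Metric.ball (0 : ℂ) R ∩ {x | 0 < x.im ∧ x.im < R}).indicator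
        (fun x => ENNReal.ofReal A₃ * ENNReal.ofReal (x.im ^ (-be κ))) x) :
    ∫⁻ x, F x ≤ ENNReal.ofReal (4 * R * a + A₂ * (2 * R * r ^ (1 - be κ) / (1 - be κ)) +
      A₃ * (2 * R * R ^ (1 - be κ) / (1 - be κ))) := by
  have hb : 0 < 1 - be κ := by unfold be; linarith
  have hm1 : MeasurableSet (Metric.ball (0 : ℂ) R ∩ {x | |x.im| ≤ a}) :=
    Metric.isOpen_ball.measurableSet.inter
      (measurableSet_le (continuous_abs.measurable.comp measurable_im) measurable_const)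
  have hf : Measurable fun x : ℂ => ENNReal.ofReal (x.im ^ (-be κ)) :=
    (measurable_im.pow_const _).ennreal_ofReal
  refine (lintegral_mono hF).trans ?_
  rw [lintegral_add_right _ ((hf.const_mul _).indicator (UpperC_meas R R)),
    lintegral_add_right _ ((hf.const_mul _).indicator (UpperC_meas R r)),
    lintegral_indicator_one hm1, lintegral_indicator (UpperC_meas R r),
    lintegral_indicator (UpperC_meas R R), lintegral_const_mul _ hf, lintegral_const_mul _ hf,
    ENNReal.ofReal_add (by positivity) (by positivity),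
    ENNReal.ofReal_add (by positivity) (by positivity), ENNReal.ofReal_mul h2,
    ENNReal.ofReal_mul h3]
  gcongr
  · exact UpperC_strip a hR
  · exact strip_le h0 h8 hR hr
  · exact strip_le h0 h8 hR hR

theorem UpperC_le (μ : Measure Path) [IsProbabilityMeasure μ] {S : Set Path} {C e y δ b : ℝ}
    (hC : 0 ≤ C) (he : 0 < e) (hy : 0 < y) (hδ : 0 ≤ δ) (h : μ.real S ≤ C * (e / y) ^ b * δ) :
    μ S ≤ ENNReal.ofReal (C * e ^ b * δ) * ENNReal.ofReal (y ^ (-b)) := by
  rw [← ofReal_measureReal (μ := μ) (s := S), ← ENNReal.ofReal_mul (by positivity)]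
  refine ENNReal.ofReal_le_ofReal (h.trans (le_of_eq ?_))
  rw [Real.div_rpow he.le hy.le, Real.rpow_neg hy.le]
  ring

theorem exp_bad (h0 : 0 < κ) (h8 : κ < 8) : ∃ K c : ℝ, 1 ≤ K ∧ 0 < c ∧ ∀ R T : ℝ, 0 < R → 0 < T →
    ∃ C : ℝ, ∀ᶠ ε in 𝓝[>] (0 : ℝ), ∃ Bad : Set (Path × ℂ), MeasurableSet Bad ∧
      (∀ μ : Measure Path, IsW κ μ → ∫⁻ w, ENNReal.ofReal (gaugeFn κ ε / ε ^ 2) *
        volume (Prod.mk w ⁻¹' Bad) ∂μ ≤ ENNReal.ofReal C) ∧
      ∀ w, ∀ x ∈ Metric.ball (0 : ℂ) (R + 1), (|x.im| ≤ 2 * ε → (w, x) ∈ Bad) ∧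
        (x ∈ Ever (pf w) T (400 * ε) → (w, x) ∈ Bad ∨ ∃ r ∈ Icc (√ε) (ε ^ (1 / 4 : ℝ)),
          Fat (pf w) (T + (R + 1) ^ 2) (400 * ε) (Metric.ball x (K * r))
            (c * r ^ dd κ * Real.log (Real.log (1 / ε)) ^ (be κ / 2) * ε ^ be κ)) := by
  obtain ⟨K, c, p, e₀, C, m₀, hK, hc, hp, hp1, he₀, hC, hm₀, hU⟩ := umain h0 h8
  obtain ⟨c', hc', hP⟩ := params_up h0 h8 hp hp1 he₀ m₀
  obtain ⟨C₁, hC₁, hO⟩ := op_ever h0 h8
  have hb : 0 < 1 - be κ := by unfold be; linarith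
  have hb0 : 0 < be κ := by unfold be; linarith
  refine ⟨K, c * c', hK, by positivity, fun R T hR hT => ?_⟩
  have hR' : 0 < R + 1 := by linarith
  refine ⟨8 * (R + 1) + C₁ * 400 ^ be κ * (2 * (R + 1) / (1 - be κ)) +
    C * 400 ^ be κ * (2 * (R + 1) * (R + 1) ^ (1 - be κ) / (1 - be κ)), ?_⟩
  have hsm : ∀ᶠ ε in 𝓝[>] (0 : ℝ), ε ∈ Ioo 0 (Real.exp (-1)) :=
    Ioo_mem_nhdsGT (Real.exp_pos _)
  filter_upwards [hP, hsm] with ε ⟨m, J, hm, hJ, hem, hcm, hδ, hLr⟩ ⟨hε, hε1⟩
  have hε1' : ε ≤ 1 := hε1.le.trans (Real.exp_le_one_iff.2 (by norm_num))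
  have hl : 0 ≤ Real.log (Real.log (1 / ε)) := by
    refine Real.log_nonneg ?_
    rw [one_div, Real.log_inv]
    have := Real.log_lt_log hε hε1
    rw [Real.log_exp] at this
    linarith
  set L := Real.log (Real.log (1 / ε)) ^ (be κ / 2) with hLdef
  have hL : 0 ≤ L := Real.rpow_nonneg hl _
  set r := ε ^ (1 / 4 : ℝ) with hrdef
  have hr : 0 < r := Real.rpow_pos_of_pos hε _
  have hεr : ε ≤ r := by
    have := Real.rpow_le_rpow_of_exponent_ge hε hε1' (show (1 / 4 : ℝ) ≤ 1 by norm_num)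
    rwa [Real.rpow_one] at this
  set δ := (1 - p ^ (m ^ 2)) ^ J + (400 * ε / (r / 8 ^ J)) ^ dd κ with hδdef
  have hδ0 : 0 ≤ δ := by
    have : 0 ≤ 1 - p ^ (m ^ 2) := sub_nonneg.2 (pow_le_one₀ hp.le hp1.le)
    positivity
  have he : 0 < 400 * ε := by positivity
  let Bad : Set (Path × ℂ) := {q | q.2 ∈ Metric.ball (0 : ℂ) (R + 1) ∧ (|q.2.im| ≤ 2 * ε ∨
    (q.2 ∈ Ever (pf q.1) T (400 * ε) ∧ q.2.im < r) ∨
    (q.2 ∈ Ever (pf q.1) T (400 * ε) ∧ r ≤ q.2.im ∧
      ∀ j < J, ¬ Good κ K c m (400 * ε) (pf q.1) (T + (R + 1) ^ 2) q.2 (r / 8 ^ j)))}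
  have hBm : MeasurableSet Bad := by
    have hE : MeasurableSet {q : Path × ℂ | q.2 ∈ Ever (pf q.1) T (400 * ε)} :=
      measurableSet_ever T _ measurable_fst measurable_snd
    have him : Measurable fun q : Path × ℂ => q.2.im := measurable_im.comp measurable_snd
    have hG : MeasurableSet {q : Path × ℂ | ∀ j < J,
        ¬ Good κ K c m (400 * ε) (pf q.1) (T + (R + 1) ^ 2) q.2 (r / 8 ^ j)} := by
      simp only [ofPred_forall]
      exact MeasurableSet.iInter fun j => MeasurableSet.iInter fun _ =>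
        (measurableSet_good κ K c m _ _ _ measurable_fst measurable_snd).compl
    exact (measurable_snd Metric.isOpen_ball.measurableSet).inter
      ((measurableSet_le (continuous_abs.measurable.comp him) measurable_const).union
        ((hE.inter (measurableSet_lt him measurable_const)).union
          (hE.inter ((measurableSet_le measurable_const him).inter hG))))
  refine ⟨Bad, hBm, fun μ hμ => ?_, fun w x hx => ⟨fun h => ⟨hx, Or.inl h⟩, fun h => ?_⟩⟩
  · have := hμ.prob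
    rw [UpperC_tonelli μ hBm]
    have hI := UpperC_int h0 h8 (F := fun x => μ ((fun w => (w, x)) ⁻¹' Bad)) hR' hr
      (show 0 < 2 * ε by positivity) (A₂ := C₁ * (400 * ε) ^ be κ * 1)
      (A₃ := C * (400 * ε) ^ be κ * δ) (by positivity) (by positivity) fun x => ?_
    · refine (mul_le_mul_right hI _).trans ?_
      have hg : gaugeFn κ ε / ε ^ 2 = L / ε ^ be κ := by
        have h2 : ε ^ 2 = ε ^ dd κ * ε ^ be κ := by
          rw [← Real.rpow_add hε, show dd κ + be κ = (2 : ℕ) by unfold dd be; push_cast; ring,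
            Real.rpow_natCast]
        rw [gaugeFn_eq, h2, mul_div_mul_left _ _ (Real.rpow_pos_of_pos hε _).ne']
      have hεb : 0 < ε ^ be κ := Real.rpow_pos_of_pos hε _
      rw [hg, ← ENNReal.ofReal_mul (by positivity)]
      refine ENNReal.ofReal_le_ofReal ?_
      rw [Real.mul_rpow (by norm_num) hε.le]
      have h1 : L * ε ^ (1 - be κ) ≤ 1 :=
        (mul_le_mul_of_nonneg_left (Real.rpow_le_rpow hε.le hεr hb.le) hL).trans hLr
      have h1' : ε ^ (1 - be κ) = ε / ε ^ be κ := by rw [Real.rpow_sub hε, Real.rpow_one]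
      have e1 : L / ε ^ be κ * (4 * (R + 1) * (2 * ε) +
          C₁ * (400 ^ be κ * ε ^ be κ) * 1 * (2 * (R + 1) * r ^ (1 - be κ) / (1 - be κ)) +
          C * (400 ^ be κ * ε ^ be κ) * δ * (2 * (R + 1) * (R + 1) ^ (1 - be κ) / (1 - be κ))) =
          8 * (R + 1) * (L * ε ^ (1 - be κ)) +
          C₁ * 400 ^ be κ * (2 * (R + 1) / (1 - be κ)) * (L * r ^ (1 - be κ)) +
          C * 400 ^ be κ * (2 * (R + 1) * (R + 1) ^ (1 - be κ) / (1 - be κ)) * (L * δ) := by
        rw [h1']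
        field_simp
        ring
      rw [e1]
      exact add_le_add (add_le_add (mul_le_of_le_one_right (by positivity) h1)
        (mul_le_of_le_one_right (by positivity) hLr)) (mul_le_of_le_one_right (by positivity) hδ)
    · by_cases hx : x ∈ Metric.ball (0 : ℂ) (R + 1)
      swap
      · have : (fun w => (w, x)) ⁻¹' Bad = ∅ := eq_empty_of_forall_notMem fun w h => hx h.1
        rw [this, measure_empty]
        exact zero_le
      by_cases h1 : |x.im| ≤ 2 * ε
      · rw [indicator_of_mem (show x ∈ _ ∩ _ from ⟨hx, h1⟩), add_assoc]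
        exact prob_le_one.trans le_self_add
      by_cases hpos : 0 < x.im
      swap
      · have : (fun w => (w, x)) ⁻¹' Bad = ∅ := by
          refine eq_empty_of_forall_notMem fun w h => ?_
          rcases h.2 with h | h | h
          · exact h1 h
          · exact hpos (ever_sub (continuous_pf w) _ _ h.1)
          · exact hpos (ever_sub (continuous_pf w) _ _ h.1)
        rw [this, measure_empty]
        exact zero_le
      have hxR : x.im < R + 1 :=
        ((le_abs_self _).trans (abs_im_le_norm x)).trans_lt (mem_ball_zero_iff.1 hx)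
      rcases lt_or_ge x.im r with h2 | h2
      · have hs : (fun w => (w, x)) ⁻¹' Bad ⊆ {w | x ∈ Ever (pf w) T (400 * ε)} := by
          intro w h
          rcases h.2 with h | h | h
          · exact absurd h h1
          · exact h.1
          · exact h.1
        rw [indicator_of_mem (show x ∈ Metric.ball (0 : ℂ) (R + 1) ∩
          {x | 0 < x.im ∧ x.im < r} from ⟨hx, hpos, h2⟩)]
        refine (measure_mono hs).trans (le_trans ?_ (le_self_add.trans' le_add_self))
        exact UpperC_le μ hC₁.le he hpos zero_le_one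
          (by rw [mul_one]; exact hO μ _ T x hμ he hT hpos)
      · have hs : (fun w => (w, x)) ⁻¹' Bad ⊆ {w | x ∈ Ever (pf w) T (400 * ε) ∧
            ∀ j < J, ¬ Good κ K c m (400 * ε) (pf w) (T + (R + 1) ^ 2) x (r / 8 ^ j)} := by
          intro w h
          rcases h.2 with h | h | h
          · exact absurd h h1
          · exact absurd h.2 (not_lt.2 h2)
          · exact ⟨h.1, h.2.2⟩
        rw [indicator_of_mem (show x ∈ Metric.ball (0 : ℂ) (R + 1) ∩
          {x | 0 < x.im ∧ x.im < R + 1} from ⟨hx, hpos, hxR⟩)]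
        refine (measure_mono hs).trans (le_trans ?_ le_add_self)
        refine UpperC_le μ hC.le he hpos hδ0 (hU m hm μ T _ r _ x J hμ hT ?_ hr h2 he hem)
        gcongr
  · rcases lt_or_ge x.im r with h2 | h2
    · exact Or.inl ⟨hx, Or.inr (Or.inl ⟨h, h2⟩)⟩
    by_cases hg : ∀ j < J, ¬ Good κ K c m (400 * ε) (pf w) (T + (R + 1) ^ 2) x (r / 8 ^ j)
    · exact Or.inl ⟨hx, Or.inr (Or.inr ⟨h, h2, hg⟩)⟩
    right
    push Not at hg
    obtain ⟨j, hj, hg⟩ := hg
    have h8j : (0 : ℝ) < 8 ^ j := by positivity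
    refine ⟨r / 8 ^ j, ⟨hJ.trans ?_, div_le_self hr.le (one_le_pow₀ (by norm_num))⟩, ?_⟩
    · exact div_le_div_of_nonneg_left hr.le h8j (pow_le_pow_right₀ (by norm_num) hj.le)
    · refine le_trans (ENNReal.ofReal_le_ofReal ?_) hg
      have h1 : ε ^ be κ ≤ (400 * ε) ^ be κ := Real.rpow_le_rpow hε.le (by linarith) hb0.le
      have h3 : 0 ≤ (r / 8 ^ j) ^ dd κ := by positivity
      calc c * c' * (r / 8 ^ j) ^ dd κ * L * ε ^ be κ
          = c * (c' * L) * (r / 8 ^ j) ^ dd κ * ε ^ be κ := by ring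
        _ ≤ c * (m : ℝ) ^ be κ * (r / 8 ^ j) ^ dd κ * (400 * ε) ^ be κ := by gcongr

end Vale.Agent.P164
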