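import Vale.Agent.P164.UMain
import Vale.Agent.P164.Gauge
import Vale.Agent.P164.UpperA
import Vale.Agent.P164.UpperB
import Vale.Agent.P164.UpperC

/-!
# P164 UpperP

The probabilistic part of the upper bound. For small `ε`: `e = 400 ε`, `r = ε ^ (1 / 4)`,
`J = ⌊log (1 / ε) / (4 log 8)⌋`, so that `r / 8 ^ J ≥ ε ^ (1 / 2)`, `ℓ = log (log (1 / ε))`,
`m = ⌊√(ℓ / (2 log (1 / p)))⌋`, so that `p ^ (m ^ 2) ≥ log (1 / ε) ^ (-1 / 2)`.
`Bad` is the set of `x ∈ ball 0 (R + 1)` with `|im x| ≤ 2 ε`, or in `Ever` with `im x < r`, or in `Ever` with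
`r ≤ im x` and no good scale. Tonelli, `op_ever`, `umain`, Fatou.
-/

open MeasureTheory ProbabilityTheory Set Filter Topology Complex Function
open scoped NNReal ENNReal ComplexConjugate

noncomputable section

namespace Vale.Agent.P164

variable {κ : ℝ}

theorem UpperP_fatou {Ω : Type} [MeasurableSpace Ω] {μ : Measure Ω} {f : ℕ → Ω → ℝ≥0∞}
    (hf : ∀ n, Measurable (f n)) {C : ℝ≥0∞} (hC : C ≠ ⊤) (h : ∀ n, ∫⁻ w, f n w ∂μ ≤ C) :
    ∀ᵐ w ∂μ, ∃ M : ℝ, ∃ᶠ n in atTop, f n w ≤ ENNReal.ofReal M := by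
  have h1 : ∫⁻ w, liminf (fun n => f n w) atTop ∂μ ≤ C :=
    (lintegral_liminf_le hf).trans (liminf_le_of_frequently_le' (Frequently.of_forall h))
  filter_upwards [ae_lt_top (Measurable.liminf hf) (ne_top_of_le_ne_top hC h1)] with w hw
  refine ⟨(liminf (fun n => f n w) atTop).toReal + 1,
    (frequently_lt_of_liminf_lt (u := fun n => f n w) (h := ?_)).mono fun n hn => hn.le⟩
  rw [ENNReal.ofReal_add ENNReal.toReal_nonneg zero_le_one, ENNReal.ofReal_toReal hw.ne,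
    ENNReal.ofReal_one]
  exact ENNReal.lt_add_right hw.ne one_ne_zero

/-- along a sequence `ε k → 0`, Fatou's lemma `lintegral_liminf_le` for the sum of the two terms -/
theorem upper_prob (h0 : 0 < κ) (h8 : κ < 8) : ∃ K c : ℝ, 1 ≤ K ∧ 0 < c ∧
    ∀ (μ : Measure Path) (R T : ℝ), IsW κ μ → 0 < R → 0 < T → ∀ᵐ w ∂μ, ∃ M : ℝ,
    ∃ᶠ ε in 𝓝[>] (0 : ℝ), ∃ Bad : Set ℂ, MeasurableSet Bad ∧
      ENNReal.ofReal (gaugeFn κ ε / ε ^ 2) * volume Bad ≤ ENNReal.ofReal M ∧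
      ENNReal.ofReal (ε ^ (-be κ)) *
        volume (Ever (pf w) (T + (R + 1) ^ 2) (400 * ε) ∩ Metric.ball 0 (R + 1 + K))
        ≤ ENNReal.ofReal M ∧
      ∀ x ∈ Metric.ball (0 : ℂ) (R + 1), (|x.im| ≤ 2 * ε → x ∈ Bad) ∧
        (x ∈ Ever (pf w) T (400 * ε) → x ∈ Bad ∨ ∃ r ∈ Icc (√ε) (ε ^ (1 / 4 : ℝ)),
          Fat (pf w) (T + (R + 1) ^ 2) (400 * ε) (Metric.ball x (K * r))
            (c * r ^ dd κ * Real.log (Real.log (1 / ε)) ^ (be κ / 2) * ε ^ be κ)) := by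
  obtain ⟨K, c, hK, hc, hb⟩ := exp_bad h0 h8
  refine ⟨K, c, hK, hc, fun μ R T hμ hR hT => ?_⟩
  obtain ⟨C, hev⟩ := hb R T hR hT
  obtain ⟨C', hC', hv⟩ := exp_vol_ever h0 h8 (R := R + 1 + K) (by linarith)
  obtain ⟨ε, hε, hs⟩ := exists_seq_forall_of_frequently
    (hev.and (self_mem_nhdsWithin (s := Ioi (0 : ℝ)))).frequently
  have hp : ∀ n, 0 < ε n := fun n => (hs n).2
  choose Bad hm hi hx using fun n => (hs n).1
  have m1 : ∀ n, Measurable fun w : Path => ENNReal.ofReal (gaugeFn κ (ε n) / ε n ^ 2) *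
      volume (Prod.mk w ⁻¹' Bad n) := fun n => (measurable_measure_prodMk_left (hm n)).const_mul _
  have m2 : ∀ n, Measurable fun w : Path =>
      volume (Ever (pf w) (T + (R + 1) ^ 2) (400 * ε n) ∩ Metric.ball 0 (R + 1 + K)) := fun n =>
    measurable_vol_ever _ _ measurable_id (D := fun _ => Metric.ball 0 (R + 1 + K))
      (measurable_snd measurableSet_ball)
  have key := UpperP_fatou (μ := μ) (C := ENNReal.ofReal C + ENNReal.ofReal (C' * 400 ^ be κ))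
    (fun n => (m1 n).add ((m2 n).const_mul (ENNReal.ofReal (ε n ^ (-be κ)))))
    (ENNReal.add_ne_top.2 ⟨ENNReal.ofReal_ne_top, ENNReal.ofReal_ne_top⟩) fun n => by
      simp only [Pi.add_apply]
      rw [lintegral_add_left (m1 n), lintegral_const_mul _ (m2 n)]
      refine add_le_add (hi n μ hμ) ((mul_le_mul_right
        (hv μ _ (400 * ε n) hμ (by positivity) (mul_pos (by norm_num) (hp n))) _).trans
        (le_of_eq ?_))
      have h1 := Real.rpow_pos_of_pos (hp n) (be κ)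
      rw [← ENNReal.ofReal_mul (Real.rpow_nonneg (hp n).le _), Real.rpow_neg (hp n).le,
        Real.mul_rpow (by norm_num) (hp n).le]
      congr 1
      field_simp
  filter_upwards [key] with w hw
  obtain ⟨M, hM⟩ := hw
  refine ⟨M, hε.frequently (hM.mono fun n hn => ?_)⟩
  exact ⟨Prod.mk w ⁻¹' Bad n, measurable_prodMk_left (hm n), le_self_add.trans hn,
    le_add_self.trans hn, hx n w⟩

end Vale.Agent.P164
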